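import Vale.Agent.P283R.Cx.Gk
import Vale.Agent.P283R.Sl.Ga
import Vale.Agent.P283R.Bh.Sch
import Vale.Agent.P283R.Br.Glue

/-!
# P283R: the class `Generated`
-/

open CategoryTheory AlgebraicGeometry

noncomputable section

namespace Vale.Agent.P283R.Sl

open Var

/-- a common denominator of the coefficients -/
theorem On.den {C : ℕ → ∀ (d : ℕ) (X Z : Var), (X.X ⟶ Z.X) → X.Form d → X.QDiv → Pt Z.X → Prop}
    (h : ∀ q, 1 ≤ q → On (C q)) : On fun d X Z f ω B z =>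
      ∀ q : ℕ, (∀ E, ∃ m : ℤ, q * B.coeff E = m) → C q d X Z f ω B z := by
  intro d hd ε hε R hR
  obtain ⟨n, hn, H⟩ := h (∏ r ∈ R, r.den) (Finset.one_le_prod' fun r _ => r.den_pos) d hd ε hε R hR
  refine ⟨n, hn, fun X Z f ω B z a b c e s t u => H X Z f ω B z a b c e s t (u _ fun E => ?_)⟩
  by_cases z : B.coeff E = 0
  · exact ⟨0, by simp [z]⟩
  · obtain ⟨w, hw⟩ := Finset.dvd_prod_of_mem Rat.den (e E z)
    refine ⟨w * (B.coeff E).num, ?_⟩
    rw [hw]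
    push_cast
    rw [mul_comm (_ : ℚ) (w : ℚ), mul_assoc, Rat.den_mul_eq_num]

/-- birational contractions -/
theorem on_bir (h : Bh.QH True) (l : ℕ) :
    On fun _ _ _ f ω B z => FanoType f ω ∧ NefOver f (-logCan ω B) ∧ (∃ p, IsPull f p) ∧
      Generated l f ω B z :=
  (On.den fun _ hq => on_rel h hq l).mono
    fun _ _ _ _ _ _ _ ⟨u1, u2, u3, k, N, V, D, le, hV, zV, h1, h2, _⟩ q hq =>
      ⟨u1, u2, u3, k, N, V, D, le, hV, zV, h1, h2 q hq⟩

/-- all contractions -/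
theorem on_any (h : Bh.QH True) (h' : Bh.QH False) (l : ℕ) :
    On fun _ _ _ f ω B z => FanoType f ω ∧ NefOver f (-logCan ω B) ∧ Generated l f ω B z :=
  ((on_bir h l).or (On.den fun q hq => on_gk (q := q) (p := fun k N => N ≤ k + l) fun n ε e =>
    (h' l n q ε hq e).imp fun _ w => ⟨w.1, fun k N _ => w.2 k N⟩)).mono
    fun _ _ _ _ _ _ _ ⟨u1, u2, k, N, V, D, le, hV, zV, h1, h2, h3⟩ => h3.imp
      (fun e => ⟨u1, u2, e, k, N, V, D, le, hV, zV, h1, h2, .inl e⟩)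
      fun e q hq => ⟨u1, u2, k, N, le, V, D, hV, zV, h1, h2 q hq, e⟩

/-- **UN**: finite generation of the rings of sections -/
def UN : Prop := ∀ (d : ℕ) (X Z : Var) (f : X.X ⟶ Z.X) (ω : X.Form d) (z : Pt Z.X), 1 ≤ d →
  dimension X.str = d → ω.Nonzero → Contraction f → FanoType f ω → z.Closed →
  ∀ (k : ℕ) (D : Fin k → X.Div), ∃ (V : Z.X.Opens) (N : ℕ), IsAffineOpen V ∧ z.In V ∧
    GradedGen N fun m => sections (pre f V) (comb D m)

theorem least {X : Var} (B : X.QDiv) : ∃ r : ℕ, (∀ E, ∃ m : ℤ, r * B.coeff E = m) ∧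
    ∀ q : ℕ, (∀ E, ∃ m : ℤ, q * B.coeff E = m) → r ∣ q := by
  classical
  have e : ∃ r : ℕ, 0 < r ∧ ∀ E, ∃ m : ℤ, r * B.coeff E = m := by
    refine ⟨∏ E ∈ B.support, (B E).den, Finset.prod_pos fun E _ => (B E).den_pos, fun E => ?_⟩
    by_cases z : B E = 0
    · exact ⟨0, by simp [z]⟩
    · obtain ⟨w, hw⟩ := Finset.dvd_prod_of_mem (fun E => (B E).den) (Finsupp.mem_support_iff.2 z)
      refine ⟨w * (B E).num, ?_⟩
      rw [hw]
      push_cast
      rw [mul_comm (_ : ℚ) (w : ℚ), mul_assoc, Rat.den_mul_eq_num]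
  obtain ⟨r0, hr⟩ := Nat.find_spec e
  refine ⟨Nat.find e, hr, fun q hq => Nat.dvd_of_mod_eq_zero (by_contra fun z => ?_)⟩
  refine Nat.find_min e (Nat.mod_lt q r0) ⟨Nat.pos_of_ne_zero z, fun E => ?_⟩
  obtain ⟨a, ha⟩ := hq E
  obtain ⟨b, hb⟩ := hr E
  refine ⟨a - (q / Nat.find e : ℕ) * b, ?_⟩
  have := congrArg (Nat.cast : ℕ → ℚ) (Nat.mod_add_div q (Nat.find e))
  rw [Nat.cast_add, Nat.cast_mul] at this
  rw [Int.cast_sub, Int.cast_mul, Int.cast_natCast, ← ha, ← hb, ← this]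
  ring

/-- every contraction of Fano type is in the class for some `l` -/
theorem gen_all (h : UN) {d : ℕ} (hd : 1 ≤ d) (X Z : Var) (f : X.X ⟶ Z.X) (ω : X.Form d)
    (B : X.QDiv) (z : Pt Z.X) (a : dimension X.str = d) (b : ω.Nonzero) (s : Contraction f)
    (u : FanoType f ω) (t : z.Closed) : ∃ l, Generated l f ω B z := by
  obtain ⟨n, rfl⟩ : ∃ n, d = n + 1 := ⟨d - 1, by omega⟩
  have hK := P283M.Br.ffd X.o _ a
  obtain ⟨j, -, fr⟩ := P283M.Br.frm X.o _ hK ω b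
  obtain ⟨r, hr, hr'⟩ := least B
  choose c hc using hr
  let D : Fin 2 → X.Div := ![Finsupp.ofSupportFinite _ (P283R.Br.form_fin hK fr),
    Finsupp.ofSupportFinite c (B.support.finite_toSet.subset fun E e =>
      Finsupp.mem_support_iff.2 fun z => e (by simpa [z] using (hc E).symm))]
  have o : ∀ E : X.PrimeDiv, ord 1 E = 0 := fun E => by simpa using ord_pow one_ne_zero E 0
  have e : ∀ (x y : ℤ) E, comb D ![x, y] E = x * formOrd ω (RingEquiv.refl X.K) E + y * c E :=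
    fun x y E => Fin.sum_univ_two _
  obtain ⟨V, N, hV, zV, g⟩ := h _ X Z f ω z hd a b s u t 2 D
  refine ⟨N, 2, N, V, D, Nat.le_add_left _ _, hV, zV, g, fun q hq => ?_,
    .inr ⟨![1, 0], 1, one_ne_zero, fun E _ => ?_⟩⟩
  · obtain ⟨w, rfl⟩ := hr' q hq
    refine ⟨![r * w, w], 1, one_ne_zero, fun E _ => ?_⟩
    rw [o, e]
    simp only [logCan]
    push_cast
    rw [← hc]
    ring
  · rw [o, e, logCan]
    simp [QDiv.coeff]

end Vale.Agent.P283R.Sl
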