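import Vale.Agent.P283R.Cx.St

/-!
# P283R, block CX: homogeneous elements, the grading
-/

open Set

noncomputable section

namespace Vale.Agent.P283R.Cx

open Vale.Agent.P287D Vale.Agent.P297Z
open Vale.Agent.P283R.To (mon mon_ne mon_add ord_mon)

variable {K F : Type} [Field K] [Field F] [Algebra K F] {d k N : ℕ} {t : Fin k → F}

theorem mon_zero (t : Fin k → F) : mon t 0 = 1 := by simp [mon]

theorem hm_ne (ht : ∀ i, t i ≠ 0) {φ : K} (h : φ ≠ 0) (e : Fin k → ℤ) : hm t φ e ≠ 0 :=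
  mul_ne_zero ((map_ne_zero _).2 h) (mon_ne ht e)

theorem hm_mul (ht : ∀ i, t i ≠ 0) (φ ψ : K) (e e' : Fin k → ℤ) :
    hm t (φ * ψ) (e + e') = hm t φ e * hm t ψ e' := by
  rw [hm, hm, hm, map_mul, mon_add ht]; ring

theorem hm_zero (t : Fin k → F) (e : Fin k → ℤ) : hm t (0 : K) e = 0 := by simp [hm]

theorem hm_deg0 (t : Fin k → F) (φ : K) : hm t φ 0 = algebraMap K F φ := by simp [hm, mon_zero]

theorem hm_one (t : Fin k → F) : hm t (1 : K) 0 = 1 := by simp [hm_deg0]

theorem hm_add (t : Fin k → F) (φ ψ : K) (e : Fin k → ℤ) :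
    hm t (φ + ψ) e = hm t φ e + hm t ψ e := by simp [hm, add_mul]

theorem hm_single (t : Fin k → F) (i : Fin k) : hm t (1 : K) (Pi.single i 1) = t i := by
  rw [hm, map_one, one_mul, mon, Finset.prod_eq_single i (fun j _ h => by simp [h]) (by simp)]
  simp

theorem hm_pow (ht : ∀ i, t i ≠ 0) (φ : K) (e : Fin k → ℤ) (n : ℕ) :
    hm t (φ ^ n) ((n : ℤ) • e) = hm t φ e ^ n := by
  induction n with
  | zero => simp [hm_one]
  | succ n ih => rw [pow_succ, pow_succ, ← ih, ← hm_mul ht]; push_cast; rw [add_smul, one_smul]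

theorem hm_inv (ht : ∀ i, t i ≠ 0) (φ : K) (e : Fin k → ℤ) : hm t φ⁻¹ (-e) = (hm t φ e)⁻¹ := by
  by_cases h : φ = 0
  · simp [h, hm_zero]
  · refine eq_inv_of_mul_eq_one_left ?_
    rw [← hm_mul ht, inv_mul_cancel₀ h, neg_add_cancel, hm_one]

theorem dg_add (a : Fin N → Fin k → ℤ) (c c' : Fin N → ℕ) : dg a (c + c') = dg a c + dg a c' := by
  funext i
  simp [dg, add_mul, Finset.sum_add_distrib]

theorem dg_zero (a : Fin N → Fin k → ℤ) : dg a 0 = 0 := by
  funext i
  simp [dg]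

theorem dg_single (a : Fin N → Fin k → ℤ) (j : Fin N) : dg a (Pi.single j 1) = a j := by
  funext i
  rw [dg, Finset.sum_eq_single j (fun l _ h => by simp [h]) (by simp)]
  simp

theorem hm_prod (ht : ∀ i, t i ≠ 0) (s : Fin N → K) (a : Fin N → Fin k → ℤ) (c : Fin N → ℕ) :
    hm t (∏ j, s j ^ c j) (dg a c) = ∏ j, hm t (s j) (a j) ^ c j := by
  have : ∀ T : Finset (Fin N), hm t (∏ j ∈ T, s j ^ c j) (∑ j ∈ T, (c j : ℤ) • a j) =
      ∏ j ∈ T, hm t (s j) (a j) ^ c j := fun T => by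
    induction T using Finset.induction_on with
    | empty => simp [hm_one]
    | insert j T hj ih =>
      rw [Finset.prod_insert hj, Finset.sum_insert hj, Finset.prod_insert hj, hm_mul ht, ih,
        hm_pow ht]
  rw [← this]
  congr 1
  funext i
  simp [dg, Finset.sum_apply]

theorem lv_zero (t : Fin k → F) : lv t (0 : (Fin k → ℤ) →₀ K) = 0 := Finsupp.sum_zero_index

theorem lv_single (t : Fin k → F) (e : Fin k → ℤ) (φ : K) :
    lv t (Finsupp.single e φ) = hm t φ e := Finsupp.sum_single_index (hm_zero t e)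

theorem lv_add (t : Fin k → F) (ψ ψ' : (Fin k → ℤ) →₀ K) : lv t (ψ + ψ') = lv t ψ + lv t ψ' :=
  Finsupp.sum_add_index' (fun e => hm_zero t e) fun e _ _ => hm_add t _ _ e

/-- multiplication by a homogeneous element shifts the degrees -/
theorem lv_shift (ht : ∀ i, t i ≠ 0) (ψ : (Fin k → ℤ) →₀ K) (φ : K) (e : Fin k → ℤ) :
    ∃ ψ' : (Fin k → ℤ) →₀ K, (∀ x, ψ' (x + e) = ψ x * φ) ∧ lv t ψ' = lv t ψ * hm t φ e := by
  refine ⟨(ψ.mapRange (· * φ) (zero_mul φ)).embDomain (addRightEmbedding e), fun x => ?_, ?_⟩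
  · exact Finsupp.embDomain_apply_self (addRightEmbedding e) _ x
  · rw [lv, Finsupp.sum_embDomain, Finsupp.sum_mapRange_index (h := fun x b => hm t b (addRightEmbedding e x))
      fun _ => hm_zero _ _, lv,
      Finsupp.sum_mul]
    exact Finsupp.sum_congr fun x _ => hm_mul ht _ _ _ _

theorem lv_inj (ht : AlgebraicIndependent K t) {ψ : (Fin k → ℤ) →₀ K} (h : lv t ψ = 0) :
    ψ = 0 := by
  classical
  have t0 := ht.ne_zero
  obtain ⟨n, hn⟩ : ∃ n : ℕ, ∀ e ∈ ψ.support, ∀ i, 0 ≤ e i + n := by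
    refine ⟨∑ e ∈ ψ.support, ∑ i, (e i).natAbs, fun e he i => ?_⟩
    have := (Finset.single_le_sum (f := fun i => (e i).natAbs) (fun _ _ => Nat.zero_le _)
      (Finset.mem_univ i)).trans (Finset.single_le_sum (f := fun e : Fin k → ℤ => ∑ i, (e i).natAbs)
        (fun _ _ => Nat.zero_le _) he)
    omega
  let ex : (Fin k → ℤ) → Fin k →₀ ℕ := fun e => Finsupp.equivFunOnFinite.symm fun i => (e i + n).toNat
  have z : (∑ e ∈ ψ.support, MvPolynomial.monomial (ex e) (ψ e)) = 0 := by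
    refine algebraicIndependent_iff.1 ht _ ?_
    rw [← zero_mul (mon t fun _ => (n : ℤ)), ← h, lv, Finsupp.sum, Finset.sum_mul, map_sum]
    refine Finset.sum_congr rfl fun e he => ?_
    rw [MvPolynomial.aeval_monomial, hm, mul_assoc, ← mon_add t0, Finsupp.prod_fintype _ _ (by simp),
      mon]
    refine congrArg _ (Finset.prod_congr rfl fun i _ => ?_)
    rw [← zpow_natCast]
    exact congrArg _ (Int.toNat_of_nonneg (hn e he i))
  ext e
  by_contra he
  have he' := Finsupp.mem_support_iff.2 he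
  have := congrArg (MvPolynomial.coeff (ex e)) z
  rw [MvPolynomial.coeff_sum, Finset.sum_eq_single e (fun b hb ne => ?_) (fun x => (x he').elim),
    MvPolynomial.coeff_monomial, if_pos rfl] at this
  · exact he this
  · rw [MvPolynomial.coeff_monomial, if_neg fun x => ne (funext fun i => ?_)]
    have y : (b i + n).toNat = (e i + n).toNat := DFunLike.congr_fun x i
    have := hn b hb i
    have := hn e he' i
    omega

variable [Algebra ℂ K] [Algebra ℂ F]

omit [Algebra ℂ K] in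
theorem ord_hm (ht : ∀ i, t i ≠ 0) (U : Pl F) {φ : K} (h : φ ≠ 0) (e : Fin k → ℤ) :
    U.ord (hm t φ e) = U.ord (algebraMap K F φ) + ∑ i, e i * U.ord (t i) := by
  rw [hm, Pl.ord_mul _ ((map_ne_zero _).2 h) (mon_ne ht e), ord_mon U ht]

theorem mon_mem (s : Fin N → K) (a : Fin N → Fin k → ℤ) (c : Fin N → ℕ) :
    ∏ j, s j ^ c j ∈ Sp s a (dg a c) := Submodule.subset_span ⟨c, rfl, rfl⟩

theorem sp_mul {s : Fin N → K} {a : Fin N → Fin k → ℤ} {e e' : Fin k → ℤ} {φ ψ : K}
    (h : φ ∈ Sp s a e) (h' : ψ ∈ Sp s a e') : φ * ψ ∈ Sp s a (e + e') := by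
  induction h using Submodule.span_induction with
  | mem x hx =>
    obtain ⟨c, rfl, rfl⟩ := hx
    induction h' using Submodule.span_induction with
    | mem x hx =>
      obtain ⟨c', rfl, rfl⟩ := hx
      have := mon_mem s a (c + c')
      simpa only [dg_add, Pi.add_apply, pow_add, Finset.prod_mul_distrib] using this
    | zero => simp
    | add x y _ _ hx hy => rw [mul_add]; exact add_mem hx hy
    | smul r x _ hx => rw [mul_smul_comm]; exact Submodule.smul_mem _ _ hx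
  | zero => simp
  | add x y _ _ hx hy => rw [add_mul]; exact add_mem hx hy
  | smul r x _ hx => rw [smul_mul_assoc]; exact Submodule.smul_mem _ _ hx

omit [Algebra ℂ K] in
theorem gen_mem (s : Fin N → K) (a : Fin N → Fin k → ℤ) (t : Fin k → F) (j : Fin N) :
    hm t (s j) (a j) ∈ Rg s a t := Algebra.subset_adjoin ⟨j, rfl⟩

variable [IsScalarTower ℂ K F]

theorem hm_smul (t : Fin k → F) (c : ℂ) (φ : K) (e : Fin k → ℤ) :
    hm t (c • φ) e = c • hm t φ e := by
  rw [hm, hm, ← smul_mul_assoc, Algebra.smul_def, Algebra.smul_def, map_mul,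
    ← IsScalarTower.algebraMap_apply]

theorem mem_Rg (ht : ∀ i, t i ≠ 0) {s : Fin N → K} {a : Fin N → Fin k → ℤ} {e : Fin k → ℤ} {φ : K}
    (h : φ ∈ Sp s a e) : hm t φ e ∈ Rg s a t := by
  induction h using Submodule.span_induction with
  | mem x hx =>
    obtain ⟨c, rfl, rfl⟩ := hx
    rw [hm_prod ht]
    exact prod_mem fun j _ => pow_mem (gen_mem s a t j) _
  | zero => rw [hm_zero]; exact zero_mem _
  | add x y _ _ hx hy => rw [hm_add]; exact add_mem hx hy
  | smul r x _ hx => rw [hm_smul]; exact Subalgebra.smul_mem _ hx _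

theorem mem_Rg_iff (ht : ∀ i, t i ≠ 0) {s : Fin N → K} {a : Fin N → Fin k → ℤ} {b : F} :
    b ∈ Rg s a t ↔ ∃ ψ : (Fin k → ℤ) →₀ K, (∀ e, ψ e ∈ Sp s a e) ∧ lv t ψ = b := by
  classical
  refine ⟨fun h => ?_, by rintro ⟨ψ, h, rfl⟩; exact sum_mem fun e _ => mem_Rg ht (h e)⟩
  have sg : ∀ e φ, φ ∈ Sp s a e → ∀ x, Finsupp.single e φ x ∈ Sp s a x := fun e φ h x => by
    rw [Finsupp.single_apply]
    split_ifs with c
    exacts [c ▸ h, zero_mem _]
  induction h using Algebra.adjoin_induction with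
  | mem x hx =>
    obtain ⟨j, rfl⟩ := hx
    refine ⟨_, sg _ _ ?_, lv_single t _ _⟩
    have := mon_mem s a (Pi.single j 1)
    rwa [dg_single, Finset.prod_eq_single j (fun l _ h => by simp [h]) (by simp),
      Pi.single_eq_same, pow_one] at this
  | algebraMap c =>
    refine ⟨Finsupp.single 0 (c • 1), sg _ _ (Submodule.smul_mem _ _ ?_), ?_⟩
    · simpa [dg_zero] using mon_mem s a 0
    · rw [lv_single, hm_smul, hm_one, Algebra.algebraMap_eq_smul_one]
  | add x y _ _ hx hy =>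
    obtain ⟨ψ, h1, rfl⟩ := hx
    obtain ⟨ψ', h2, rfl⟩ := hy
    exact ⟨ψ + ψ', fun e => add_mem (h1 e) (h2 e), lv_add t _ _⟩
  | mul x y _ _ hx hy =>
    obtain ⟨ψ, h1, rfl⟩ := hx
    obtain ⟨ψ', h2, rfl⟩ := hy
    have : ∀ T : Finset (Fin k → ℤ), ∃ χ : (Fin k → ℤ) →₀ K, (∀ e, χ e ∈ Sp s a e) ∧
        lv t χ = lv t ψ * ∑ e ∈ T, hm t (ψ' e) e := fun T => by
      induction T using Finset.induction_on with
      | empty => exact ⟨0, fun _ => zero_mem _, by simp [lv_zero]⟩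
      | insert e T he ih =>
        obtain ⟨χ, c1, c2⟩ := ih
        obtain ⟨χ', d1, d2⟩ := lv_shift ht ψ (ψ' e) e
        refine ⟨χ' + χ, fun x => add_mem ?_ (c1 x), ?_⟩
        · rw [← sub_add_cancel x e, d1]
          exact sp_mul (h1 _) (h2 e)
        · rw [lv_add, c2, d2, Finset.sum_insert he, mul_add]
    exact this ψ'.support

/-- **GRD** -/
theorem grd : GRD := fun _ _ _ _ _ _ _ _ _ _ _ _ h _ =>
  ⟨fun _ => lv_inj h.ind, fun _ _ _ _ => mem_Rg_iff h.ind.ne_zero⟩

end Vale.Agent.P283R.Cx
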