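import Vale.Agent.P283R.Cx.Top
import Vale.Agent.P283R.Cx.Bas

/-!
# P283R, block CX: the spectrum of the ring of the sections is klt
-/

open Set

noncomputable section

namespace Vale.Agent.P283R.Cx

open Vale.Agent.P287D Vale.Agent.P283M Vale.Agent.P297Z

/-- **KLY**: the ring of the sections is klt -/
def KLY : Prop := ∀ (n k N : ℕ) (K F : Type) [Field K] [Algebra ℂ K] [Field F] [Algebra ℂ F]
  [Algebra K F] [IsScalarTower ℂ K F] (u : Finset K) (Λ Γ Γ' : BD K) (D : Pl K → Fin k → ℤ)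
  (s : Fin N → K) (a : Fin N → Fin k → ℤ) (y : Fin (n + 1) → K) (t : Fin k → F) (h₀ : K)
  (e₀ : Fin k → ℤ), Dat n u Λ Γ Γ' → Cox (Tt n u Λ) D s a → Ext K (n + 1) t → Frm y →
    cn K (n + 1) = kap y → Eqv (Tt n u Λ) D (cn K (n + 1)) h₀ e₀ →
    ∀ U : Pl F, (∀ x ∈ Rg s a t, x ∈ U.ring) → 0 < lt y t U - U.ord (hm t h₀ e₀)

namespace Lk

variable {K F : Type} [Field K] [Algebra ℂ K] [Field F] [Algebra ℂ F] [Algebra K F] {n k N : ℕ}
  {u : Finset K} {Λ Γ Γ' : BD K} {D : Pl K → Fin k → ℤ} {s : Fin N → K} {a : Fin N → Fin k → ℤ}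
  {t : Fin k → F}

/-- `-K` is big over `V` -/
theorem big (dt : Dat n u Λ Γ Γ') (cx : Cox (Tt n u Λ) D s a) (φ : K) (e : Fin k → ℤ) :
    ∃ η : ℝ, 0 < η ∧ ∃ β, SmpO u β ∧
      ∀ P ∈ Tt n u Λ, β P ≤ -cn K (n + 1) P - η * (P.ord φ + e ⬝ᵥ D P : ℤ) := by
  classical
  obtain ⟨ε, ε0, γ, sγ, eγ⟩ := dt.amp
  let w : Finset K := insert 1 ((cx.fin φ e).toFinset.image fun P =>
    P.t⁻¹ ^ (P.ord φ + e ⬝ᵥ D P).toNat)
  have w0 : 0 ≤ mx w := mx_nonneg (Finset.mem_insert_self _ _)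
  have w1 : ∀ P ∈ Tt n u Λ, ((P.ord φ + e ⬝ᵥ D P : ℤ) : ℝ) ≤ mx w P := fun P hP => by
    by_cases z : P.ord φ + e ⬝ᵥ D P = 0
    · rw [z, Int.cast_zero]
      exact w0 P
    · have := P.le_mz (s := w) (Finset.mem_insert_of_mem (Finset.mem_image_of_mem _
        ((cx.fin φ e).mem_toFinset.2 ⟨hP, z⟩))) (pow_ne_zero _ (inv_ne_zero P.t_ne))
      rw [Pl.ord_pow, Pl.ord_inv, P.ord_t] at this
      rw [mx_apply]
      exact_mod_cast (by omega : P.ord φ + e ⬝ᵥ D P ≤ P.mz w)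
  obtain ⟨δ, δ0, G, G0, pG⟩ := dt.big w
  refine ⟨ε * δ, mul_pos ε0 δ0, -Γ' - ε • Λ + (-ε) • (G - (Λ - δ • mx w)),
    ⟨γ + (-ε) • (G - (Λ - δ • mx w)), sγ.add_prn (Submodule.smul_mem _ _ pG), fun P o => by
      rw [Pi.add_apply, eγ P o, Pi.add_apply]⟩, fun P p => ?_⟩
  have b1 := dt.bdy P p.1 p.2
  have b2 := mul_nonneg ε0.le (G0 P)
  have b3 := mul_le_mul_of_nonneg_left (w1 P p) (mul_pos ε0 δ0).le
  simp only [dsc, Pi.add_apply, Pi.sub_apply, Pi.neg_apply, Pi.smul_apply, smul_eq_mul] at b1 ⊢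
  nlinarith

/-- places which are trivial on `K`: the degree of `-K` lies in the interior of the cone -/
theorem hor_lt [IsScalarTower ℂ K F] (neg : NEG) (dt : Dat n u Λ Γ Γ') (x : Ext K (n + 1) t)
    {y : Fin (n + 1) → K} (hy : Frm y) (cx : Cox (Tt n u Λ) D s a) {h₀ : K} {e₀ : Fin k → ℤ}
    (e1 : Eqv (Tt n u Λ) D (cn K (n + 1)) h₀ e₀) {U : Pl F} (hU : ∀ x ∈ Rg s a t, x ∈ U.ring)
    (tr : ∀ x : K, algebraMap K F x ∈ U.ring) {φ : K} (φ0 : φ ≠ 0) (e : Fin k → ℤ) :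
    ∃ η : ℝ, 0 < η ∧ U.ord (hm t h₀ e₀) + η * U.ord (hm t φ e) ≤ 0 := by
  obtain ⟨η, η0, β, sβ, le⟩ := big dt cx φ e
  have := (neg K F (n + 1) k y t x hy N _ D s a cx u β h₀ φ e₀ e (-1) (-η) (fun P p => p.1) sβ
    e1.1 φ0 (fun P p => by rw [Int.cast_add, ← e1.2 P p]; linarith [le P p]) U hU).2 tr
  exact ⟨η, η0, by linarith⟩

end Lk

open Tz Lk in
theorem kly_of (lar : LAR) (neg : NEG) (dwn : DWN) (hor : HOR) : KLY := by
  intro n k N K F _ _ _ _ _ _ u Λ Γ Γ' D s a y t h₀ e₀ A cx x hy ey e1 U hU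
  have t0 := x.ind.ne_zero
  obtain ⟨tr, l0⟩ | ⟨Q, l, w⟩ := dwn K F (n + 1) k y t x hy U
  · have oh : ∀ φ : K, φ ≠ 0 → ∀ e, U.ord (hm t φ e) = ∑ i, e i * U.ord (t i) := fun φ φ0 e => by
      rw [Cx.ord_hm t0 U φ0, Trv.ord tr, zero_add]
    by_cases z0 : ∀ i, U.ord (t i) = 0
    · obtain ⟨fr, sh⟩ := lar K F (n + 1) k y t x hy 1 one_pos
      have := hor _ F ⊥ _ U 1 x.ff' fr (fun i σ hσ => by rw [Subgroup.mem_bot.1 hσ]; rfl)
        (fun i => by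
          refine Fin.addCases (fun i => ?_) (fun i => ?_) i
          · simpa [zt] using tr _
          · simpa [zt] using Cb.mem_ord (z0 i).ge) fun _ _ _ => one_dvd _
      rw [sh] at this
      rw [oh _ e1.1]
      simp only [z0, Int.cast_zero, Finset.sum_const_zero, mul_zero, add_zero] at this ⊢
      push_cast at this
      linarith
    · obtain ⟨i, hi⟩ := not_forall.1 z0
      obtain ⟨e', b, hb, c, hc, b0, c0⟩ := cx.fr1 (Pi.single i 1)
      have b1 := Pl.ord_nonneg_of_mem _ (hU _ (mem_Rg t0 hb))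
      have c1 := Pl.ord_nonneg_of_mem _ (hU _ (mem_Rg t0 hc))
      have d : U.ord (hm t b (Pi.single i 1 + e')) = U.ord (t i) + U.ord (hm t c e') := by
        rw [oh _ b0, oh _ c0]
        simp only [Pi.add_apply, add_mul, Finset.sum_add_distrib]
        rw [Finset.sum_eq_single i (fun j _ c => by simp [c]) (by simp), Pi.single_eq_same, one_mul]
      obtain ⟨φ, e, φ0, pos⟩ : ∃ (φ : K) (e : Fin k → ℤ), φ ≠ 0 ∧ 0 < U.ord (hm t φ e) := by
        rcases c1.eq_or_lt with z | z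
        · exact ⟨b, Pi.single i 1 + e', b0, by omega⟩
        · exact ⟨c, _, c0, z⟩
      obtain ⟨η, η0, le⟩ := hor_lt neg A x hy cx e1 hU tr φ0 e
      have : (0 : ℝ) < U.ord (hm t φ e) := by exact_mod_cast pos
      linarith [mul_pos η0 this]
  · have o := ov_of grd x hy cx hU l
    obtain ⟨ε, ε0, γ, sγ, eγ⟩ := A.amp
    have := (neg K F (n + 1) k y t x hy N _ D s a cx u (-Γ') h₀ h₀ e₀ e₀ (-1) 0 (fun P p => p.1)
      ⟨γ + ε • Λ, sγ.add (A.smp.smul ε0.le), fun P o => by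
        rw [Pi.add_apply, ← eγ P o, Pi.sub_apply, sub_add_cancel]⟩ e1.1 e1.1 (fun P p => by
        have b1 := A.bdy P p.1 p.2
        rw [dsc, Pi.sub_apply] at b1
        rw [Int.cast_add, ← e1.2 P p, Pi.neg_apply]
        linarith) U hU).1 Q l o
    have k1 := A.klt Q o
    have p' : (0 : ℝ) < U.ord (algebraMap K F Q.t) := by exact_mod_cast l.e_pos
    rw [dsc, Pi.sub_apply, ey] at k1
    rw [Pi.neg_apply] at this
    nlinarith

end Vale.Agent.P283R.Cx
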