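import Vale.Agent.P283R.Cx.Hwr
import Vale.Agent.P283R.Cx.Lk

/-!
# P283R, block CX, step 2: the tier side
-/

open Set

noncomputable section

namespace Vale.Agent.P283R.Cx

open Vale.Agent.P287D Vale.Agent.P283M Vale.Agent.P297Z Vale.Agent.P283R.Cy
  Vale.Agent.P283R.Cy.Tpb
open Vale.Agent.P283R.To (mon)

namespace Tpy

variable {K : Type} [Field K] [Algebra ℂ K] {k N n d q : ℕ} {ε : ℝ} {u : Finset K}
  {Λ Γ Γ' : BD K} {T : Set (Pl K)} {D : Pl K → Fin k → ℤ} {s : Fin N → K} {a : Fin N → Fin k → ℤ}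
  {h₀ g : K} {e₀ b : Fin k → ℤ}

theorem pa_add (e e' : Fin k → ℤ) (ξ : Fin k → ℝ) : pa (e + e') ξ = pa e ξ + pa e' ξ := by
  simp only [pa, Pi.add_apply, Int.cast_add, add_mul, Finset.sum_add_distrib]

theorem pa_smul (z : ℤ) (e : Fin k → ℤ) (ξ : Fin k → ℝ) : pa (z • e) ξ = z * pa e ξ := by
  simp only [pa, Pi.smul_apply, smul_eq_mul, Int.cast_mul, mul_assoc, Finset.mul_sum]

theorem pa_single (i : Fin k) (z : ℤ) (ξ : Fin k → ℝ) : pa (Pi.single i z) ξ = z * ξ i := by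
  rw [pa, Finset.sum_eq_single i (fun j _ h => by simp [h]) (by simp), Pi.single_eq_same]

/-- the degrees of the sections lie in the cone -/
theorem deg {ξ : Fin k → ℝ} (H : ∀ j, 0 ≤ pa (a j) ξ) {e : Fin k → ℤ} {φ : K}
    (hφ : φ ∈ Sp s a e) (φ0 : φ ≠ 0) : 0 ≤ pa e ξ := by
  by_cases ne : ∃ c, dg a c = e
  · obtain ⟨c, rfl⟩ := ne
    rw [pa_dg]
    exact Finset.sum_nonneg fun j _ => mul_nonneg (Nat.cast_nonneg _) (H j)
  · have : {c | dg a c = e} = ∅ := eq_empty_of_forall_notMem fun c hc => ne ⟨c, hc⟩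
    rw [Sp, this, image_empty, Submodule.span_empty] at hφ
    exact (φ0 hφ).elim

/-- semiample divisors have degrees in the cone -/
theorem neg0 (x : Cox T D s a) (hT : ∀ E ∈ T, Ov u E) {ξ : Fin k → ℝ} (h : ∀ j, 0 ≤ pa (a j) ξ)
    {β : BD K} (hβ : SmpO u β) {φ ψ : K} (φ0 : φ ≠ 0) (ψ0 : ψ ≠ 0) {e e' : Fin k → ℤ} {c c' : ℝ}
    (H : ∀ E ∈ T, β E ≤ c * (E.ord φ + e ⬝ᵥ D E : ℤ) + c' * (E.ord ψ + e' ⬝ᵥ D E : ℤ)) :
    0 ≤ c * pa e ξ + c' * pa e' ξ := by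
  classical
  obtain ⟨_, ⟨l, l0, rfl⟩, eγ⟩ := hβ
  have : ∀ v : Finset K, ∃ f : K, f ≠ 0 ∧ ∀ E : Pl K, -E.ord f ≤ E.mz v := fun v => by
    by_cases nz : Nz v
    · obtain ⟨f, hf, f0⟩ := nz
      exact ⟨f, f0, fun E => E.le_mz hf f0⟩
    · exact ⟨1, one_ne_zero, fun E => by simp [E.mz_of_not nz]⟩
  choose f f0 f2 using this
  have ev : ∀ E : Pl K, cmb l E = ∑ v : l.support, l v * (E.mz v : ℝ) := fun E => by
    rw [cmb, Finsupp.sum, Finset.sum_apply, ← Finset.sum_coe_sort]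
    rfl
  have := wr x (w := fun _ => 0) (ξ := ξ) (fun g z g0 => by simp)
    (fun e g hg g0 => by rw [zero_add]; exact deg h hg g0)
    (fun i : Option (Option l.support) => i.elim φ fun i => i.elim ψ fun v => f v)
    (fun i => i.elim e fun i => i.elim e' fun _ => 0) (fun i => i.elim c fun i => i.elim c' fun v => l v)
    (by rintro (_ | _ | v); exacts [φ0, ψ0, f0 _]) fun E hE => ?_
  · simpa only [Fintype.sum_option, Option.elim, pa_zero, add_zero, zero_add, mul_zero,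
      Finset.sum_const_zero] using this
  · have k1 := H E hE
    rw [eγ E (hT E hE), ev] at k1
    simp only [Fintype.sum_option, Option.elim, zero_dotProduct, add_zero]
    have k2 : ∑ v : l.support, l v * (-(E.ord (f v) : ℝ)) ≤ ∑ v : l.support, l v * (E.mz v : ℝ) :=
      Finset.sum_le_sum fun v _ => mul_le_mul_of_nonneg_left (by exact_mod_cast f2 v E) (l0 v)
    simp only [mul_neg, Finset.sum_neg_distrib] at k2
    linarith

variable {y : Fin (n + 1) → K}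

/-- `-(K + B)` is pseudo-effective and `-K` is big -/
theorem lw (hq : 0 < q) (x : Dy n q ε u Λ Γ Γ' y D s a h₀ g e₀ b) :
    LW a ((q : ℤ) • e₀ + b) b := fun ξ H => by
  have e := Hwr.eqv' x
  have q0 : (0 : ℝ) < q := Nat.cast_pos.2 hq
  refine ⟨?_, fun ne => ?_⟩
  · have : (q : ℝ)⁻¹ * pa ((q : ℤ) • e₀ + b) ξ ≤ 0 := Tz.le_lim (z := -pa e₀ ξ) fun τ τ0 => by
      have := neg0 (c := -(q : ℝ)⁻¹) (c' := -τ) x.cox (fun E hE => hE.1) H (x.nef τ τ0) e.1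
        x.can.1 fun E hE => by
          have k1 := e.2 E hE
          have k2 := x.can.2 E hE
          have k3 := x.dat.bdy E hE.1 hE.2
          simp only [dsc, x.cn, Pi.sub_apply, Pi.smul_apply, Pi.neg_apply, smul_eq_mul] at k1 k3 ⊢
          rw [Int.cast_add, Int.cast_add, ← k1, ← k2, neg_mul, inv_mul_cancel_left₀ q0.ne']
          nlinarith
      linarith
    exact nonpos_of_mul_nonpos_right this (inv_pos.2 q0)
  · obtain ⟨i, hi⟩ := Function.ne_iff.1 ne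
    obtain ⟨e, he⟩ : ∃ e : Fin k → ℤ, 0 < pa e ξ := by
      rcases lt_or_gt_of_ne hi with z | z
      · exact ⟨Pi.single i (-1), by rw [pa_single]; simpa using z⟩
      · exact ⟨Pi.single i 1, by rw [pa_single]; simpa using z⟩
    obtain ⟨η, η0, β, sβ, le⟩ := Lk.big x.dat x.cox 1 e
    have := neg0 (c := -1) (c' := -η) x.cox (fun E hE => hE.1) H sβ x.can.1 one_ne_zero
      fun E hE => by
        have k1 := le E hE
        rw [x.cn] at k1
        rw [Int.cast_add, ← x.can.2 E hE]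
        linarith
    rw [pa_add, pa_smul, Int.cast_natCast]
    nlinarith [mul_pos η0 he]

theorem dx {c : ℕ} {f : Fin c → MvPolynomial (Fin N) ℂ} (hq : 0 < q)
    (x : Dy n q ε u Λ Γ Γ' y D s a h₀ g e₀ b) (ci : CI s a f) :
    Dx q ε y (Tt n u Λ) D s a f (h₀ ^ q * g) g ((q : ℤ) • e₀ + b) b := by
  have e := x.bdy
  have ee := Hwr.eqv' x
  refine ⟨x.dat.ff, x.fr, x.cox, ci, ee.1, e.1, (x.cox.sec _ _ e.1).2 fun P hP => ?_,
    fun P hP => ?_, hwr _ _ _ _ _ _ _ _ _ _ _ _ _ _ _ _ _ _ hq x, lw hq x⟩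
  · have k1 := e.2 P hP
    rw [← Int.cast_nonneg_iff (R := ℝ), Int.cast_add, ← k1]
    simp only [Pi.smul_apply, Pi.neg_apply, smul_eq_mul]
    exact mul_nonneg (Nat.cast_nonneg _) (neg_nonneg.2 (x.eff P hP))
  · have k1 := e.2 P hP
    have k2 := ee.2 P hP
    rw [Int.cast_add, Int.cast_add, ← k1, ← k2, dsc, x.cn]
    simp only [Pi.smul_apply, Pi.neg_apply, Pi.sub_apply, smul_eq_mul]
    ring

/-- powers -/
theorem mn_mul {y : Fin d → K} {m m' : ℕ} {h : K} {δ : Fin k → ℤ} {Q : Pl K} (m0 : 0 < m')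
    (H : MN q m y s a h δ Q) : MN q (m * m') y s a h δ Q := by
  obtain ⟨c, c1, c2⟩ := H
  refine ⟨fun j => c j * m', funext fun i => ?_, ?_⟩
  · have := congrFun c1 i
    simp only [dg, Pi.neg_apply, Pi.smul_apply, smul_eq_mul] at this ⊢
    push_cast
    simp only [mul_right_comm _ (m' : ℤ), ← Finset.sum_mul, this]
    ring
  · have m1 : (m' : ℝ) ≠ 0 := Nat.cast_ne_zero.2 m0.ne'
    simp only [pow_mul, Finset.prod_pow, ← mul_pow]
    rw [ld] at c2 ⊢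
    rw [Pl.ord_pow, ← mul_assoc, Nat.cast_mul _ m', Int.cast_mul, Int.cast_natCast, mul_comm (m' : ℝ),
      mul_div_mul_right _ _ m1]
    exact c2

end Tpy

open Tpy in
/-- **TPY** -/
theorem tpy : TPY := by
  intro c k n q m m' ε hq hε m2 m1 H H' K _ _ u Λ Γ Γ' D s a f dt x ci ⟨h₁, e₁, e'⟩ ⟨g, b, e⟩ bd lc
    nef
  obtain ⟨y, E, hy, hc⟩ := Cb.exists_cn dt.ff
  have z : Dy n q ε u Λ Γ Γ' y D s a h₁ g e₁ b :=
    ⟨dt, ⟨E, hy⟩, hc, x, hc ▸ e', e, bd, lc, fun _ => Br.klr dt dt.dn.neg nef⟩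
  have w := dx hq z ci
  refine bak n k _ q _ K u Λ Γ Γ' D s a y _ _ dt x ⟨E, hy⟩ hc
    (m2.trans ((Nat.le_mul_of_pos_right _ m1).trans (Nat.le_mul_of_pos_left _ hq))) (Hwr.eqv' z)
    fun Q o => ?_
  by_cases v : ∃ x ∈ Sp s a 0, x ≠ 0 ∧ 0 < Q.ord x
  · exact mn_mul m1 (H K y _ D s a f _ g _ b w False.elim Q ⟨fun c hc => Bak.reg dt x
      (Finset.prod_ne_zero_iff.2 fun j _ => pow_ne_zero _ (x.ne j)) (hc ▸ mon_mem s a c) o, v⟩)
  · rw [mul_comm m]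
    exact mn_mul (by omega) (H' K u Λ Γ Γ' y D s a f h₁ g e₁ b z w Q fun φ hφ φ0 =>
      (not_lt.1 fun p => v ⟨φ, hφ, φ0, p⟩).antisymm (Bak.reg dt x φ0 hφ o))

theorem tpy_of (_ : HWR) (_ : BIG) (_ : BAK) : TPY := tpy

end Vale.Agent.P283R.Cx
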