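import Vale.Agent.P283R.Cy.St

/-!
# P283R, block CX, step 2: contractions of any relative dimension (statements and glue)
-/

open Set

noncomputable section

namespace Vale.Agent.P283R.Cx

open Vale.Agent.P287D Vale.Agent.P283M Vale.Agent.P283R.Cy

/-- the precise form of `CorB`: (H) for the places with the same centre as `U` only -/
def CorP (c d k q : ℕ) (ε : ℝ) (m : ℕ) : Prop :=
  ∀ (K F : Type) [Field K] [Algebra ℂ K] [Field F] [Algebra ℂ F] [Algebra K F]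
    [IsScalarTower ℂ K F] (y : Fin d → K) (t : Fin k → F) (T : Set (Pl K))
    (D : Pl K → Fin k → ℤ) (s : Fin (d + k + c) → K) (a : Fin (d + k + c) → Fin k → ℤ)
    (f : Fin c → MvPolynomial (Fin (d + k + c)) ℂ) (h g : K) (δ b : Fin k → ℤ) (r : ℕ),
    Ext K d t → Frm y → Cox T D s a → CI s a f → h ≠ 0 → g ≠ 0 → g ∈ Sp s a b →
    (∀ E ∈ T, (E.ord h + δ ⬝ᵥ D E : ℤ) = q * kap y E + (E.ord g + b ⬝ᵥ D E : ℤ)) → 0 < r →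
    (∀ V : Pl F, (∀ x ∈ Rg s a t, x ∈ V.ring) → 0 ≤ lt y t V - (V.ord (hm t h δ) : ℝ) / q ∧
      0 < lt y t V - (V.ord (hm t h δ) : ℝ) / q + (V.ord (hm t g b) : ℝ) / q) →
    ∀ U : Pl F, (∀ x ∈ Rg s a t, x ∈ U.ring) →
    (∀ G : Subgroup (F ≃ₐ[ℂ] F), (G : Set _) = Gr K t r → ∀ V : Pl F,
      (∀ x ∈ Rg s a t, x ∈ V.ring ∧ (U.rd x = 0 ↔ V.rd x = 0)) → ∀ e : ℕ, 0 < e → Dv G V e →
        ε * e ≤ lt y t V - (V.ord (hm t h δ) : ℝ) / q) →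
    ∃ n : Fin (d + k + c) → ℕ, (∀ i, (r : ℤ) ∣ dg a n i + m * δ i) ∧
      ∑ j, (n j : ℝ) * U.ord (hm t (s j) (a j)) < q * m * (lt y t U - (U.ord (hm t h δ) : ℝ) / q)

/-- **CORp** -/
def CORp : Prop := ∀ (d k q : ℕ) (ε : ℝ), 0 < q → 0 < ε → ∃ m : ℕ, 2 ≤ m ∧ ∀ c, CorP c d k q ε m

/-- **MDP**: the places which are not trivial on the base -/
def MDP : Prop := ∀ (c d k q m : ℕ) (ε : ℝ), 0 < q → 0 < ε →
  CorP c d k q ε m → MID False c d k q ε m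

/-- the data on the tier; `h₀`, `e₀` give `K`, and `g`, `b` give `q B` -/
structure Dy {K : Type} [Field K] [Algebra ℂ K] {k N : ℕ} (n q : ℕ) (ε : ℝ) (u : Finset K)
    (Λ Γ Γ' : BD K) (y : Fin (n + 1) → K) (D : Pl K → Fin k → ℤ) (s : Fin N → K)
    (a : Fin N → Fin k → ℤ) (h₀ g : K) (e₀ b : Fin k → ℤ) : Prop where
  dat : Dat n u Λ Γ Γ'
  fr : Frm y
  cn : cn K (n + 1) = kap y
  cox : Cox (Tt n u Λ) D s a
  can : Eqv (Tt n u Λ) D (kap y) h₀ e₀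
  bdy : Eqv (Tt n u Λ) D ((q : ℝ) • -dsc (n + 1) Γ) g b
  eff : ∀ P ∈ Tt n u Λ, dsc (n + 1) Γ P ≤ 0
  lc : ∀ P, Ov u P → ε ≤ 1 + dsc (n + 1) Γ P
  nef : ∀ η : ℝ, 0 < η → SmpO u (-Γ - η • Γ')

/-- the places which are trivial on the base -/
def HzB (c k n q : ℕ) (ε : ℝ) (m : ℕ) : Prop :=
  ∀ (K : Type) [Field K] [Algebra ℂ K] (u : Finset K) (Λ Γ Γ' : BD K) (y : Fin (n + 1) → K)
    (D : Pl K → Fin k → ℤ) (s : Fin (n + 1 + k + c) → K) (a : Fin (n + 1 + k + c) → Fin k → ℤ)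
    (f : Fin c → MvPolynomial (Fin (n + 1 + k + c)) ℂ) (h₀ g : K) (e₀ b : Fin k → ℤ),
    Dy n q ε u Λ Γ Γ' y D s a h₀ g e₀ b →
    Dx q ε y (Tt n u Λ) D s a f (h₀ ^ q * g) g ((q : ℤ) • e₀ + b) b →
    ∀ Q : Pl K, (∀ x ∈ Sp s a 0, x ≠ 0 → Q.ord x = 0) →
      MN q m y s a (h₀ ^ q * g) ((q : ℤ) • e₀ + b) Q

/-- **HZU**: the horizontal places -/
def HZU : Prop := ∀ (k n q : ℕ) (ε : ℝ), 0 < q → 0 < ε → ∃ m : ℕ, 1 ≤ m ∧ ∀ c, HzB c k n q ε m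

/-- **HWR**: `ε`-lc and nef in terms of weights -/
def HWR : Prop := ∀ (K : Type) [Field K] [Algebra ℂ K] (k N n q : ℕ) (ε : ℝ) (u : Finset K)
  (Λ Γ Γ' : BD K) (y : Fin (n + 1) → K) (D : Pl K → Fin k → ℤ) (s : Fin N → K)
  (a : Fin N → Fin k → ℤ) (h₀ g : K) (e₀ b : Fin k → ℤ), 0 < q →
    Dy n q ε u Λ Γ Γ' y D s a h₀ g e₀ b → HW q ε y s a (h₀ ^ q * g) ((q : ℤ) • e₀ + b)

/-- **BIG**: `-K` is big over the base -/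
def BIG : Prop := ∀ (n : ℕ) (K : Type) [Field K] [Algebra ℂ K] (u : Finset K) (Λ Γ Γ' : BD K)
  (Z : Pl K → ℤ), Dat n u Λ Γ Γ' → {P | P ∈ Tt n u Λ ∧ Z P ≠ 0}.Finite →
    ∃ (m : ℕ) (φ : K), φ ≠ 0 ∧ ∀ P ∈ Tt n u Λ, (Z P : ℝ) ≤ P.ord φ - m * cn K (n + 1) P

/-- `QxB` for contractions of any relative dimension -/
def QyB (c k n q : ℕ) (ε : ℝ) (N : ℕ) : Prop :=
  ∀ (K : Type) [Field K] [Algebra ℂ K] (u : Finset K) (Λ Γ Γ' : BD K) (D : Pl K → Fin k → ℤ)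
    (s : Fin (n + 1 + k + c) → K) (a : Fin (n + 1 + k + c) → Fin k → ℤ)
    (f : Fin c → MvPolynomial (Fin (n + 1 + k + c)) ℂ), Dat n u Λ Γ Γ' → Cox (Tt n u Λ) D s a →
    CI s a f → (∃ h e, Eqv (Tt n u Λ) D (cn K (n + 1)) h e) →
    (∃ h e, Eqv (Tt n u Λ) D ((q : ℝ) • -dsc (n + 1) Γ) h e) →
    (∀ P ∈ Tt n u Λ, dsc (n + 1) Γ P ≤ 0) → (∀ P, Ov u P → ε ≤ 1 + dsc (n + 1) Γ P) →
    NefO n K u (-Γ) → Cpl n N u Λ Γ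

/-- **the tier statement, step 2** -/
def QyU (n : ℕ) : Prop := ∀ (k q : ℕ) (ε : ℝ), 0 < q → 0 < ε → ∃ N : ℕ, 1 ≤ N ∧
  ∀ c, QyB c k n q ε N

/-- **TPY**: the tier side -/
def TPY : Prop := ∀ (c k n q m m' : ℕ) (ε : ℝ), 0 < q → 0 < ε → 2 ≤ m → 1 ≤ m' →
  MID False c (n + 1) k q ε m → HzB c k n q ε m' → QyB c k n q ε (q * (m * m'))

theorem qyU_of (h1 : CORp) (h2 : MDP) (h3 : HZU) (h4 : TPY) (n : ℕ) : QyU n := fun k q ε hq hε =>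
  let ⟨m, m2, H⟩ := h1 (n + 1) k q ε hq hε
  let ⟨m', m1, H'⟩ := h3 k n q ε hq hε
  ⟨q * (m * m'), Nat.mul_pos hq (Nat.mul_pos (by omega) m1), fun c =>
    h4 c k n q m m' ε hq hε m2 m1 (h2 c _ k q m ε hq hε (H c)) (H' c)⟩

end Vale.Agent.P283R.Cx
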