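import Vale.Agent.P283R.Cx.St
import Vale.Agent.P287D.Gm.Ffs

/-!
# P283R, block CX: the field `K(t)`
-/

open Set

noncomputable section

namespace Vale.Agent.P283R.Cx

open Vale.Agent.P287D

/-- **EXT** -/
theorem ext : EXT := fun K _ _ d k hK => by
  let R := MvPolynomial (Fin k) K
  let F := FractionRing R
  have ind : AlgebraicIndependent K fun i : Fin k => algebraMap R F (MvPolynomial.X i) :=
    (MvPolynomial.algebraicIndependent_X (Fin k) K).map' (f := IsScalarTower.toAlgHom K R F)
      (IsFractionRing.injective R F)
  refine ⟨F, inferInstance, inferInstance, inferInstance, inferInstance,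
    fun i => algebraMap R F (MvPolynomial.X i), hK, ?_, ind, ?_⟩
  · have := hK.ess
    have : Algebra.EssFiniteType R F := .of_isLocalization _ (nonZeroDivisors R)
    have : Algebra.EssFiniteType K F := .comp K R F
    have : Algebra.EssFiniteType ℂ F := .comp ℂ K F
    refine Gm.ff_of_ess ?_
    have := IsLocalization.isAlgebraic F (nonZeroDivisors R)
    rw [← trdeg_add_eq ℂ K (A := F), hK.trdeg, ← trdeg_add_eq K R (A := F),
      trdeg_eq_zero (R := R), add_zero, MvPolynomial.trdeg_of_isDomain]
    simp
  · refine eq_top_iff.2 fun x _ => ?_
    obtain ⟨a, b, -, rfl⟩ := IsFractionRing.div_surjective (A := R) x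
    have m : ∀ p : R, algebraMap R F p ∈
        IntermediateField.adjoin K (range fun i : Fin k => algebraMap R F (MvPolynomial.X i)) := by
      intro p
      induction p using MvPolynomial.induction_on with
      | C c => exact IntermediateField.algebraMap_mem _ c
      | add p q hp hq => rw [map_add]; exact add_mem hp hq
      | mul_X p i hp =>
        rw [map_mul]
        exact mul_mem hp (IntermediateField.subset_adjoin _ _ ⟨i, rfl⟩)
    exact div_mem (m a) (m b)

end Vale.Agent.P283R.Cx
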