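import Vale.Agent.P283R.Cx.St
import Vale.Agent.P283R.To.Gs3

/-!
# P283R, block CX: the Gauss places
-/

open Set
open Vale.Agent.P285N.Brep (jac Fr)
open Vale.Agent.P297Z

noncomputable section

namespace Vale.Agent.P283R.Cx

open Vale.Agent.P287D
open Vale.Agent.P283R.To

namespace Gav

variable {K K' : Type} [Field K] [Field K'] [Algebra ℂ K] [Algebra ℂ K'] {d N r : ℕ}

theorem ord_zero {u : Pl K'} {x : K'} (hm : x ∈ u.ring) (h : u.rd x ≠ 0) : u.ord x = 0 := by
  rw [Ne, Cb.rd_eq_zero hm, Cb.mx_iff, not_or] at h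
  have k := Pl.ord_nonneg_of_mem _ hm
  omega

/-- the canonical divisor at a place where the new coordinates have independent residues -/
theorem kap_gauss {φ : K →+* K'} (hK : FF K d) (hK' : FF K' N)
    (hc : ∀ c, φ (algebraMap ℂ K c) = algebraMap ℂ K' c) {y : Fin d → K} {s : Fin r → K'}
    (e : Fin N ≃ Fin d ⊕ Fin r)
    (hi : AlgebraicIndependent ℂ fun i => Sum.elim (fun j => φ (y j)) s (e i)) {R : Pl K}
    {u : Pl K'} (l : Lies φ u R) (hm : ∀ i, s i ∈ u.ring)
    (hp : ∀ p, MvPolynomial.eval₂ l.κ (fun i => u.rd (s i)) p = 0 → p = 0) :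
    kap (fun i => Sum.elim (fun j => φ (y j)) s (e i)) u + 1 = u.ord (φ R.t) * (kap y R + 1) := by
  obtain _ | d := d
  · exact (Cb.no_pl hK R).elim
  obtain ⟨v, a⟩ := Cb.exists_ada hK R
  obtain ⟨D, hD⟩ := a.ad hK
  have wm : ∀ i, Sum.elim (fun j => φ (v j)) s i ∈ u.ring := by
    rintro (i | i)
    exacts [(l _).1 (a.mem i), hm i]
  have wi : AlgebraicIndependent ℂ fun i => u.rd (Sum.elim (fun j => φ (v j)) s i) := by
    let _ := l.κ.toAlgebra
    have : IsScalarTower ℂ R.κ u.κ := IsScalarTower.of_algebraMap_eq fun c => by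
      rw [← Cb.rd_const (P := R), ← Cb.rd_const (P := u), ← hc]
      exact (l.isRd _ (R.con c)).symm
    have h2 : AlgebraicIndependent R.κ fun i => u.rd (s i) := algebraicIndependent_iff.2 hp
    have := (a.ind.sumElim_comp h2).comp _ (Equiv.sumComm (Fin d) (Fin r)).injective
    refine (congrArg (fun w => AlgebraicIndependent ℂ w) (funext ?_)).mp this
    rintro (i | i)
    · exact l.isRd _ (a.mem i)
    · rfl
  let e' : Fin N ≃ Option (Fin d ⊕ Fin r) :=
    e.trans (((finSuccEquiv d).sumCongr (Equiv.refl _)).trans (opt _ _))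
  have k := kap_ram hK' e' l.e_pos wm wi
  have ee : (fun i => (e' i).elim (φ R.t) (Sum.elim (fun j => φ (v j)) s)) =
      fun i => Sum.elim (fun j => φ ((Fin.cons R.t v : Fin (d + 1) → K) j)) s (e i) := by
    funext i
    simp only [e', Equiv.trans_apply]
    rcases e i with j | j
    · refine Fin.cases ?_ (fun j => ?_) j <;> simp [opt]
    · simp [opt]
  obtain ⟨L, hL⟩ := Cb.exists_lf hK' u
  have ch := Cb.dt_chain (φ := φ) (d := fun i => L (e.symm i)) (fun i => Cb.dr_of _)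
    (fun i c => by rw [hc, Derivation.map_algebraMap]) hD.fr y s
  rw [jac_dt, jac_dt] at ch
  have n0 := hL.ne _ hi
  rw [ch] at n0
  have ti : AlgebraicIndependent ℂ
      fun i => Sum.elim (fun j => φ ((Fin.cons R.t v : Fin (d + 1) → K) j)) s (e i) :=
    P285N.Brep.TbAux.ind L _ (left_ne_zero_of_mul n0)
  rw [ee, hL.eq _ ti] at k
  rw [hL.eq _ hi, ch, Pl.ord_mul _ (left_ne_zero_of_mul n0) (right_ne_zero_of_mul n0),
    l.ord (jac D y), Cb.kap_eq hD]
  push_cast
  rw [k]
  ring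

omit [Algebra ℂ K] [Algebra ℂ K'] in
theorem ind_scale [Algebra K K'] {ι : Type} {t : ι → K'} (h : AlgebraicIndependent K t)
    {c : ι → K} (hc : ∀ i, c i ≠ 0) :
    AlgebraicIndependent K fun i => t i * algebraMap K K' (c i) := by
  let f : (ι → K) → MvPolynomial ι K →ₐ[K] MvPolynomial ι K := fun c =>
    MvPolynomial.aeval fun i => MvPolynomial.X i * MvPolynomial.C (c i)
  have e : MvPolynomial.aeval (fun i => t i * algebraMap K K' (c i)) =
      (MvPolynomial.aeval t).comp (f c) := MvPolynomial.algHom_ext fun i => by simp [f]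
  have g : (f fun i => (c i)⁻¹).comp (f c) = AlgHom.id _ _ := MvPolynomial.algHom_ext fun i => by
    simp only [f, AlgHom.comp_apply, MvPolynomial.aeval_X, map_mul, MvPolynomial.aeval_C,
      MvPolynomial.algebraMap_eq, AlgHom.id_apply]
    rw [mul_assoc, ← map_mul, inv_mul_cancel₀ (hc i), map_one, mul_one]
  rw [algebraicIndependent_iff_injective_aeval, e]
  have k : Function.Injective (f c) := Function.LeftInverse.injective (g := f fun i => (c i)⁻¹)
    fun p => DFunLike.congr_fun g p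
  exact fun _ _ a => k (algebraicIndependent_iff_injective_aeval.1 h a)

omit [Algebra ℂ K] [Algebra ℂ K'] in
theorem app_eq {α : Type} (a : Fin d → α) (b : Fin r → α) :
    Fin.append a b = fun i => Sum.elim a b (finSumFinEquiv.symm i) := by
  funext i
  refine Fin.addCases (fun i => ?_) (fun i => ?_) i <;> simp

/-- the order of a Laurent polynomial in units with independent residues -/
theorem ord_le {φ : K →+* K'} {R : Pl K} {u : Pl K'} (l : Lies φ u R) {s : Fin r → K'}
    (hm : ∀ i, s i ∈ u.ring)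
    (hp : ∀ p, MvPolynomial.eval₂ l.κ (fun i => u.rd (s i)) p = 0 → p = 0)
    (S : Finset (Fin r → ℤ)) (b : (Fin r → ℤ) → K) (hb : ∀ e ∈ S, b e ∈ R.ring) {e₁ : Fin r → ℤ}
    (h1 : e₁ ∈ S) (h0 : R.rd (b e₁) ≠ 0) :
    (∑ e ∈ S, φ (b e) * mon s e) ≠ 0 ∧ u.ord (∑ e ∈ S, φ (b e) * mon s e) = 0 := by
  classical
  have r0 : ∀ i, u.rd (s i) ≠ 0 := fun i h =>
    MvPolynomial.X_ne_zero (R := R.κ) i (hp _ (by rw [MvPolynomial.eval₂_X, h]))
  have s0 : ∀ i, s i ≠ 0 := fun i h => r0 i ((Cb.rd_eq_zero (hm i)).2 (Cb.mx_iff.2 (.inl h)))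
  obtain ⟨T, hT⟩ : ∃ T : ℕ, ∀ m ∈ S, ∀ j, 0 ≤ m j + T := by
    refine ⟨S.sup fun m => Finset.univ.sup fun j => (m j).natAbs, fun m hm j => ?_⟩
    have := (Finset.le_sup (f := fun j => (m j).natAbs) (Finset.mem_univ j)).trans
      (Finset.le_sup (f := fun m => Finset.univ.sup fun j => (m j).natAbs) hm)
    omega
  let n : (Fin r → ℤ) → Fin r →₀ ℕ := fun m =>
    Finsupp.equivFunOnFinite.symm fun j => (m j + T).toNat
  have hn : ∀ m ∈ S, ∀ j, (n m j : ℤ) = m j + T := fun m hm j => Int.toNat_of_nonneg (hT m hm j)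
  let G : u.ring := ∑ e ∈ S.attach, ⟨φ (b e), (l _).1 (hb e e.2)⟩ * ∏ i, ⟨s i, hm i⟩ ^ n e i
  have e1 : (G : K') = (∑ e ∈ S, φ (b e) * mon s e) * mon s fun _ => T := by
    rw [Finset.sum_mul, ← S.sum_attach]
    refine (map_sum u.ring.subtype _ _).trans (Finset.sum_congr rfl fun e _ => ?_)
    rw [map_mul, map_prod, mul_assoc, ← mon_add s0, mon]
    refine congrArg _ (Finset.prod_congr rfl fun j _ => ?_)
    rw [map_pow, ← zpow_natCast, hn e e.2 j]
    rfl
  have e2 : u.rd G = MvPolynomial.eval₂ l.κ (fun i => u.rd (s i))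
      (∑ e ∈ S, MvPolynomial.monomial (n e) (R.rd (b e))) := by
    rw [Cb.rd_of G.2, MvPolynomial.eval₂_sum, ← S.sum_attach]
    refine (map_sum (IsLocalRing.residue u.ring) _ _).trans (Finset.sum_congr rfl fun e _ => ?_)
    rw [map_mul, map_prod, MvPolynomial.eval₂_monomial, Finsupp.prod_fintype _ _ (by simp),
      l.isRd _ (hb e e.2), Cb.rd_of ((l _).1 (hb e e.2))]
    refine congrArg _ (Finset.prod_congr rfl fun j _ => ?_)
    rw [map_pow, Cb.rd_of (hm j)]
    rfl
  have g0 : u.rd G ≠ 0 := fun h => by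
    have := congrArg (MvPolynomial.coeff (n e₁)) (hp _ (e2 ▸ h))
    rw [MvPolynomial.coeff_sum, Finset.sum_eq_single e₁ (fun a ha k => by
        rw [MvPolynomial.coeff_monomial, if_neg fun k' => k (funext fun j => by
          have := hn a ha j
          rw [k', hn e₁ h1 j] at this
          omega)]) (fun k => (k h1).elim), MvPolynomial.coeff_monomial, if_pos rfl] at this
    exact h0 this
  have g1 : (G : K') ≠ 0 := fun h => g0 ((Cb.rd_eq_zero G.2).2 (Cb.mx_iff.2 (.inl h)))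
  have o := ord_zero G.2 g0
  rw [e1] at o g1
  rw [Pl.ord_mul _ (left_ne_zero_of_mul g1) (mon_ne s0 _), ord_mon u s0] at o
  exact ⟨left_ne_zero_of_mul g1, by simpa [fun i => ord_zero (hm i) (r0 i)] using o⟩

end Gav

open Gav

theorem gav : GAV := by
  intro K F _ _ _ _ _ _ d k y t h ⟨D, hD⟩ E w
  have hc : ∀ c, algebraMap K F (algebraMap ℂ K c) = algebraMap ℂ F c := fun c =>
    (IsScalarTower.algebraMap_apply ℂ K F c).symm
  let c : Fin k → K := fun i => E.t ^ (-w i)
  have c0 : ∀ i, c i ≠ 0 := fun i => zpow_ne_zero _ E.t_ne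
  have c1 : ∀ i, algebraMap K F (c i) ≠ 0 := fun i => (map_ne_zero _).2 (c0 i)
  have t0 := h.ind.ne_zero
  have si := ind_scale h.ind c0
  obtain ⟨v, l, e1, sm, hp, -⟩ := exists_gauss si (by
    rw [eq_top_iff, ← h.gen, IntermediateField.adjoin_le_iff]
    rintro _ ⟨i, rfl⟩
    rw [← mul_div_cancel_right₀ (t i) (c1 i)]
    exact div_mem (IntermediateField.subset_adjoin _ _ ⟨i, rfl⟩)
      (IntermediateField.algebraMap_mem _ _)) E
  have lo : ∀ φ, v.ord (algebraMap K F φ) = E.ord φ := fun φ => by rw [l.ord, e1, one_mul]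
  have ot : ∀ i, v.ord (t i) = w i := fun i => by
    have := ord_zero (sm i) fun e =>
      MvPolynomial.X_ne_zero (R := E.κ) i (hp _ (by rw [MvPolynomial.eval₂_X, e]))
    rw [Pl.ord_mul _ (t0 i) (c1 i), lo, E.ord_t_zpow] at this
    omega
  refine ⟨v, fun φ e φ0 => ?_, fun ψ e he => ?_, ?_⟩
  · rw [hm, Pl.ord_mul _ ((map_ne_zero _).2 φ0) (mon_ne t0 e), lo, ord_mon v t0]
    simp only [ot, dotProduct]
  · obtain ⟨e₁, h1, mn⟩ := ψ.support.exists_min_image (fun e => E.ord (ψ e) + e ⬝ᵥ w) ⟨e, he⟩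
    refine le_trans (le_of_eq ?_) (mn e he)
    set μ := E.ord (ψ e₁) + e₁ ⬝ᵥ w with hμ
    have ob : ∀ a ∈ ψ.support, E.ord (ψ a * E.t ^ (a ⬝ᵥ w - μ)) = E.ord (ψ a) + a ⬝ᵥ w - μ :=
      fun a ha => by
        rw [Pl.ord_mul _ (Finsupp.mem_support_iff.1 ha) (zpow_ne_zero _ E.t_ne), E.ord_t_zpow,
          add_sub_assoc]
    have b0 : ∀ a ∈ ψ.support, ψ a * E.t ^ (a ⬝ᵥ w - μ) ≠ 0 := fun a ha =>
      mul_ne_zero (Finsupp.mem_support_iff.1 ha) (zpow_ne_zero _ E.t_ne)
    have bm : ∀ a ∈ ψ.support, ψ a * E.t ^ (a ⬝ᵥ w - μ) ∈ E.ring := fun a ha =>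
      (Pl.ord_nonneg_iff E.toPlace (b0 a ha)).1 (by rw [ob a ha]; exact sub_nonneg.2 (mn a ha))
    obtain ⟨n0, o⟩ := ord_le l sm hp ψ.support (fun a => ψ a * E.t ^ (a ⬝ᵥ w - μ)) bm h1 (by
      rw [Ne, Cb.rd_eq_zero (bm _ h1), Cb.mx_iff, ob _ h1, sub_self]
      simp [b0 _ h1])
    have : lv t ψ = (∑ a ∈ ψ.support, algebraMap K F (ψ a * E.t ^ (a ⬝ᵥ w - μ)) *
        mon (fun i => t i * algebraMap K F (c i)) a) * algebraMap K F (E.t ^ μ) := by
      rw [Finset.sum_mul]
      refine Finset.sum_congr rfl fun a _ => ?_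
      change algebraMap K F (ψ a) * mon t a = _
      have m : mon (fun i => t i * algebraMap K F (c i)) a =
          mon t a * algebraMap K F (E.t ^ (-(a ⬝ᵥ w))) := by
        have := mon_mon (z := fun _ : Unit => E.t) (fun _ => E.t_ne) (fun i _ => -w i) a
        simp only [mon, Finset.univ_unique, Finset.prod_singleton, mul_neg,
          Finset.sum_neg_distrib] at this
        rw [dotProduct, ← this]
        simp only [mon, mul_zpow, Finset.prod_mul_distrib, map_prod, map_zpow₀, c]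
      rw [m, mul_comm (mon t a), ← mul_assoc, ← map_mul, mul_right_comm, ← map_mul,
        mul_assoc (ψ a), mul_assoc (ψ a), ← zpow_add₀ E.t_ne, ← zpow_add₀ E.t_ne,
        show a ⬝ᵥ w - μ + -(a ⬝ᵥ w) + μ = 0 by ring, zpow_zero, mul_one]
    rw [this, Pl.ord_mul _ n0 ((map_ne_zero _).2 (zpow_ne_zero _ E.t_ne)), o, lo, E.ord_t_zpow,
      zero_add]
  · have yi : AlgebraicIndependent ℂ y := (Cb.jac_ne_iff hD y).1 (by
      rw [Cb.jac_self hD]; exact one_ne_zero)
    have ii : ∀ s : Fin k → F, AlgebraicIndependent K s → AlgebraicIndependent ℂ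
        fun i => Sum.elim (fun j => algebraMap K F (y j)) s (finSumFinEquiv.symm i) := fun s hs => by
      have := (yi.sumElim_comp hs).comp _ ((Equiv.sumComm (Fin d) (Fin k)).injective.comp
        finSumFinEquiv.symm.injective)
      refine (congrArg (fun w => AlgebraicIndependent ℂ w) (funext fun i => ?_)).mp this
      simp only [Function.comp_apply]
      rcases finSumFinEquiv.symm i with j | j <;> rfl
    have k := kap_gauss h.ff h.ff' hc finSumFinEquiv.symm (ii _ si) l sm hp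
    obtain ⟨L, hL⟩ := Cb.exists_lf h.ff' v
    have dm := dt_mul hc (fun i => L (finSumFinEquiv.symm.symm i)) hD t c
    rw [jac_dt, jac_dt] at dm
    rw [hL.eq _ (ii _ si), dm, Pl.ord_mul _ (hL.ne _ (ii _ h.ind))
      (Finset.prod_ne_zero_iff.2 fun i _ => c1 i), ord_prod v c1, Int.cast_add,
      ← hL.eq _ (ii _ h.ind), e1] at k
    simp only [lo, c, E.ord_t_zpow] at k
    rw [lt, zt, app_eq]
    simp only [ot]
    push_cast at k
    rw [Finset.sum_neg_distrib] at k
    linarith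

end Vale.Agent.P283R.Cx
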