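import Vale.Agent.P283R.Cx.St

/-!
# P283R, block CX: the ring of the sections is a normal affine model
-/

set_option linter.all false

open Set
open Vale.Agent.P297Z

noncomputable section

namespace Vale.Agent.P283R.Cx

open Vale.Agent.P287D
open Vale.Agent.P283R.To (mon mon_add mon_ne)

namespace An

variable {K F : Type} [Field K] [Algebra ℂ K] [Field F] [Algebra ℂ F] [Algebra K F]
  [IsScalarTower ℂ K F] {d k N : ℕ} {t : Fin k → F} {s : Fin N → K} {a : Fin N → Fin k → ℤ}

theorem hm_mul (ht : ∀ i, t i ≠ 0) (φ ψ : K) (e e' : Fin k → ℤ) :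
    hm t (φ * ψ) (e + e') = hm t φ e * hm t ψ e' := by
  rw [hm, hm, hm, map_mul, mon_add ht]
  ring

theorem hm_pow (ht : ∀ i, t i ≠ 0) (φ : K) (e : Fin k → ℤ) (n : ℕ) :
    hm t (φ ^ n) (fun i => n * e i) = hm t φ e ^ n := by
  induction n with
  | zero => simp [hm, mon]
  | succ n ih =>
    rw [pow_succ, pow_succ, ← ih, ← hm_mul ht]
    exact congrArg _ (funext fun i => by simp [add_mul])

theorem hm_prod (ht : ∀ i, t i ≠ 0) (c : Fin N → ℕ) :
    hm t (∏ j, s j ^ c j) (dg a c) = ∏ j, hm t (s j) (a j) ^ c j := by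
  have k : ∀ u : Finset (Fin N), hm t (∏ j ∈ u, s j ^ c j) (fun i => ∑ j ∈ u, c j * a j i) =
      ∏ j ∈ u, hm t (s j) (a j) ^ c j := fun u => by
    induction u using Finset.induction_on with
    | empty => simp [hm, mon]
    | insert j u hj ih =>
      rw [Finset.prod_insert hj, Finset.prod_insert hj, ← ih, ← hm_pow ht, ← hm_mul ht]
      exact congrArg _ (funext fun i => by rw [Finset.sum_insert hj]; rfl)
  exact k _

theorem mem_rg (ht : ∀ i, t i ≠ 0) {φ : K} {e : Fin k → ℤ} (h : φ ∈ Sp s a e) :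
    hm t φ e ∈ Rg s a t := by
  induction h using Submodule.span_induction with
  | mem x hx =>
    obtain ⟨c, rfl, rfl⟩ := hx
    rw [hm_prod ht]
    exact prod_mem fun j _ => pow_mem (Algebra.subset_adjoin (mem_range_self j)) _
  | zero => simp [hm, zero_mem]
  | add x y _ _ hx hy =>
    rw [hm, map_add, add_mul]
    exact add_mem hx hy
  | smul c x _ hx =>
    rw [hm, Algebra.smul_def, map_mul, mul_assoc, ← IsScalarTower.algebraMap_apply]
    exact mul_mem (Subalgebra.algebraMap_mem _ _) hx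

theorem gen_sp (j : Fin N) : s j ∈ Sp s a (a j) := by
  classical
  refine Submodule.subset_span ⟨Pi.single j 1, funext fun i => ?_, ?_⟩
  · simp [dg, Pi.single_apply]
  · simp [Pi.single_apply, pow_ite]

theorem hm_ne (ht : ∀ i, t i ≠ 0) {φ : K} (h : φ ≠ 0) (e : Fin k → ℤ) : hm t φ e ≠ 0 :=
  mul_ne_zero ((map_ne_zero _).2 h) (mon_ne ht e)

theorem lv_single (e : Fin k → ℤ) (φ : K) : lv t (Finsupp.single e φ) = hm t φ e :=
  Finsupp.sum_single_index (by simp [hm])

theorem lv_add (ψ ψ' : (Fin k → ℤ) →₀ K) : lv t (ψ + ψ') = lv t ψ + lv t ψ' :=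
  Finsupp.sum_add_index' (fun _ => by simp [hm]) fun _ _ _ => by simp [hm, add_mul]

/-- integral elements are Laurent polynomials -/
theorem lau_int (h : Ext K d t) {x : F} (hx : IsIntegral (Rg s a t) x) :
    ∃ ψ : (Fin k → ℤ) →₀ K, lv t ψ = x := by
  classical
  have ht := h.ind.ne_zero
  let _ : Algebra (MvPolynomial (Fin k) K) F := (MvPolynomial.aeval t).toRingHom.toAlgebra
  have al : ∀ p, algebraMap (MvPolynomial (Fin k) K) F p = MvPolynomial.aeval t p := fun _ => rfl
  have : FaithfulSMul (MvPolynomial (Fin k) K) F :=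
    (faithfulSMul_iff_algebraMap_injective _ _).2 h.ind
  have : IsFractionRing (MvPolynomial (Fin k) K) F := IsFractionRing.of_field _ _ fun z =>
    (IntermediateField.mem_adjoin_range_iff K t z).1 (h.gen ▸ IntermediateField.mem_top)
  let M := Submonoid.powers (∏ i, MvPolynomial.X i : MvPolynomial (Fin k) K)
  have hM : M ≤ nonZeroDivisors _ := powers_le_nonZeroDivisors_of_noZeroDivisors
    (Finset.prod_ne_zero_iff.2 fun i _ => MvPolynomial.X_ne_zero i)
  let L := Localization.subalgebra F M hM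
  have : IsIntegrallyClosed L := isIntegrallyClosed_of_isLocalization L M hM
  have mem : ∀ z : F, z ∈ L ↔ ∃ (p : MvPolynomial (Fin k) K) (n : ℕ),
      z = MvPolynomial.aeval t p / (∏ i, t i) ^ n := fun z => by
    constructor
    · rintro ⟨p, q, ⟨n, rfl⟩, rfl⟩
      exact ⟨p, n, by simp [al]⟩
    · rintro ⟨p, n, rfl⟩
      exact ⟨p, _, ⟨n, rfl⟩, by simp [al]⟩
  have hK : ∀ φ : K, algebraMap K F φ ∈ L := fun φ => (mem _).2 ⟨MvPolynomial.C φ, 0, by simp⟩
  have h1 : ∀ i, t i ∈ L := fun i => (mem _).2 ⟨MvPolynomial.X i, 0, by simp⟩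
  have h2 : ∀ i, (t i)⁻¹ ∈ L := fun i => (mem _).2
    ⟨∏ j ∈ Finset.univ.erase i, MvPolynomial.X j, 1, by
      have p0 : ∏ j ∈ Finset.univ.erase i, t j ≠ 0 := Finset.prod_ne_zero_iff.2 fun j _ => ht j
      rw [pow_one, ← Finset.mul_prod_erase _ _ (Finset.mem_univ i), map_prod]
      simp only [MvPolynomial.aeval_X]
      rw [div_mul_cancel_right₀ p0]⟩
  have le : ∀ z ∈ Rg s a t, z ∈ L := fun z hz => by
    induction hz using Algebra.adjoin_induction with
    | mem z hz =>
      obtain ⟨j, rfl⟩ := hz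
      refine mul_mem (hK _) (prod_mem fun i _ => ?_)
      obtain ⟨n, e | e⟩ := Int.eq_nat_or_neg (a j i)
      · rw [e, zpow_natCast]
        exact pow_mem (h1 i) n
      · rw [e, zpow_neg, zpow_natCast, ← inv_pow]
        exact pow_mem (h2 i) n
    | algebraMap c =>
      rw [IsScalarTower.algebraMap_apply ℂ K F]
      exact hK _
    | add a b _ _ ha hb => exact add_mem ha hb
    | mul a b _ _ ha hb => exact mul_mem ha hb
  let φ : Rg s a t →+* L := ((Rg s a t).val : _ →+* F).codRestrict L fun z => le z z.2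
  have hL : IsIntegral L x := hx.map_of_comp_eq φ (RingHom.id F) (RingHom.ext fun _ => rfl)
  obtain ⟨z, rfl⟩ := (isIntegrallyClosed_iff F).1 this hL
  obtain ⟨p, n, e⟩ := (mem z).1 z.2
  let A : AddSubmonoid F :=
    { carrier := {x | ∃ ψ : (Fin k → ℤ) →₀ K, lv t ψ = x}
      zero_mem' := ⟨0, Finsupp.sum_zero_index⟩
      add_mem' := by
        rintro _ _ ⟨ψ, rfl⟩ ⟨ψ', rfl⟩
        exact ⟨_, lv_add ψ ψ'⟩ }
  change (z : F) ∈ A
  rw [e, MvPolynomial.aeval_def, MvPolynomial.eval₂_eq', Finset.sum_div]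
  refine sum_mem fun m _ => ⟨_, (lv_single (fun i => m i - n) (p.coeff m)).trans ?_⟩
  rw [hm, mon, mul_div_assoc, ← Finset.prod_pow, ← Finset.prod_div_distrib]
  simp only [zpow_sub₀ (ht _), zpow_natCast]

end An

open An

theorem aff : AFF := by
  classical
  intro K F _ _ _ _ _ _ d k y t h _ N T D s a hc
  have ht := h.ind.ne_zero
  refine ⟨h.ff', Subalgebra.fg_def.2 ⟨_, finite_range _, rfl⟩, fun x => ?_⟩
  let L := Subfield.closure (Rg s a t : Set F)
  have sub : ∀ z ∈ Rg s a t, z ∈ L := fun z hz => Subfield.subset_closure hz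
  have hK : ∀ φ : K, algebraMap K F φ ∈ L := fun φ => by
    obtain ⟨e, b, hb, c, hc', c0, rfl⟩ := hc.fr0 φ
    have : algebraMap K F (b / c) = hm t b e / hm t c e := by
      rw [hm, hm, mul_div_mul_right _ _ (mon_ne ht e), map_div₀]
    rw [this]
    exact div_mem (sub _ (mem_rg ht hb)) (sub _ (mem_rg ht hc'))
  have h1 : ∀ i, t i ∈ L := fun i => by
    obtain ⟨e, b, hb, c, hc', b0, c0⟩ := hc.fr1 (Pi.single i 1)
    have m : mon t (Pi.single i 1) = t i := by
      rw [mon, Finset.prod_eq_single i (fun b _ hb => by simp [hb]) (by simp)]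
      simp
    have : t i = hm t b (Pi.single i 1 + e) / hm t c e * algebraMap K F (c / b) := by
      have b1 : algebraMap K F b ≠ 0 := (map_ne_zero _).2 b0
      have c1 : algebraMap K F c ≠ 0 := (map_ne_zero _).2 c0
      have := mon_ne ht e
      rw [hm, hm, mon_add ht, m, map_div₀]
      field_simp
    rw [this]
    exact mul_mem (div_mem (sub _ (mem_rg ht hb)) (sub _ (mem_rg ht hc'))) (hK _)
  have hx : x ∈ L := by
    have : x ∈ IntermediateField.adjoin K (range t) := h.gen ▸ IntermediateField.mem_top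
    exact (IntermediateField.adjoin_le_iff (T := L.toIntermediateField hK)).2
      (by rintro _ ⟨i, rfl⟩; exact h1 i) this
  obtain ⟨b, hb, c, hc', rfl⟩ := Subfield.mem_closure_iff.1 hx
  have e : Subring.closure (Rg s a t : Set F) = (Rg s a t).toSubring :=
    Subring.closure_eq (Rg s a t).toSubring
  rw [e] at hb hc'
  exact ⟨⟨b, hb⟩, ⟨c, hc'⟩, rfl⟩

theorem nor_of (hG : GAV) : NOR := by
  intro K F _ _ _ _ _ _ d k y t h hy N T D s a hc
  have ht := h.ind.ne_zero
  have : IsFractionRing (Rg s a t) F :=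
    IsFractionRing.of_field _ _ (aff K F d k y t h hy N T D s a hc).fr
  refine (isIntegrallyClosed_iff F).2 fun {x} hx => ?_
  obtain ⟨ψ, rfl⟩ := lau_int h hx
  refine ⟨⟨_, sum_mem fun e he => mem_rg ht ?_⟩, rfl⟩
  refine (hc.sec e _ (Finsupp.mem_support_iff.1 he)).2 fun P hP => ?_
  obtain ⟨v, hv⟩ := hG K F d k y t h hy P (D P)
  have le : ∀ z ∈ Rg s a t, z ∈ v.ring := fun z hz => by
    induction hz using Algebra.adjoin_induction with
    | mem z hz =>
      obtain ⟨j, rfl⟩ := hz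
      refine (Pl.ord_nonneg_iff _ (hm_ne ht (hc.ne j) _)).1 ?_
      rw [hv.ord _ _ (hc.ne j)]
      exact (hc.sec _ _ (hc.ne j)).1 (gen_sp j) P hP
    | algebraMap c => exact v.con c
    | add a b _ _ ha hb => exact add_mem ha hb
    | mul a b _ _ ha hb => exact mul_mem ha hb
  let φ : Rg s a t →+* v.ring := ((Rg s a t).val : _ →+* F).codRestrict v.ring fun z => le z z.2
  have hL : IsIntegral v.ring (lv t ψ) :=
    hx.map_of_comp_eq φ (RingHom.id F) (RingHom.ext fun _ => rfl)
  obtain ⟨z, hz⟩ := (isIntegrallyClosed_iff F).1 inferInstance hL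
  exact (Pl.ord_nonneg_of_mem v.toPlace (hz ▸ z.2 : lv t ψ ∈ v.ring)).trans (hv.min ψ e he)

end Vale.Agent.P283R.Cx
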