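import Vale.Agent.P283R.Cx.St

/-!
# P283R, block CX: the statements, uniform in the codimension
-/

open Set

noncomputable section

namespace Vale.Agent.P283R.Cx

open Vale.Agent.P287D Vale.Agent.P283M

/-- the body of `COR` -/
def CorB (c d k q : ℕ) (ε : ℝ) (m : ℕ) : Prop :=
  ∀ (K F : Type) [Field K] [Algebra ℂ K] [Field F] [Algebra ℂ F] [Algebra K F]
    [IsScalarTower ℂ K F] (y : Fin d → K) (t : Fin k → F) (T : Set (Pl K))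
    (D : Pl K → Fin k → ℤ) (s : Fin (d + k + c) → K) (a : Fin (d + k + c) → Fin k → ℤ)
    (f : Fin c → MvPolynomial (Fin (d + k + c)) ℂ) (h g : K) (δ b : Fin k → ℤ) (r : ℕ),
    Ext K d t → Frm y → Cox T D s a → CI s a f → h ≠ 0 → g ≠ 0 → g ∈ Sp s a b →
    (∀ E ∈ T, (E.ord h + δ ⬝ᵥ D E : ℤ) = q * kap y E + (E.ord g + b ⬝ᵥ D E : ℤ)) → 0 < r →
    (∀ G : Subgroup (F ≃ₐ[ℂ] F), (G : Set _) = Gr K t r → ∀ U : Pl F,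
      (∀ x ∈ Rg s a t, x ∈ U.ring) → ∀ e : ℕ, 0 < e → Dv G U e →
        ε * e ≤ lt y t U - (U.ord (hm t h δ) : ℝ) / q) →
    ∀ U : Pl F, (∀ x ∈ Rg s a t, x ∈ U.ring) → ∃ n : Fin (d + k + c) → ℕ,
      (∀ i, (r : ℤ) ∣ dg a n i + m * δ i) ∧
      ∑ j, (n j : ℝ) * U.ord (hm t (s j) (a j)) < q * m * (lt y t U - (U.ord (hm t h δ) : ℝ) / q)

/-- the body of `QxAt` -/
def QxB (c k n q : ℕ) (ε : ℝ) (N : ℕ) : Prop :=
  ∀ (K : Type) [Field K] [Algebra ℂ K] (u : Finset K) (Λ Γ Γ' : BD K) (D : Pl K → Fin k → ℤ)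
    (s : Fin (n + 1 + k + c) → K) (a : Fin (n + 1 + k + c) → Fin k → ℤ)
    (f : Fin c → MvPolynomial (Fin (n + 1 + k + c)) ℂ), Dat n u Λ Γ Γ' → Cox (Tt n u Λ) D s a →
    CI s a f → (∀ e, ∃ φ ∈ Sp s a e, φ ≠ 0) → (∃ h e, Eqv (Tt n u Λ) D (cn K (n + 1)) h e) →
    (∃ h e, Eqv (Tt n u Λ) D ((q : ℝ) • -dsc (n + 1) Γ) h e) →
    (∀ P ∈ Tt n u Λ, dsc (n + 1) Γ P ≤ 0) → (∀ P, Ov u P → ε ≤ 1 + dsc (n + 1) Γ P) →
    NefO n K u (-Γ) → Cpl n N u Λ Γ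

/-- **CORu**: `COR`, uniform in the codimension -/
def CORu : Prop := ∀ (d k q : ℕ) (ε : ℝ), 0 < q → 0 < ε → ∃ m : ℕ, 2 ≤ m ∧ ∀ c, CorB c d k q ε m

/-- **QxU**: `QxAt`, uniform in the codimension -/
def QxU (n : ℕ) : Prop := ∀ (k q : ℕ) (ε : ℝ), 0 < q → 0 < ε → ∃ N : ℕ, 1 ≤ N ∧
  ∀ c, QxB c k n q ε N

/-- **TOPB**: `TOPX` for the bodies -/
def TOPB : Prop := ∀ (c k n q m : ℕ) (ε : ℝ), 0 < q → 0 < ε → 2 ≤ m →
  CorB c (n + 1) k q (min ε 1) m → QxB c k n q ε (q * m)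

theorem qxU_of (h : TOPB) (h' : CORu) (n : ℕ) : QxU n := fun k q ε hq hε => by
  obtain ⟨m, m2, H⟩ := h' (n + 1) k q (min ε 1) hq (lt_min hε one_pos)
  exact ⟨q * m, Nat.mul_pos hq (by omega), fun c => h c k n q m ε hq hε m2 (H c)⟩

end Vale.Agent.P283R.Cx
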