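import Vale.Agent.P283R.Cx.Bas
import Vale.Agent.P283R.Cx.Su
import Vale.Agent.P283R.Mi.St
import Vale.Agent.P283R.Tp.Nt
import Vale.Agent.P283R.Tp.Top0

/-!
# P283R, block CX: the theorem for the finite groups, at one place
-/

open Set

noncomputable section

namespace Vale.Agent.P283R.Cx

open Vale.Agent.P287D Vale.Agent.P297Z

namespace Cr

variable {K F : Type} [Field K] [Algebra ℂ K] [Field F] [Algebra ℂ F] [Algebra K F]
  {d k N q r m : ℕ} {y : Fin d → K} {t : Fin k → F} {T : Set (Pl K)} {D : Pl K → Fin k → ℤ}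
  {s : Fin N → K} {a : Fin N → Fin k → ℤ} {h g : K} {δ b : Fin k → ℤ}
  {G : Subgroup (F ≃ₐ[ℂ] F)}

/-- the twisted powers of the equation of `q (K + B)` -/
def tw (t : Fin k → F) (h : K) (δ : Fin k → ℤ) (q r n : ℕ) : F :=
  hm t (h ^ n) ((n : ℤ) • δ + fun _ => (r : ℤ) * (q * n))

omit [Algebra ℂ K] in
theorem ord_tw (ht : ∀ i, t i ≠ 0) (h0 : h ≠ 0) (n : ℕ) (U : Pl F) : (U.ord (tw t h δ q r n) : ℝ) =
    n * U.ord (hm t h δ) + r * (q * n) * ∑ i, (U.ord (t i) : ℝ) := by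
  rw [tw, ← mul_one (h ^ n), hm_mul ht, Pl.ord_mul _ (hm_ne ht (pow_ne_zero _ h0) _)
    (hm_ne ht one_ne_zero _), hm_pow ht, Pl.ord_pow, ord_hm ht U one_ne_zero, map_one, Pl.ord_one,
    zero_add, ← Finset.mul_sum]
  push_cast
  rfl

omit [Algebra ℂ K] in
theorem ld_tw (ht : ∀ i, t i ≠ 0) (h0 : h ≠ 0) (q0 : 0 < q) (r0 : 0 < r)
    (hl : ∀ U, 1 + kap (zt y fun i => t i ^ r) U = lt y t U + r * ∑ i, (U.ord (t i) : ℝ))
    (U : Pl F) : ld (zt y fun i => t i ^ r) (q * r) (tw t h δ q r r) U =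
      lt y t U - (U.ord (hm t h δ) : ℝ) / q := by
  have : (q : ℝ) ≠ 0 := Nat.cast_ne_zero.2 q0.ne'
  have : (r : ℝ) ≠ 0 := Nat.cast_ne_zero.2 r0.ne'
  rw [ld, hl, ord_tw ht h0]
  push_cast
  field_simp
  ring

variable [IsScalarTower ℂ K F]

/-- one monomial has an order at most the order of the sum -/
theorem pick (ht : ∀ i, t i ≠ 0) (s0 : ∀ j, s j ≠ 0) {ψ : (Fin k → ℤ) →₀ K}
    (hψ : ∀ e, ψ e ∈ Sp s a e) (n0 : lv t ψ ≠ 0) (U : Pl F) : ∃ e ∈ ψ.support, ∃ c, dg a c = e ∧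
      ∑ j, (c j : ℝ) * U.ord (hm t (s j) (a j)) ≤ U.ord (lv t ψ) := by
  by_contra c
  push Not at c
  have k : lv t ψ ∈ U.sub (-(U.ord (lv t ψ) + 1)) := Submodule.sum_mem _ fun e he => by
    have := hψ e
    beta_reduce
    generalize ψ e = φ at this
    induction this using Submodule.span_induction with
    | mem x hx =>
      obtain ⟨n, hn, rfl⟩ := hx
      have z := c e he n hn
      beta_reduce
      rw [← show dg a n = e from hn, hm_prod ht]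
      refine .inr ?_
      rw [U.ord_prod _ fun j _ => pow_ne_zero _ (hm_ne ht (s0 j) _)]
      simp only [Pl.ord_pow]
      have z' : U.ord (lv t ψ) < ∑ j, (n j : ℤ) * U.ord (hm t (s j) (a j)) := by exact_mod_cast z
      exact_mod_cast (by omega : (0 : ℤ) ≤ ∑ j, (n j : ℤ) * U.ord (hm t (s j) (a j)) +
        -(U.ord (lv t ψ) + 1))
    | zero => rw [hm_zero]; exact zero_mem _
    | add x y _ _ hx hy => rw [hm_add]; exact add_mem hx hy
    | smul r x _ hx => rw [hm_smul]; exact Submodule.smul_mem _ _ hx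
  have := k.resolve_left n0
  linarith

/-- from the invariant section to a monomial -/
theorem back (ht : ∀ i, t i ≠ 0) (s0 : ∀ j, s j ≠ 0) (h0 : h ≠ 0) (q0 : 0 < q) (r0 : 0 < r)
    (m0 : 0 < m) (hA : Aff (d + k) (Rg s a t)) (hN : IsIntegrallyClosed (Rg s a t))
    (hG : ∀ ψ : (Fin k → ℤ) →₀ K, Fix G (lv t ψ) → ∀ e ∈ ψ.support, ∀ i, (r : ℤ) ∣ e i)
    (hl : ∀ U, 1 + kap (zt y fun i => t i ^ r) U = lt y t U + r * ∑ i, (U.ord (t i) : ℝ))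
    {p : Ideal (Rg s a t)} {U : Pl F} (hU : Cen (Rg s a t) p U)
    (H : Sol (q * m) G (Rg s a t) p (PD (Rg s a t)) (zt y fun i => t i ^ r) (q * r)
      (tw t h δ q r r)) : ∃ n : Fin N → ℕ, (∀ i, (r : ℤ) ∣ dg a n i + m * δ i) ∧
      ∑ j, (n j : ℝ) * U.ord (hm t (s j) (a j)) <
        q * m * (lt y t U - (U.ord (hm t h δ) : ℝ) / q) := by
  obtain ⟨φ, φ0, fx, h1, h2⟩ := H U hU
  have q' : (0 : ℝ) < q := Nat.cast_pos.2 q0
  have r' : (0 : ℝ) < r := Nat.cast_pos.2 r0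
  have m' : (0 : ℝ) < m := Nat.cast_pos.2 m0
  have w0 : tw t h δ q r m ≠ 0 := hm_ne ht (pow_ne_zero _ h0) _
  have mem : φ / tw t h δ q r m ∈ Rg s a t := (hrt _ F _ hA hN).2.1 _ fun R hR => by
    refine (Pl.ord_nonneg_iff _ (div_ne_zero φ0 w0)).1 ?_
    have := h1 R hR
    rw [ord_tw ht h0, le_div_iff₀ (by positivity)] at this
    rw [Pl.ord_div _ φ0 w0, ← Int.cast_nonneg_iff (R := ℝ), Int.cast_sub, ord_tw ht h0, sub_nonneg]
    refine le_of_eq_of_le ?_ this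
    push_cast
    field_simp
  obtain ⟨ψ, ψ1, ψ2⟩ := (mem_Rg_iff ht).1 mem
  obtain ⟨e, he, n, rfl, hn⟩ := pick ht s0 ψ1 (ψ2 ▸ div_ne_zero φ0 w0) U
  obtain ⟨ψ', k1, k2⟩ := lv_shift ht ψ (h ^ m) ((m : ℤ) • δ + fun _ => (r : ℤ) * (q * m))
  refine ⟨n, fun i => ?_, hn.trans_lt ?_⟩
  · have := hG ψ' (by rw [k2, ψ2]; exact (div_mul_cancel₀ φ w0).symm ▸ fx) _
      (Finsupp.mem_support_iff.2 ((k1 (dg a n)).trans_ne
        (mul_ne_zero (Finsupp.mem_support_iff.1 he) (pow_ne_zero _ h0)))) i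
    simp only [Pi.add_apply, Pi.smul_apply, smul_eq_mul, ← add_assoc] at this
    exact (dvd_add_left (dvd_mul_right _ _)).1 this
  · rw [ld, hl, sub_pos, div_lt_iff₀ (by positivity)] at h2
    rw [ψ2, Pl.ord_div _ φ0 w0, Int.cast_sub, ord_tw ht h0, mul_sub,
      show (q : ℝ) * m * ((U.ord (hm t h δ) : ℝ) / q) = m * U.ord (hm t h δ) by field_simp]
    push_cast at h2
    linarith

omit [Algebra ℂ K] [IsScalarTower ℂ K F] in
theorem pr (ht : ∀ i, t i ≠ 0) (h0 : h ≠ 0) (q0 : 0 < q) (r0 : 0 < r)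
    (hA : Aff (d + k) (Rg s a t)) (hN : IsIntegrallyClosed (Rg s a t)) (g1 : Finite G)
    (g2 : Stab G (Rg s a t)) (g3 : ∀ (φ : K) e, (∀ i, (r : ℤ) ∣ e i) → Fix G (hm t φ e))
    (hf : Frm (zt y fun i => t i ^ r)) :
    Pr (d + k) G (Rg s a t) (zt y fun i => t i ^ r) (q * r) (tw t h δ q r r) := by
  refine ⟨hA, hN, g1, g2, fun i => ?_, hf, Nat.mul_pos q0 r0, hm_ne ht (pow_ne_zero _ h0) _,
    g3 _ _ fun i => dvd_add (dvd_mul_right _ _) (dvd_mul_right _ _)⟩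
  refine Fin.addCases (fun i => ?_) (fun i => ?_) i
  · rw [zt, Fin.append_left, ← hm_deg0 t]
    exact g3 _ _ fun _ => dvd_zero _
  · rw [zt, Fin.append_right, ← hm_single (K := K) t, ← hm_pow ht]
    exact g3 _ _ fun _ => dvd_mul_right _ _

theorem eqn (ht : ∀ i, t i ≠ 0) (h0 : h ≠ 0) (g0 : g ≠ 0) (q0 : 0 < q) (r0 : 0 < r)
    (hg : g ∈ Sp s a b)
    (he : ∀ E ∈ T, (E.ord h + δ ⬝ᵥ D E : ℤ) = q * kap y E + (E.ord g + b ⬝ᵥ D E : ℤ))
    (hP : ∀ R, PD (Rg s a t) R → (∃ E ∈ T, Gv y t E (D E) R) ∨ Hz K t R)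
    (hK : ∀ R, PD (Rg s a t) R → Hz K t R → lt y t R = 1)
    (hl : ∀ U, 1 + kap (zt y fun i => t i ^ r) U = lt y t U + r * ∑ i, (U.ord (t i) : ℝ))
    {p : Ideal (Rg s a t)} (hp : p.IsPrime) :
    Eqn q (Rg s a t) p (zt y fun i => t i ^ r) (q * r) (tw t h δ q r r) (hm t g b) := by
  have : (q : ℝ) ≠ 0 := Nat.cast_ne_zero.2 q0.ne'
  refine ⟨⟨⟨_, mem_Rg ht hg⟩, 1, fun x => hp.ne_top ((Ideal.eq_top_iff_one _).2 x), by simp⟩,
    hm_ne ht g0 _, fun R ⟨p', _, c⟩ => ?_⟩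
  rw [ld_tw ht h0 q0 r0 hl]
  obtain ⟨E, hE, v⟩ | z := hP R ⟨p', c⟩
  · rw [v.lt, v.ord _ _ h0, v.ord _ _ g0, he E hE]
    field_simp
    ring
  · rw [hK R ⟨p', c⟩ z, z _ _ h0, z _ _ g0]
    simp

end Cr

/-- **CORu** -/
theorem coru_of (h1 : AFF) (h2 : NOR) (h3 : PDV) (h4 : KAH) (h5 : GRP) (h6 : LAR) (h7 : LCI)
    (hA : Mi.ACu) : CORu := by
  intro d k q ε q0 e0
  obtain ⟨J, n₀, n0, H⟩ := hA (d + k) q ε q0 e0
  refine ⟨2 * n₀ * J.factorial, by nlinarith [Nat.mul_le_mul n0 J.factorial_pos], ?_⟩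
  intro c K F _ _ _ _ _ _ y t T D s a f h g δ b r x fy cx ci h0 g0 hg he r0 hy U hU
  have ht := x.ind.ne_zero
  have A := h1 K F d k y t x fy _ T D s a cx
  have N := h2 K F d k y t x fy _ T D s a cx
  obtain ⟨G, g0', g1, g2, g3, g4⟩ := h5 K F d k y t x fy r r0
  obtain ⟨l1, l2⟩ := h6 K F d k y t x fy r r0
  obtain ⟨F', _, _, G', S', π, f', l⟩ := h7 K F d k y t x fy c r s a f G ci r0 g0'
  obtain ⟨p, hp⟩ := Tq.exists_cen hU
  have pp := Hr.cen_prime hp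
  obtain ⟨M, hM, le⟩ := p.exists_le_maximal pp.ne_top
  have P := Cr.pr (δ := δ) ht h0 q0 r0 A N g1 (g2 _ s a) g3 l1
  have hyp : ∀ p', Hyp ε G (Rg s a t) p' (zt y fun i => t i ^ r) (q * r) (Cr.tw t h δ q r r) :=
    fun p' V c e e0 v => by
      rw [Cr.ld_tw ht h0 q0 r0 l2]
      exact hy G g0' V (fun z hz => (c ⟨z, hz⟩).1) e e0 v
  obtain ⟨B, i, S⟩ := H (q * (2 * n₀)) (by positivity) ((dvd_mul_left _ _).mul_left _)
    (dvd_mul_right _ _) c F F' G _ G' S' π f' p M _ _ _ _ P l pp hM le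
    (Cr.eqn ht h0 g0 q0 r0 hg he (h3 K F d k y t x fy _ T D s a cx)
      (h4 K F d k y t x fy _ T D s a cx) l2 hM.isPrime) (fun p' _ => hyp p')
    fun R ⟨p', _, c, _⟩ => e0.trans_le (by simpa using hyp p' R c 1 one_pos fun _ _ _ => by simp)
  have S' := nt _ J _ F G B _ p _ _ _ (by positivity) P pp i S
  rw [mul_assoc] at S'
  exact Cr.back ht cx.ne h0 q0 r0 (by positivity) A N g4 l2 hp S'

end Vale.Agent.P283R.Cx
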