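import Vale.Agent.P283R.Cx.Bas

/-!
# P283R, block CX: the torsion subgroups of the torus
-/

open Set MvPolynomial

noncomputable section

namespace Vale.Agent.P283R.Cx.Grp

open Vale.Agent.P287D
open Vale.Agent.P283R.To (mon)

variable {K F : Type} [Field K] [Algebra ℂ K] [Field F] [Algebra ℂ F] [Algebra K F]
  [IsScalarTower ℂ K F] {d k : ℕ} {t : Fin k → F}

omit [IsScalarTower ℂ K F] in
theorem eqv (h : Ext K d t) : ∃ e : FractionRing (MvPolynomial (Fin k) K) ≃ₐ[K] F,
    ∀ j, e (algebraMap (MvPolynomial (Fin k) K) _ (X j)) = t j := by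
  refine ⟨AlgEquiv.ofBijective ((IntermediateField.val _).comp h.ind.aevalEquivField.toAlgHom)
    ⟨RingHom.injective _, fun x => ?_⟩, fun j => ?_⟩
  · obtain ⟨a, e⟩ := h.ind.aevalEquivField.surjective ⟨x, h.gen ▸ trivial⟩
    exact ⟨a, congrArg Subtype.val e⟩
  · exact (h.ind.aevalEquivField_algebraMap_apply_coe (X j)).trans (aeval_X _ _)

/-- the torus acts -/
theorem aut (h : Ext K d t) {c : Fin k → ℂ} (hc : ∀ i, c i ≠ 0) : ∃ σ : F ≃ₐ[ℂ] F,
    (∀ φ : K, σ (algebraMap K F φ) = algebraMap K F φ) ∧ ∀ i, σ (t i) = c i • t i := by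
  obtain ⟨e, he⟩ := eqv h
  let c' := fun i => algebraMap ℂ K (c i)
  have c0 : ∀ i, c' i ≠ 0 := fun i => (_root_.map_ne_zero _).2 (hc i)
  let a : MvPolynomial (Fin k) K ≃ₐ[K] MvPolynomial (Fin k) K :=
    AlgEquiv.ofAlgHom (aeval fun j => c' j • X j) (aeval fun j => (c' j)⁻¹ • X j)
      (algHom_ext fun j => by simp [smul_smul, c0]) (algHom_ext fun j => by simp [smul_smul, c0])
  let b : FractionRing (MvPolynomial (Fin k) K) ≃ₐ[K] FractionRing (MvPolynomial (Fin k) K) :=
    IsFractionRing.algEquivOfAlgEquiv a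
  refine ⟨((e.symm.trans b).trans e).restrictScalars ℂ,
    fun φ => ((e.symm.trans b).trans e).commutes φ, fun i => ?_⟩
  change e (b (e.symm (t i))) = _
  rw [← he, e.symm_apply_apply, IsFractionRing.algEquivOfAlgEquiv_algebraMap,
    show a (X i) = c' i • X i from aeval_X _ _, Algebra.smul_def, map_mul, map_mul,
    ← IsScalarTower.algebraMap_apply, e.commutes, ← IsScalarTower.algebraMap_apply,
    Algebra.smul_def]

omit [Algebra ℂ K] [IsScalarTower ℂ K F] in
theorem map_hm {σ : F ≃ₐ[ℂ] F} {c : Fin k → ℂ}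
    (h : ∀ φ : K, σ (algebraMap K F φ) = algebraMap K F φ) (hc : ∀ i, σ (t i) = c i • t i) (φ : K)
    (e : Fin k → ℤ) : σ (hm t φ e) = (∏ i, c i ^ e i) • hm t φ e := by
  simp only [hm, mon, map_mul, map_prod, map_zpow₀, h, hc, Algebra.smul_def, mul_zpow,
    Finset.prod_mul_distrib]
  ring

omit [IsScalarTower ℂ K F] in
theorem ext_of (h : Ext K d t) {σ τ : F ≃ₐ[ℂ] F}
    (a : ∀ φ : K, σ (algebraMap K F φ) = τ (algebraMap K F φ)) (b : ∀ i, σ (t i) = τ (t i)) :
    σ = τ := AlgEquiv.ext fun x => by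
  have : x ∈ IntermediateField.adjoin K (range t) := h.gen ▸ trivial
  induction this using IntermediateField.adjoin_induction with
  | mem x hx => obtain ⟨i, rfl⟩ := hx; exact b i
  | algebraMap x => exact a x
  | add x y _ _ u v => rw [map_add, map_add, u, v]
  | inv x _ u => rw [map_inv₀, map_inv₀, u]
  | mul x y _ _ u v => rw [map_mul, map_mul, u, v]

variable (K t) in
/-- the group -/
def gr (r : ℕ) (hr : 0 < r) : Subgroup (F ≃ₐ[ℂ] F) where
  carrier := Gr K t r
  one_mem' := ⟨fun _ => rfl, fun _ => ⟨1, one_pow _, (one_smul _ _).symm⟩⟩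
  mul_mem' := fun {σ τ} a b => ⟨fun φ => by rw [AlgEquiv.mul_apply, b.1, a.1], fun i => by
    obtain ⟨c, c1, c2⟩ := a.2 i
    obtain ⟨c', c3, c4⟩ := b.2 i
    exact ⟨c' * c, by rw [mul_pow, c1, c3, one_mul], by
      rw [AlgEquiv.mul_apply, c4, map_smul, c2, smul_smul]⟩⟩
  inv_mem' := fun {σ} a => ⟨fun φ => σ.symm_apply_eq.2 (a.1 φ).symm, fun i => by
    obtain ⟨c, c1, c2⟩ := a.2 i
    have c0 : c ≠ 0 := fun z => by simp [z, hr.ne'] at c1
    exact ⟨c⁻¹, by rw [inv_pow, c1, inv_one], σ.symm_apply_eq.2 (by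
      rw [map_smul, c2, smul_smul, inv_mul_cancel₀ c0, one_smul])⟩⟩

end Vale.Agent.P283R.Cx.Grp

namespace Vale.Agent.P283R.Cx

open Grp

theorem grp : GRP := by
  intro K F _ _ _ _ _ _ d k y t h hy r hr
  refine ⟨gr K t r hr, rfl, ?_, fun N s a σ hσ x hx => ?_, fun φ e he σ hσ => ?_,
    fun ψ hψ e he i => ?_⟩
  · have : Finite {c : ℂ // c ^ r = 1} := by
      refine ((Polynomial.nthRoots r (1 : ℂ)).finite_toSet.subset fun c hc => ?_).to_subtype
      exact (Polynomial.mem_nthRoots hr).2 hc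
    choose c c1 c2 using fun σ : gr K t r hr => σ.2.2
    refine Finite.of_injective (fun σ i => (⟨c σ i, c1 σ i⟩ : {c : ℂ // c ^ r = 1}))
      fun σ τ e => Subtype.ext (ext_of h (fun φ => (σ.2.1 φ).trans (τ.2.1 φ).symm) fun i => ?_)
    rw [c2, c2, show c σ i = c τ i from congrArg Subtype.val (congrFun e i)]
  · choose c _ c2 using hσ.2
    induction hx using Algebra.adjoin_induction with
    | mem x hx =>
      obtain ⟨j, rfl⟩ := hx
      rw [map_hm hσ.1 c2]
      exact Subalgebra.smul_mem _ (Algebra.subset_adjoin (mem_range_self j)) _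
    | algebraMap x => rw [σ.commutes]; exact Subalgebra.algebraMap_mem _ _
    | add x y _ _ u v => rw [map_add]; exact add_mem u v
    | mul x y _ _ u v => rw [map_mul]; exact mul_mem u v
  · choose c c1 c2 using hσ.2
    rw [map_hm hσ.1 c2, Finset.prod_eq_one fun i _ => ?_, one_smul]
    obtain ⟨m, e⟩ := he i
    rw [e, zpow_mul, zpow_natCast, c1, one_zpow]
  · classical
    have pr := Complex.isPrimitiveRoot_exp r hr.ne'
    set ζ := Complex.exp (2 * Real.pi * Complex.I / r)
    let c : Fin k → ℂ := fun j => if j = i then ζ else 1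
    obtain ⟨σ, s1, s2⟩ := aut h (c := c) fun j => by
      simp only [c]; split_ifs
      exacts [pr.ne_zero hr.ne', one_ne_zero]
    have fx := hψ σ ⟨s1, fun j => ⟨c j, by
      simp only [c]; split_ifs
      exacts [pr.pow_eq_one, one_pow _], s2 j⟩⟩
    have cp : ∀ e : Fin k → ℤ, ∏ j, c j ^ e j = ζ ^ e i := fun e => by
      rw [Finset.prod_eq_single i (fun j _ n => by simp [c, n]) (by simp)]
      simp [c]
    let ψ' : (Fin k → ℤ) →₀ K :=
      Finsupp.onFinset ψ.support (fun e => (ζ ^ e i - 1) • ψ e) fun e n =>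
        Finsupp.mem_support_iff.2 fun z => n (by rw [z, smul_zero])
    have z : lv t ψ' = 0 := by
      rw [lv, Finsupp.onFinset_sum _ (fun e => by simp [hm]), ← sub_eq_zero.2 fx, lv, Finsupp.sum,
        map_sum, ← Finset.sum_sub_distrib]
      refine Finset.sum_congr rfl fun e _ => ?_
      rw [map_hm s1 s2, cp, hm, hm, Algebra.smul_def, map_mul, ← IsScalarTower.algebraMap_apply,
        map_sub, map_one, Algebra.smul_def]
      ring
    have := DFunLike.congr_fun (lv_inj h.ind z) e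
    exact (pr.zpow_eq_one_iff_dvd _).1 (sub_eq_zero.1
      ((smul_eq_zero.1 this).resolve_right (Finsupp.mem_support_iff.1 he)))

end Vale.Agent.P283R.Cx
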