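import Vale.Agent.P283R.Cx.St
import Vale.Agent.P283R.Tp.Ram

/-!
# P283R, block CX: the invariant frame
-/

open Set

noncomputable section

namespace Vale.Agent.P283R.Cx

open Vale.Agent.P297Z Vale.Agent.P287D
open Vale.Agent.P283R.To (mon la)

variable {K F : Type} [Field K] [Algebra ℂ K] [Field F] [Algebra ℂ F] [Algebra K F]
  [IsScalarTower ℂ K F] {d k : ℕ} {y : Fin d → K} {t : Fin k → F}

/-- the frame `(y, t)` is algebraically independent -/
theorem zt_ind (hy : AlgebraicIndependent ℂ y) (ht : AlgebraicIndependent K t) :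
    AlgebraicIndependent ℂ (zt y t) := by
  have := (hy.sumElim_comp ht).comp (finSumFinEquiv.symm.trans (Equiv.sumComm _ _))
    (Equiv.injective _)
  convert this using 1
  funext i
  refine Fin.addCases (fun i => ?_) (fun i => ?_) i <;> simp [zt]

theorem zt_frm (h : Ext K d t) (hy : Frm y) : Frm (zt y t) :=
  Cb.fr_of h.ff' (zt_ind hy.ind h.ind)

omit [Algebra ℂ K] [Algebra ℂ F] [IsScalarTower ℂ K F] in
theorem zt_pow (y : Fin d → K) (t : Fin k → F) (r : ℕ) :
    (zt y fun i => t i ^ r) = fun i => mon (zt y t)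
      (Matrix.diagonal (Fin.append (fun _ : Fin d => (1 : ℤ)) fun _ : Fin k => (r : ℤ)) i) := by
  funext i
  rw [mon, Finset.prod_eq_single i (fun j _ h => by simp [Matrix.diagonal_apply_ne' _ h])
    (by simp), Matrix.diagonal_apply_eq]
  refine Fin.addCases (fun i => ?_) (fun i => ?_) i <;> simp [zt]

/-- **LAR** -/
theorem lar : LAR := fun K F _ _ _ _ _ _ d k y t h hy r r0 => by
  have hz := zt_ind hy.ind h.ind
  have hA : (Matrix.diagonal
      (Fin.append (fun _ : Fin d => (1 : ℤ)) fun _ : Fin k => (r : ℤ))).det ≠ 0 := by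
    rw [Matrix.det_diagonal]
    refine Finset.prod_ne_zero_iff.2 fun i _ => ?_
    refine Fin.addCases (fun i => ?_) (fun i => ?_) i <;> simp [r0.ne']
  refine ⟨Cb.fr_of h.ff' (zt_pow y t r ▸ To.ind_det h.ff' hz hA), fun U => ?_⟩
  have e := To.la_mon h.ff' hz hA U
  rw [← zt_pow, la, la, Fin.sum_univ_add, Fin.sum_univ_add] at e
  have o : ∀ i, U.ord (t i ^ r) = r * U.ord (t i) := fun i => by
    rw [← zpow_natCast, Pl.ord_zpow]
  simp only [zt, Fin.append_left, Fin.append_right, o] at e
  simp only [lt, zt]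
  push_cast at e
  rw [← Finset.mul_sum] at e
  linarith

end Vale.Agent.P283R.Cx
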