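import Vale.Agent.P283R.Cx.Bas
import Vale.Agent.P283R.Cx.Lar

/-!
# P283R, block CX: the prime divisors of the generic torus
-/

open Set

noncomputable section

namespace Vale.Agent.P283R.Cx

open Vale.Agent.P297Z Vale.Agent.P287D Vale.Agent.P287D.Cb

namespace Kah

variable {F : Type} [Field F] [Algebra ℂ F]

/-- the regular functions with a regular derivative -/
def rg (R : Pl F) (D : Derivation ℂ F F) : Subalgebra ℂ F where
  carrier := {a | a ∈ R.ring ∧ D a ∈ R.ring}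
  mul_mem' := fun h k => ⟨mul_mem h.1 k.1, by
    rw [D.leibniz]; exact add_mem (mul_mem h.1 k.2) (mul_mem k.1 h.2)⟩
  add_mem' := fun h k => ⟨add_mem h.1 k.1, by rw [map_add]; exact add_mem h.2 k.2⟩
  algebraMap_mem' := fun c => ⟨R.con c, by rw [D.map_algebraMap]; exact zero_mem _⟩

theorem inv_rg {R : Pl F} {D : Derivation ℂ F F} {a : F} (h : a ∈ rg R D) (k : a⁻¹ ∈ R.ring) :
    a⁻¹ ∈ rg R D := ⟨k, by
  rw [D.leibniz_inv]; exact mul_mem (neg_mem (pow_mem k 2)) h.2⟩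

theorem zpow_rg {R : Pl F} {D : Derivation ℂ F F} {a : F} (h : a ∈ rg R D) (k : a⁻¹ ∈ R.ring)
    (n : ℤ) : a ^ n ∈ rg R D := by
  obtain ⟨n, rfl | rfl⟩ := n.eq_nat_or_neg
  · rw [zpow_natCast]; exact pow_mem h n
  · rw [zpow_neg, zpow_natCast, ← inv_pow]; exact pow_mem (inv_rg h k) n

end Kah

open Kah in
/-- **KAH** -/
theorem kah : KAH := by
  intro K F _ _ _ _ _ _ d k y t h hy N T D s a _ R ⟨q, cq, lq⟩ hz
  obtain ⟨E, hE⟩ := zt_frm h hy
  obtain ⟨E₀, h₀⟩ := hy
  have ot : ∀ i, R.ord (t i) = 0 := fun i => hm_single (K := K) t i ▸ hz 1 _ one_ne_zero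
  have mK : ∀ φ : K, algebraMap K F φ ∈ R.ring := fun φ => by
    by_cases e : φ = 0
    · rw [e, map_zero]; exact zero_mem _
    · exact mem_ord (hm_deg0 t φ ▸ hz φ 0 e).ge
  have m : ∀ i j, E i (zt y t j) ∈ R.ring := fun i j => by
    rw [hE.dual]
    split_ifs
    exacts [one_mem _, zero_mem _]
  have rK : ∀ i (φ : K), algebraMap K F φ ∈ rg R (E i) := fun i φ => ⟨mK φ, by
    have := expand ((dr_of (E i)).comp (algebraMap K F)) (fun c => by
      rw [← IsScalarTower.algebraMap_apply]; exact (E i).map_algebraMap c) h₀ φ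
    exact this ▸ sum_mem fun j _ => mul_mem (by simpa [zt] using m i (Fin.castAdd k j)) (mK _)⟩
  have rt : ∀ i j, t j ∈ rg R (E i) := fun i j =>
    ⟨mem_ord (ot j).ge, by simpa [zt] using m i (Fin.natAdd d j)⟩
  have rS : ∀ i, Rg s a t ≤ rg R (E i) := fun i => Algebra.adjoin_le (by
    rintro _ ⟨j, rfl⟩
    exact mul_mem (rK i _) (prod_mem fun l _ => zpow_rg (rt i l) (inv_mem_ord (ot l)) _))
  have ad : Ad R (zt y t) E := ⟨hE, fun j => by
      refine Fin.addCases (fun j => ?_) (fun j => ?_) j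
      · simpa [zt] using mK (y j)
      · simpa [zt] using mem_ord (ot j).ge, fun i x hx => by
    obtain ⟨b, c, hc, rfl⟩ := lq x hx
    rw [div_eq_mul_inv]
    exact (mul_mem (rS i b.2) (inv_rg (rS i c.2) (inv_mem_of fun e =>
      hc ((cq c).2.2 ((rd_eq_zero (cq c).1).2 e))))).2⟩
  rw [lt, kap_eq ad, jac_self hE]
  simp [ot]

end Vale.Agent.P283R.Cx
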