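import Vale.Agent.P283R.Cx.St

/-!
# P283R, block CX: the prime divisors of the ring of the sections
-/

open Set
open Vale.Agent.P297Z

noncomputable section

namespace Vale.Agent.P283R.Cx

open Vale.Agent.P287D
open Vale.Agent.P283R.To (mon mon_ne mon_add)

namespace Pdv

variable {K F : Type} [Field K] [Algebra ℂ K] [Field F] [Algebra ℂ F] [Algebra K F] {k : ℕ}
  {t : Fin k → F}

omit [Algebra ℂ K] [Algebra ℂ F] in
theorem ne (ht : ∀ i, t i ≠ 0) {φ : K} (h : φ ≠ 0) (e : Fin k → ℤ) : hm t φ e ≠ 0 :=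
  mul_ne_zero ((map_ne_zero _).2 h) (mon_ne ht e)

omit [Algebra ℂ K] [Algebra ℂ F] in
theorem mul (ht : ∀ i, t i ≠ 0) (φ ψ : K) (e e' : Fin k → ℤ) :
    hm t (φ * ψ) (e + e') = hm t φ e * hm t ψ e' := by
  rw [hm, hm, hm, map_mul, mon_add ht]
  ring

omit [Algebra ℂ K] in
theorem add (ht : ∀ i, t i ≠ 0) (R : Pl F) {φ ψ : K} (h : φ ≠ 0) (h' : ψ ≠ 0)
    (e e' : Fin k → ℤ) :
    R.ord (hm t (φ * ψ) (e + e')) = R.ord (hm t φ e) + R.ord (hm t ψ e') := by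
  rw [mul ht, Pl.ord_mul _ (ne ht h e) (ne ht h' e')]

/-- a homogeneous unit of `R` with large orders at finitely many primes -/
theorem big (ht : ∀ i, t i ≠ 0) (R : Pl F) (T : Set (Pl K)) (D : Pl K → Fin k → ℤ)
    (h : ∀ E ∈ T, ∃ (φ : K) (e : Fin k → ℤ), φ ≠ 0 ∧ R.ord (hm t φ e) = 0 ∧
      0 < E.ord φ + e ⬝ᵥ D E ∧ ∀ P ∈ T, 0 ≤ P.ord φ + e ⬝ᵥ D P) (n : ℕ) (A : Finset (Pl K)) :
    ∃ (φ : K) (e : Fin k → ℤ), φ ≠ 0 ∧ R.ord (hm t φ e) = 0 ∧
      ∀ P ∈ T, 0 ≤ P.ord φ + e ⬝ᵥ D P ∧ (P ∈ A → (n : ℤ) ≤ P.ord φ + e ⬝ᵥ D P) := by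
  classical
  have one : ∀ A : Finset (Pl K), ∃ (φ : K) (e : Fin k → ℤ), φ ≠ 0 ∧ R.ord (hm t φ e) = 0 ∧
      ∀ P ∈ T, 0 ≤ P.ord φ + e ⬝ᵥ D P ∧ (P ∈ A → 0 < P.ord φ + e ⬝ᵥ D P) := by
    intro A
    induction A using Finset.induction_on with
    | empty => exact ⟨1, 0, one_ne_zero, by simp [hm, mon], fun P _ => by simp⟩
    | insert E A _ ih =>
      obtain ⟨φ, e, h0, h1, h2⟩ := ih
      by_cases hE : E ∈ T
      · obtain ⟨ψ, e', k0, k1, k2, k3⟩ := h E hE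
        refine ⟨φ * ψ, e + e', mul_ne_zero h0 k0, by rw [add ht R h0 k0, h1, k1, add_zero],
          fun P hP => ?_⟩
        rw [Pl.ord_mul _ h0 k0, add_dotProduct]
        obtain ⟨l1, l2⟩ := h2 P hP
        have l3 := k3 P hP
        refine ⟨by linarith, fun hA => ?_⟩
        rcases Finset.mem_insert.1 hA with rfl | hA
        · linarith
        · linarith [l2 hA]
      · refine ⟨φ, e, h0, h1, fun P hP => ⟨(h2 P hP).1, fun hA => (h2 P hP).2 ?_⟩⟩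
        rcases Finset.mem_insert.1 hA with rfl | hA
        exacts [absurd hP hE, hA]
  obtain ⟨φ, e, h0, h1, h2⟩ := one A
  induction n with
  | zero => exact ⟨φ, e, h0, h1, fun P hP => ⟨(h2 P hP).1, fun _ => by simpa using (h2 P hP).1⟩⟩
  | succ n ih =>
    obtain ⟨ψ, e', k0, k1, k2⟩ := ih
    refine ⟨φ * ψ, e + e', mul_ne_zero h0 k0, by rw [add ht R h0 k0, h1, k1, add_zero],
      fun P hP => ?_⟩
    rw [Pl.ord_mul _ h0 k0, add_dotProduct]
    obtain ⟨l1, l2⟩ := h2 P hP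
    obtain ⟨l3, l4⟩ := k2 P hP
    refine ⟨by linarith, fun hA => ?_⟩
    have := l2 hA
    have := l4 hA
    push_cast
    linarith

end Pdv

open Pdv in
/-- **PDV** -/
theorem pdv_of (grd : GRD) (gav : GAV) : PDV := by
  classical
  rintro K F _ _ _ _ _ _ d k y t hE hy N T D s a hC R ⟨q, hq, hR⟩
  obtain ⟨-, gr⟩ := grd K F d k y t hE hy
  have t0 : ∀ i, t i ≠ 0 := hE.ind.ne_zero
  have mem : ∀ φ e, φ ∈ Sp s a e → hm t φ e ∈ Rg s a t := fun φ e h =>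
    (gr N s a _).2 ⟨Finsupp.single e φ, fun e' => by
      rw [Finsupp.single_apply]
      split_ifs with k
      exacts [k ▸ h, zero_mem _], Finsupp.sum_single_index (by simp [hm])⟩
  have nn : ∀ φ e, φ ∈ Sp s a e → 0 ≤ R.ord (hm t φ e) := fun φ e h =>
    Pl.ord_nonneg_of_mem _ (hq ⟨_, mem φ e h⟩).1
  by_contra hn
  rw [not_or] at hn
  obtain ⟨p, e, p1, p0, p2⟩ : ∃ p e, p ∈ Sp s a e ∧ p ≠ 0 ∧ R.ord (hm t p e) ≠ 0 := by
    by_contra hc
    push Not at hc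
    have k0 : ∀ φ : K, φ ≠ 0 → R.ord (hm t φ 0) = 0 := fun φ h => by
      obtain ⟨e, b, hb, c, hc', c0, rfl⟩ := hC.fr0 φ
      have b0 : b ≠ 0 := fun k => h (by rw [k, zero_div])
      have := add t0 R h c0 0 e
      rw [div_mul_cancel₀ _ c0, zero_add, hc b e hb b0, hc c e hc' c0] at this
      linarith
    refine hn.2 fun φ e h => ?_
    obtain ⟨e', b, hb, c, hc', b0, c0⟩ := hC.fr1 e
    have l1 := add t0 R h c0 e e'
    have l2 := add t0 R (div_ne_zero (mul_ne_zero h c0) b0) b0 0 (e + e')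
    rw [div_mul_cancel₀ _ b0, zero_add, hc b _ hb b0, k0 _ (div_ne_zero (mul_ne_zero h c0) b0)]
      at l2
    rw [hc c _ hc' c0] at l1
    linarith
  have key : ∀ E ∈ T, ∃ (φ : K) (e : Fin k → ℤ), φ ≠ 0 ∧ R.ord (hm t φ e) = 0 ∧
      0 < E.ord φ + e ⬝ᵥ D E ∧ ∀ P ∈ T, 0 ≤ P.ord φ + e ⬝ᵥ D P := by
    intro E hT
    by_contra hc
    push Not at hc
    obtain ⟨v, hv⟩ := gav K F d k y t hE hy E (D E)
    have sub : ∀ b ∈ Rg s a t, b ∈ v.ring := by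
      intro b hb
      obtain ⟨ψ, h1, rfl⟩ := (gr N s a b).1 hb
      refine sum_mem fun e he => ?_
      have k0 := Finsupp.mem_support_iff.1 he
      exact (Pl.ord_nonneg_iff _ (ne t0 k0 e)).1
        (hv.ord _ e k0 ▸ (hC.sec e _ k0).1 (h1 e) E hT)
    have le : R.ring ≤ v.ring := by
      intro x hx
      obtain ⟨b, c, hc0, rfl⟩ := hR x hx
      obtain ⟨ψ, h1, h2⟩ := (gr N s a c).1 c.2
      obtain ⟨e, he, h3⟩ : ∃ e ∈ ψ.support, (⟨_, mem _ e (h1 e)⟩ : Rg s a t) ∉ q := by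
        by_contra h
        push Not at h
        refine hc0 ?_
        have : c = ∑ e ∈ ψ.support, (⟨_, mem _ e (h1 e)⟩ : Rg s a t) :=
          Subtype.ext (by rw [← h2, AddSubmonoidClass.coe_finsetSum]; rfl)
        rw [this]
        exact q.sum_mem h
      have k0 := Finsupp.mem_support_iff.1 he
      have k1 := hq ⟨_, mem _ e (h1 e)⟩
      have k2 : R.ord (hm t (ψ e) e) = 0 := le_antisymm (not_lt.1 fun h =>
        h3 (k1.2.2 ((Cb.rd_eq_zero k1.1).2 (Cb.mx_iff.2 (Or.inr h))))) (nn _ e (h1 e))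
      have k3 : E.ord (ψ e) + e ⬝ᵥ D E ≤ 0 := not_lt.1 fun h => by
        obtain ⟨P, hP, k⟩ := hc _ e k0 k2 h
        exact k.not_ge ((hC.sec e _ k0).1 (h1 e) P hP)
      have k4 := (hv.min ψ e he).trans k3
      rw [h2] at k4
      have c0 : (c : F) ≠ 0 := fun h => hc0 ((show c = 0 from Subtype.ext h) ▸ q.zero_mem)
      rw [div_eq_mul_inv]
      exact mul_mem (sub _ b.2)
        ((Pl.ord_nonneg_iff _ (inv_ne_zero c0)).1 (by rw [Pl.ord_inv]; linarith))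
    have : R.toPlace = v.toPlace := Pl.eq_of_le' le
    obtain rfl : R = v := Vale.Agent.P287D.Pl.ext' (congrArg (·.ring) this)
    exact hn.1 ⟨E, hT, hv⟩
  let A := (hC.fin p e).toFinset
  obtain ⟨φ, e', h0, h1, h2⟩ := big t0 R T D key
    (A.sup fun P => (P.ord p + e ⬝ᵥ D P).toNat) A
  have l1 := nn (φ / p) (e' - e) ((hC.sec _ _ (div_ne_zero h0 p0)).2 fun P hP => by
    rw [Pl.ord_div _ h0 p0, sub_dotProduct]
    by_cases hA : P ∈ A
    · have k1 := (h2 P hP).2 hA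
      have k2 := Finset.le_sup (f := fun P : Pl K => (P.ord p + e ⬝ᵥ D P).toNat) hA
      have k3 := Int.self_le_toNat (P.ord p + e ⬝ᵥ D P)
      have k4 := Int.ofNat_le.2 k2
      linarith
    · have k1 : P.ord p + e ⬝ᵥ D P = 0 := not_not.1 fun h => hA (by simp [A, hP, h])
      linarith [(h2 P hP).1])
  have l2 := add t0 R (div_ne_zero h0 p0) p0 (e' - e) e
  rw [div_mul_cancel₀ _ p0, sub_add_cancel, h1] at l2
  have l3 := nn p e p1
  exact p2 (by linarith)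

end Vale.Agent.P283R.Cx
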