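import Vale.Agent.P283R.Cx.St
import Vale.Agent.P283R.Tp.Ber
import Vale.Agent.P283M.Kl.Bas

/-!
# P283R, block CX: from the monomial sections to the complement
-/

open Set

noncomputable section

namespace Vale.Agent.P283R.Cx

open Vale.Agent.P287D Vale.Agent.P283M Vale.Agent.P297Z

namespace Bak

/-- Dickson's lemma -/
theorem dick {ι : Type} [Finite ι] (S : (ι → ℕ) → Prop) :
    ∃ T : Finset (ι → ℕ), (∀ c ∈ T, S c) ∧ ∀ c, S c → ∃ t ∈ T, t ≤ c := by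
  have fin : {v | Minimal S v}.Finite :=
    (setOfPred_minimal_antichain S).finite_of_wellQuasiOrdered wellQuasiOrdered_le
  refine ⟨fin.toFinset, fun c hc => (fin.mem_toFinset.1 hc).prop, fun c hc => ?_⟩
  obtain ⟨v, le, hv⟩ := exists_minimal_le_of_wellFoundedLT S c hc
  exact ⟨v, fin.mem_toFinset.2 hv, le⟩

theorem dg_add {N k : ℕ} (a : Fin N → Fin k → ℤ) (c c' : Fin N → ℕ) :
    dg a (c + c') = dg a c + dg a c' := funext fun i => by
  simp only [dg, Pi.add_apply, Nat.cast_add, add_mul, Finset.sum_add_distrib]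

variable {K : Type} [Field K] [Algebra ℂ K] {n k N : ℕ} {u : Finset K} {Λ Γ Γ' : BD K}
  {D : Pl K → Fin k → ℤ} {s : Fin N → K} {a : Fin N → Fin k → ℤ}

/-- the sections of degree zero are regular over `V` -/
theorem reg (h : Dat n u Λ Γ Γ') (x : Cox (Tt n u Λ) D s a) {φ : K} (φ0 : φ ≠ 0)
    (hφ : φ ∈ Sp s a 0) {P : Pl K} (o : Ov u P) : 0 ≤ P.ord φ :=
  Int.cast_nonneg_iff.1 (Kl.harto' h.ff h.big (Dsc.dv h.smp φ) h.base (fun R r c => by
    have := (x.sec 0 φ φ0).1 hφ R ⟨r, c⟩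
    rw [zero_dotProduct, add_zero] at this
    exact Int.cast_nonneg this) o)

end Bak

open Bak in
/-- **BAK** -/
theorem bak : BAK := by
  classical
  intro n k N q m K _ _ u Λ Γ Γ' D s a y h δ dt x hy cn N2 e H
  by_cases ne : ∃ P, Ov u P
  swap
  · exact ⟨1, 1, one_ne_zero, by simp, fun P p => (ne ⟨P, p⟩).elim⟩
  have s0 : ∀ c : Fin N → ℕ, ∏ j, s j ^ c j ≠ 0 := fun c =>
    Finset.prod_ne_zero_iff.2 fun j _ => pow_ne_zero _ (x.ne j)
  have h0 := pow_ne_zero m e.1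
  have n0 : (0 : ℝ) < (q * m : ℕ) := by exact_mod_cast (by omega : 0 < q * m)
  obtain ⟨T, h1, h2⟩ := dick fun c => dg a c = -((m : ℤ) • δ)
  have pick : ∀ P, Ov u P → ∃ t ∈ T, 0 < ld y (q * m) (h ^ m * ∏ j, s j ^ t j) P := fun P p => by
    obtain ⟨c, c1, c2⟩ := H P p
    obtain ⟨t, ht, le⟩ := h2 c c1
    obtain ⟨r, rfl⟩ := exists_add_of_le le
    have r0 : dg a r = 0 := by
      rw [dg_add, h1 t ht] at c1
      exact add_eq_left.1 c1
    have k := reg dt x (s0 r) (Submodule.subset_span ⟨r, r0, rfl⟩) p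
    refine ⟨t, ht, c2.trans_le (sub_le_sub_left (div_le_div_of_nonneg_right ?_ n0.le) _)⟩
    simp only [Pi.add_apply, pow_add, Finset.prod_mul_distrib]
    rw [← mul_assoc, Pl.ord_mul _ (mul_ne_zero h0 (s0 t)) (s0 r)]
    exact_mod_cast le_add_of_nonneg_right k
  obtain ⟨φ, sp, φ0, hφ⟩ := ber (n + 1) (q * m) K (Algebra.adjoin ℂ (u : Set K)) univ y
    (T.image fun t => h ^ m * ∏ j, s j ^ t j) dt.ff ⟨u, rfl⟩ hy N2
    (by
      obtain ⟨P, p⟩ := ne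
      obtain ⟨t, ht, -⟩ := pick P p
      exact ⟨_, Finset.mem_image_of_mem _ ht, mul_ne_zero h0 (s0 t)⟩)
    (fun P p => by
      obtain ⟨t, ht, k⟩ := pick P fun a ha => p.1 a (Algebra.subset_adjoin ha)
      exact ⟨_, Finset.mem_image_of_mem _ ht, mul_ne_zero h0 (s0 t), k⟩)
  obtain ⟨ψ, hψ, rfl⟩ : ∃ ψ ∈ Sp s a (-((m : ℤ) • δ)), h ^ m * ψ = φ := by
    refine Submodule.span_le.2 (?_ : _ ⊆ ((Sp s a (-((m : ℤ) • δ))).map
      (LinearMap.mulLeft ℂ (h ^ m)) : Set K)) sp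
    intro b hb
    obtain ⟨t, ht, rfl⟩ := Finset.mem_image.1 hb
    exact ⟨_, Submodule.subset_span ⟨t, h1 t ht, rfl⟩, rfl⟩
  have ψ0 := right_ne_zero_of_mul φ0
  refine ⟨_, 1, φ0, by simp, fun P p _ => ⟨fun o => ?_, ?_⟩⟩
  · have k1 := (x.sec _ ψ ψ0).1 hψ P ⟨p, o⟩
    have k2 := e.2 P ⟨p, o⟩
    rw [neg_dotProduct, smul_dotProduct, smul_eq_mul, ← Int.cast_nonneg_iff (R := ℝ)] at k1
    rw [Pi.smul_apply, smul_eq_mul] at k2
    rw [le_inv_mul_iff₀ n0, dv_apply, Pl.ord_mul _ h0 ψ0, Pl.ord_pow]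
    push_cast at k1 ⊢
    rw [mul_right_comm, k2]
    linarith
  · have := hφ P ⟨fun a ha => Br.adj_le p ha, ⊤, trivial, fun _ _ => trivial⟩
    rw [dsc, cn]
    simp only [ld, div_eq_inv_mul, Pi.sub_apply, Pi.smul_apply, smul_eq_mul, dv_apply] at this ⊢
    linarith

end Vale.Agent.P283R.Cx
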