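import Vale.Agent.P283R.To.Gs2
import Vale.Agent.P287D.Gm.Ffs

/-!
# P283R, block CX: the field `K(t)`, Gauss lifts with rational weights
-/

open Set
open Vale.Agent.P285N.Brep (jac Fr)
open Vale.Agent.P297Z
open Vale.Agent.P287D Vale.Agent.P283R.To

noncomputable section

namespace Vale.Agent.P283R.Cx.Gp

variable {K L : Type} [Field K] [Algebra ℂ K] [Field L] [Algebra ℂ L] [Algebra K L]
  [IsScalarTower ℂ K L] {d k : ℕ} {t : Fin k → L} {y : Fin d → K}

/-- the frame `(y, s)` -/
def fm (y : Fin d → K) (s : Fin k → L) : Fin (d + k) → L :=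
  Fin.append (fun j => algebraMap K L (y j)) s

/-- the log discrepancy for the form `dy ∧ dlog s` -/
def lg (y : Fin d → K) (s : Fin k → L) (U : Pl L) : ℝ :=
  1 + kap (fm y s) U - ∑ i, (U.ord (s i) : ℝ)

omit [Algebra ℂ K] [Algebra ℂ L] [IsScalarTower ℂ K L] in
theorem fm_eq (y : Fin d → K) (s : Fin k → L) : fm y s = fun i =>
    Sum.elim (fun j => algebraMap K L (y j)) s (finSumFinEquiv.symm i) := funext fun i => by
  refine Fin.addCases (fun i => ?_) (fun i => ?_) i <;> simp [fm]

theorem hc (c : ℂ) : algebraMap K L (algebraMap ℂ K c) = algebraMap ℂ L c :=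
  (IsScalarTower.algebraMap_apply ℂ K L c).symm

theorem fm_ind (hy : AlgebraicIndependent ℂ y) {s : Fin k → L} (hs : AlgebraicIndependent K s) :
    AlgebraicIndependent ℂ (fm y s) := by
  rw [fm_eq]
  have := (hy.sumElim_comp hs).comp _ (Equiv.sumComm (Fin d) (Fin k)).injective
  refine (congrArg (fun w => AlgebraicIndependent ℂ w) (funext fun i => ?_)).mp
    (this.comp _ finSumFinEquiv.symm.injective)
  simp only [Function.comp_apply]
  rcases finSumFinEquiv.symm i with i | i <;> rfl

omit [Algebra ℂ K] [Algebra ℂ L] [IsScalarTower ℂ K L] in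
theorem basis (hi : AlgebraicIndependent K t) (ht : IntermediateField.adjoin K (range t) = ⊤) :
    IsTranscendenceBasis K t :=
  hi.isTranscendenceBasis_iff_isAlgebraic.2 (IntermediateField.isAlgebraic_adjoin_iff_top.1
    ⟨fun x => isAlgebraic_algebraMap
      (⟨x, ht ▸ trivial⟩ : IntermediateField.adjoin K (range t))⟩)

theorem ff (hK : FF K d) (hi : AlgebraicIndependent K t)
    (ht : IntermediateField.adjoin K (range t) = ⊤) : FF L (d + k) := by
  have := hK.ess
  have : Algebra.EssFiniteType K L := IntermediateField.fg_top_iff.1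
    (ht ▸ IntermediateField.fg_adjoin_of_finite (finite_range t))
  have := Algebra.EssFiniteType.comp ℂ K L
  refine Gm.ff_of_ess ?_
  rw [← trdeg_add_eq ℂ K (A := L), hK.trdeg, ← (basis hi ht).cardinalMk_eq_trdeg]
  simp

omit [Algebra ℂ K] [Algebra ℂ L] [IsScalarTower ℂ K L] in
/-- powers times constants -/
theorem basis_pow (hb : IsTranscendenceBasis K t) {m : ℕ} (hm : 0 < m) {c : Fin k → K}
    (c0 : ∀ i, c i ≠ 0) : IsTranscendenceBasis K fun i => t i ^ m * algebraMap K L (c i) := by
  have al : Algebra.IsAlgebraic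
      (Algebra.adjoin K (range fun i => t i ^ m * algebraMap K L (c i))) L := ⟨fun x => by
    refine (hb.isAlgebraic.isAlgebraic x).adjoin_of_forall_isAlgebraic ?_
    rintro _ ⟨⟨i, rfl⟩, -⟩
    refine IsAlgebraic.of_pow hm ?_
    have e : t i ^ m = (c i)⁻¹ • (t i ^ m * algebraMap K L (c i)) := by
      rw [Algebra.smul_def, mul_left_comm, ← map_mul, inv_mul_cancel₀ (c0 i), map_one, mul_one]
    rw [e]
    exact isAlgebraic_algebraMap
      (⟨_, Subalgebra.smul_mem _ (Algebra.subset_adjoin (mem_range_self i)) _⟩ :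
      Algebra.adjoin K (range fun i => t i ^ m * algebraMap K L (c i)))⟩
  exact Algebra.IsAlgebraic.isTranscendenceBasis_of_le_trdeg_of_finite K _
    hb.cardinalMk_eq_trdeg.le

/-- the form `dy ∧ dlog t` does not change -/
theorem lg_pow (hK : FF K d) (hL : FF L (d + k)) (hy : AlgebraicIndependent ℂ y)
    (hb : IsTranscendenceBasis K t) {m : ℕ} (hm : 0 < m) {c : Fin k → K} (c0 : ∀ i, c i ≠ 0)
    (U : Pl L) : lg y (fun i => t i ^ m * algebraMap K L (c i)) U = lg y t U := by
  have : CharZero L := charZero_of_injective_algebraMap (algebraMap ℂ L).injective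
  obtain ⟨F, hF⟩ := Cb.fr_of hK hy
  obtain ⟨D, hD⟩ := Cb.exists_lf hL U
  have t0 := hb.1.ne_zero
  have a0 : ∀ i, algebraMap K L (c i) ≠ 0 := fun i => (map_ne_zero _).2 (c0 i)
  have m0 : ∀ i, (m : L) * t i ^ (m - 1) ≠ 0 := fun i =>
    mul_ne_zero (Nat.cast_ne_zero.2 hm.ne') (pow_ne_zero _ (t0 i))
  have e1 : jac D (fm y fun i => t i ^ m * algebraMap K L (c i)) =
      jac D (fm y fun i => t i ^ m) * ∏ i, algebraMap K L (c i) := by
    rw [fm_eq, fm_eq, ← jac_dt, ← jac_dt]
    exact dt_mul hc (fun i => D (finSumFinEquiv.symm.symm i)) hF _ c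
  have e2 : jac D (fm y fun i => t i ^ m) =
      (∏ i, (m : L) * t i ^ (m - 1)) * jac D (fm y t) := by
    have := Matrix.det_mul_row (Fin.append (fun _ : Fin d => (1 : L)) fun i =>
      (m : L) * t i ^ (m - 1)) (Matrix.of fun i j => D i (fm y t j))
    rw [Fin.prod_univ_add] at this
    simp only [Fin.append_left, Fin.append_right, Finset.prod_const_one, one_mul] at this
    refine Eq.trans ?_ this
    rw [jac]
    congr 1
    ext i j
    refine Fin.addCases (fun j => ?_) (fun j => ?_) j <;>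
      simp [fm, Derivation.leibniz_pow, mul_assoc]
  have i0 := fm_ind hy hb.1
  have i1 := fm_ind hy (basis_pow hb hm c0).1
  have k1 := hD.eq _ i1
  have k0 := hD.eq _ i0
  have p1 := Finset.prod_ne_zero_iff.2 fun i (_ : i ∈ Finset.univ) => a0 i
  have p2 := Finset.prod_ne_zero_iff.2 fun i (_ : i ∈ Finset.univ) => m0 i
  rw [e1, e2, Pl.ord_mul _ (mul_ne_zero p2 (hD.ne _ i0)) p1, Pl.ord_mul _ p2 (hD.ne _ i0),
    ord_prod U a0, ord_prod U m0] at k1
  have o : ∀ i, (U.ord (t i ^ m * algebraMap K L (c i)) : ℝ) = U.ord ((m : L) * t i ^ (m - 1)) +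
      U.ord (algebraMap K L (c i)) + U.ord (t i) := fun i => by
    have z : U.ord (m : L) = 0 := by
      rw [← map_natCast (algebraMap ℂ L)]
      exact U.ord_const _
    rw [Pl.ord_mul _ (pow_ne_zero _ (t0 i)) (a0 i), Pl.ord_mul _ (Nat.cast_ne_zero.2 hm.ne')
      (pow_ne_zero _ (t0 i)), z, Pl.ord_pow, Pl.ord_pow, Nat.cast_pred hm]
    push_cast
    ring
  simp only [lg, o, Finset.sum_add_distrib]
  push_cast at k1
  linarith

/-- the shift -/
theorem lg_shift (hK : FF K d) (hL : FF L (d + k)) (hy : AlgebraicIndependent ℂ y)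
    (hb : IsTranscendenceBasis K t) {r : ℕ} (hr : 0 < r) :
    AlgebraicIndependent ℂ (fm y fun i => t i ^ r) ∧ ∀ U : Pl L,
      1 + kap (fm y fun i => t i ^ r) U - r * ∑ i, (U.ord (t i) : ℝ) = lg y t U := by
  have a := basis_pow hb hr (c := fun _ => 1) fun _ => one_ne_zero
  have b := lg_pow hK hL hy hb hr (c := fun _ => 1) fun _ => one_ne_zero
  simp only [map_one, mul_one] at a b
  refine ⟨fm_ind hy a.1, fun U => ?_⟩
  rw [← b, lg, Finset.mul_sum]
  simp only [Pl.ord_pow, Int.cast_mul, Int.cast_natCast]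

/-- vertical places -/
theorem lg_ver (hK : FF K d) (hL : FF L (d + k)) (hy : AlgebraicIndependent ℂ y)
    (hi : AlgebraicIndependent K t) {U : Pl L} {P : Pl K} (l : Lies (algebraMap K L) U P) :
    U.ord (algebraMap K L P.t) * (1 + kap y P) ≤ lg y t U := by
  have := Cb.fib_le hK hL hc l finSumFinEquiv.symm (fm_eq y t ▸ fm_ind hy hi)
  rw [lg, fm_eq]
  linarith

/-- horizontal places -/
theorem lg_hor (hL : FF L (d + k)) (hy : AlgebraicIndependent ℂ y)
    (hi : AlgebraicIndependent K t) {U : Pl L} (l : Trv (algebraMap K L) U) : 0 ≤ lg y t U := by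
  have := Cb.sum_le_kap hL (fm_ind hy hi) U
  rw [Fin.sum_univ_add] at this
  simp only [fm, Fin.append_left, Fin.append_right] at this
  have h1 : 0 ≤ ∑ j, (U.ord (algebraMap K L (y j)) : ℝ) := Finset.sum_nonneg fun j _ => by
    exact_mod_cast Pl.ord_nonneg_of_mem _ (l _)
  rw [lg, fm]
  linarith

omit [Algebra ℂ K] [Algebra ℂ L] [IsScalarTower ℂ K L] in
theorem exists_hom (hi : AlgebraicIndependent K t) (ht : IntermediateField.adjoin K (range t) = ⊤)
    {s : Fin k → L} (hs : AlgebraicIndependent K s) : ∃ φ : L →ₐ[K] L, (∀ i, φ (t i) = s i) ∧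
      ∀ z, φ z ∈ IntermediateField.adjoin K (range s) := by
  let e : L ≃ₐ[K] IntermediateField.adjoin K (range t) :=
    ((IntermediateField.equivOfEq ht).trans IntermediateField.topEquiv).symm
  refine ⟨(IntermediateField.val _).comp
    ((e.trans (hi.aevalEquivField.symm.trans hs.aevalEquivField)) : L →ₐ[K] _), fun i => ?_,
    fun z => Subtype.property _⟩
  have : e (t i) = hi.aevalEquivField (algebraMap (MvPolynomial (Fin k) K) _ (.X i)) :=
    Subtype.ext (by rw [hi.aevalEquivField_algebraMap_apply_coe]; simp [e])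
  simp [this]

/-- places centred in the torus -/
theorem lg_tor (hK : FF K d) (hy : AlgebraicIndependent ℂ y) (hi : AlgebraicIndependent K t)
    (ht : IntermediateField.adjoin K (range t) = ⊤) {U : Pl L} (l : Trv (algebraMap K L) U)
    (h0 : ∀ i, U.ord (t i) = 0) {r e : ℕ} (hr : 0 < r)
    (he : ∀ z ∈ IntermediateField.adjoin K (range fun i => t i ^ r), z ≠ 0 → (e : ℤ) ∣ U.ord z) :
    (e : ℝ) ≤ lg y t U := by
  have hL := ff hK hi ht
  have hb := basis hi ht
  have a := basis_pow hb hr (c := fun _ => 1) fun _ => one_ne_zero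
  simp only [map_one, mul_one] at a
  obtain ⟨φ, h1, h2⟩ := exists_hom hi ht a.1
  have hφ : ∀ c, φ.toRingHom (algebraMap ℂ L c) = algebraMap ℂ L c := fun c => by
    rw [← hc (K := K)]
    exact φ.commutes _
  have e1 : (fun i => φ.toRingHom (fm y t i)) = fm y fun i => t i ^ r := funext fun i => by
    refine Fin.addCases (fun i => ?_) (fun i => ?_) i <;> simp [fm, h1]
  obtain ⟨i1, sh⟩ := lg_shift hK hL hy hb hr
  obtain ⟨R, q⟩ : ∃ R, Lies φ.toRingHom U R := by
    refine (trv_or hL hφ U).resolve_left fun q => ?_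
    have := a.isAlgebraic_field
    refine Pl.ring_ne_top U.toPlace (eq_top_iff.2 fun x _ => ?_)
    obtain ⟨p, hp, hpx⟩ : IsIntegral (IntermediateField.adjoin K (range fun i => t i ^ r)) x :=
      (this.isAlgebraic x).isIntegral
    have w : ∀ z : IntermediateField.adjoin K (range fun i => t i ^ r),
        algebraMap _ L z ∈ U.ring := fun z => by
      have le : IntermediateField.adjoin K (range fun i => t i ^ r) ≤ φ.fieldRange :=
        IntermediateField.adjoin_le_iff.2 (by rintro _ ⟨i, rfl⟩; exact ⟨_, h1 i⟩)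
      obtain ⟨v, hv⟩ := le z.2
      exact (hv ▸ q v :)
    have hint : IsIntegral U.ring x :=
      ⟨p.map ((algebraMap _ L).codRestrict _ w), hp.map _, by
        rw [Polynomial.eval₂_map]; exact hpx⟩
    obtain ⟨y, hy⟩ := IsIntegrallyClosed.isIntegral_iff.1 hint
    exact hy ▸ y.2
  have f := Cb.fib_le (σ := Empty) (s := Empty.elim) (y := fm y t) hL hL hφ q
    (Equiv.sumEmpty _ _).symm (by simpa [← e1] using i1)
  have g : 0 ≤ kap (fm y t) R := Cb.kap_nonneg hL fun i => (q _).2 (by
    refine Fin.addCases (fun i => ?_) (fun i => ?_) i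
    · simpa [fm] using l _
    · simpa [fm, h1] using pow_mem (Cb.mem_ord (h0 i).ge) r)
  have p := q.e_pos
  have le := Int.le_of_dvd p (he _ (h2 _) ((map_ne_zero _).2 R.t_ne))
  have le' : (e : ℝ) ≤ U.ord (φ.toRingHom R.t) := by exact_mod_cast le
  have p' : (0 : ℝ) < U.ord (φ.toRingHom R.t) := by exact_mod_cast p
  rw [← sh, ← e1]
  simp only [h0, Int.cast_zero, Finset.sum_const_zero, mul_zero, sub_zero]
  simp only [Equiv.sumEmpty_symm_apply, Sum.elim_inl, Finset.univ_eq_empty, Finset.sum_empty,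
    add_zero] at f
  nlinarith

/-- a space which is stable under the Euler derivations is graded -/
theorem sep {θ : Fin k → L → L} {x : (Fin k → ℤ) → L} (add : ∀ i a b, θ i (a + b) = θ i a + θ i b)
    (hx : ∀ i m (c : ℂ), θ i (c • x m) = (m i : ℂ) • c • x m) (I : Submodule ℂ L)
    (hI : ∀ i, ∀ a ∈ I, θ i a ∈ I) (m : Fin k → ℤ) (s : Finset (Fin k → ℤ)) :
    ∀ (c₀ : ℂ) (c : (Fin k → ℤ) → ℂ), m ∉ s → c₀ ≠ 0 →
      c₀ • x m + ∑ l ∈ s, c l • x l ∈ I → x m ∈ I := by
  classical
  have sm : ∀ i (s : Finset (Fin k → ℤ)) (c : (Fin k → ℤ) → ℂ),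
      θ i (∑ l ∈ s, c l • x l) = ∑ l ∈ s, (l i : ℂ) • c l • x l := fun i s c => by
    induction s using Finset.induction_on with
    | empty => simpa using hx i 0 0
    | insert a s ha ih => rw [Finset.sum_insert ha, Finset.sum_insert ha, add, hx, ih]
  induction s using Finset.induction_on with
  | empty => exact fun c₀ c _ h k => (I.smul_mem_iff h).1 (by simpa using k)
  | insert a s ha ih =>
    intro c₀ c hm h k
    rw [Finset.mem_insert, not_or] at hm
    obtain ⟨i, hi⟩ := Function.ne_iff.1 hm.1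
    refine ih (c₀ * (m i - a i)) (fun l => c l * (l i - a i)) hm.2
      (mul_ne_zero h (sub_ne_zero.2 (by exact_mod_cast hi))) ?_
    convert I.sub_mem (hI i _ k) (I.smul_mem (a i : ℂ) k) using 1
    rw [add, hx, sm]
    have e : ∑ l ∈ s, (c l * (l i - a i)) • x l =
        ∑ l ∈ s, (l i : ℂ) • c l • x l - (a i : ℂ) • ∑ l ∈ s, c l • x l := by
      rw [Finset.smul_sum, ← Finset.sum_sub_distrib]
      exact Finset.sum_congr rfl fun l _ => by module
    rw [Finset.sum_insert ha, Finset.sum_insert ha, e]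
    module

/-- the Euler derivations -/
theorem eul (hK : FF K d) (hy : AlgebraicIndependent ℂ y) (t0 : ∀ i, t i ≠ 0)
    {D : Fin (d + k) → Derivation ℂ L L} (hD : Fr (fm y t) D) (i : Fin k) :
    (∀ a : K, D (Fin.natAdd d i) (algebraMap K L a) = 0) ∧ ∀ (a : K) (m : Fin k → ℤ),
      t i * D (Fin.natAdd d i) (algebraMap K L a * mon t m) =
        (m i : ℂ) • (algebraMap K L a * mon t m) := by
  obtain ⟨F, hF⟩ := Cb.fr_of hK hy
  have ne : ∀ j, Fin.natAdd d i ≠ Fin.castAdd k j := fun j h => by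
    have := congrArg Fin.val h
    rw [Fin.val_natAdd, Fin.val_castAdd] at this
    omega
  have h1 : ∀ a : K, D (Fin.natAdd d i) (algebraMap K L a) = 0 := fun a => by
    have e := Cb.expand ((Cb.dr_of (D (Fin.natAdd d i))).comp (algebraMap K L))
      (fun c => by simp only [hc]; exact (D _).map_algebraMap c) hF a
    refine e.trans (Finset.sum_eq_zero fun j _ => ?_)
    have := hD.dual (Fin.natAdd d i) (Fin.castAdd k j)
    rw [if_neg (ne j), fm, Fin.append_left] at this
    rw [this, zero_mul]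
  refine ⟨h1, fun a m => ?_⟩
  have h2 : ∀ j, D (Fin.natAdd d i) (t j) = if i = j then 1 else 0 := fun j => by
    have := hD.dual (Fin.natAdd d i) (Fin.natAdd d j)
    rw [fm, Fin.append_right] at this
    simpa using this
  rw [Derivation.leibniz, h1, smul_zero, add_zero, der_mon _ t0, Finset.sum_eq_single i
    (fun j _ h => by rw [h2, if_neg h.symm]; simp) (by simp), h2, if_pos rfl, Algebra.smul_def,
    Algebra.smul_def, map_intCast]
  have := t0 i
  simp only [Algebra.algebraMap_self, RingHom.id_apply]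
  field_simp

/-- **the Gauss lift with the weights `w / m`** -/
theorem gp (hK : FF K d) (hy : AlgebraicIndependent ℂ y) (hi : AlgebraicIndependent K t)
    (ht : IntermediateField.adjoin K (range t) = ⊤) (P : Pl K) {m : ℕ} (hm : 0 < m)
    (w : Fin k → ℤ) : ∃ U : Pl L, Lies (algebraMap K L) U P ∧
      (∀ i, m * U.ord (t i) = U.ord (algebraMap K L P.t) * w i) ∧
      lg y t U = U.ord (algebraMap K L P.t) * (1 + kap y P) ∧
      ∀ (s : Finset (Fin k → ℤ)) (F : (Fin k → ℤ) → K), ∀ ψ ∈ s, F ψ ≠ 0 →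
        ∑ l ∈ s, algebraMap K L (F l) * mon t l ≠ 0 ∧
        U.ord (∑ l ∈ s, algebraMap K L (F l) * mon t l) ≤
          U.ord (algebraMap K L (F ψ) * mon t ψ) := by
  classical
  have hL := ff hK hi ht
  have hb := basis hi ht
  have t0 := hi.ne_zero
  have c0 : ∀ i, P.t ^ (-w i) ≠ 0 := fun i => zpow_ne_zero _ P.t_ne
  have hs := basis_pow hb hm c0
  set s := fun i => t i ^ m * algebraMap K L (P.t ^ (-w i)) with es
  obtain ⟨U, l, sm, hp⟩ := gauss_alg hL hs P
  obtain _ | d := d
  · exact (Cb.no_pl hK P).elim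
  obtain ⟨v, a⟩ := Cb.exists_ada hK P
  have wm : ∀ i, Sum.elim (fun j => algebraMap K L (v j)) s i ∈ U.ring := by
    rintro (i | i)
    exacts [(l _).1 (a.mem i), sm i]
  have wi : AlgebraicIndependent ℂ fun i =>
      U.rd (Sum.elim (fun j => algebraMap K L (v j)) s i) := by
    let _ := l.κ.toAlgebra
    have : IsScalarTower ℂ P.κ U.κ := IsScalarTower.of_algebraMap_eq fun c => by
      rw [← Cb.rd_const (P := P), ← Cb.rd_const (P := U), ← hc (K := K)]
      exact (l.isRd _ (P.con c)).symm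
    have h2 : AlgebraicIndependent P.κ fun i => U.rd (s i) := algebraicIndependent_iff.2 hp
    have := (a.ind.sumElim_comp h2).comp _ (Equiv.sumComm (Fin d) (Fin k)).injective
    refine (congrArg (fun w => AlgebraicIndependent ℂ w) (funext ?_)).mp this
    rintro (i | i)
    · exact l.isRd _ (a.mem i)
    · rfl
  have sp : Cb.Sp U (range (Sum.elim (fun j => algebraMap K L (v j)) s)) := by
    refine ⟨by rintro _ ⟨i, rfl⟩; exact wm i, fun z => ?_⟩
    have t := Cb.trdeg_κ (n := d + k) ((by omega : d + 1 + k = d + k + 1) ▸ hL) U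
    rw [← range_comp]
    exact (wi.isTranscendenceBasis_of_trdeg_le_of_finite (by simp [t])).isAlgebraic.isAlgebraic z
  have s0 : ∀ i, U.ord (s i) = 0 := fun i => by
    have : ¬ Cb.Mx U (s i) := by
      rw [← Cb.rd_eq_zero (sm i)]
      exact wi.ne_zero (.inr i)
    rw [Cb.mx_iff, not_or] at this
    have k := Pl.ord_nonneg_of_mem _ (sm i)
    omega
  obtain ⟨D, hD⟩ := Cb.fr_of hL (fm_ind hy hi)
  have lgd : ∀ i, Cb.Lg U (t i • D (Fin.natAdd _ i) : Derivation ℂ L L) := fun i => by
    obtain ⟨n, hn⟩ := Cb.lg_bdd hL U (t i • D (Fin.natAdd _ i))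
    obtain ⟨e1, e2⟩ := eul hK hy t0 hD i
    refine Cb.lg_of (Cb.dr_of _) sp ?_
      (fun c => by rw [Derivation.map_algebraMap]; exact zero_mem _) l.e_pos.ne' ?_ n hn
    · rintro _ ⟨j | j, rfl⟩
      · simp [e1, zero_mem]
      · have e : s j = algebraMap K L (P.t ^ (-w j)) * mon t (Pi.single j (m : ℤ)) := by
          rw [mon, Finset.prod_eq_single j (fun i _ h => by simp [h]) (by simp), es]
          simp [mul_comm]
        rw [Sum.elim_inr, Derivation.smul_apply, smul_eq_mul, e, e2, ← e, Algebra.smul_def]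
        exact mul_mem (U.con _) (sm j)
    · simp [e1, zero_mem]
  refine ⟨U, l, fun i => ?_, ?_, fun S F ψ hψ F0 => ?_⟩
  · have := s0 i
    rw [es, Pl.ord_mul _ (pow_ne_zero _ (t0 i)) ((map_ne_zero _).2 (c0 i)), Pl.ord_pow, l.ord,
      P.ord_t_zpow] at this
    linarith
  · rw [← lg_pow hK hL hy hb hm c0, ← es]
    obtain ⟨E, hE⟩ := a.ad hK
    let e' : Fin (d + 1 + k) ≃ Option (Fin d ⊕ Fin k) :=
      finSumFinEquiv.symm.trans (((finSuccEquiv d).sumCongr (Equiv.refl _)).trans (opt _ _))
    have q := kap_ram hL e' l.e_pos wm wi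
    have ee : (fun i => (e' i).elim (algebraMap K L P.t)
        (Sum.elim (fun j => algebraMap K L (v j)) s)) =
        fm (Fin.cons P.t v : Fin (d + 1) → K) s := by
      rw [fm_eq]
      funext i
      simp only [e', Equiv.trans_apply]
      rcases finSumFinEquiv.symm i with j | j
      · refine Fin.cases ?_ (fun j => ?_) j <;> simp [opt]
      · simp [opt]
    obtain ⟨G, hG⟩ := Cb.exists_lf hL U
    have ch := Cb.dt_chain (φ := algebraMap K L) (d := fun i => G (finSumFinEquiv.symm.symm i))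
      (fun i => Cb.dr_of _) (fun i c => by rw [hc, Derivation.map_algebraMap]) hE.fr y s
    rw [jac_dt, jac_dt, ← fm_eq, ← fm_eq] at ch
    have i1 := fm_ind hy hs.1
    have n0 := hG.ne _ i1
    have k1 := hG.eq _ i1
    rw [ch] at n0 k1
    rw [ee, hG.eq _ (fm_ind a.indep hs.1)] at q
    rw [Pl.ord_mul _ (left_ne_zero_of_mul n0) (right_ne_zero_of_mul n0), l.ord (jac E y)] at k1
    push_cast at k1
    rw [lg, Cb.kap_eq hE]
    simp only [s0, Int.cast_zero, Finset.sum_const_zero, sub_zero]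
    rw [add_comm 1, k1, q]
    ring
  · have x0 : algebraMap K L (F ψ) * mon t ψ ≠ 0 :=
      mul_ne_zero ((map_ne_zero _).2 F0) (mon_ne t0 _)
    have key : ∀ I : Submodule ℂ L, (∀ i, ∀ a ∈ I, t i * D (Fin.natAdd _ i) a ∈ I) →
        ∑ l ∈ S, algebraMap K L (F l) * mon t l ∈ I → algebraMap K L (F ψ) * mon t ψ ∈ I :=
      fun I hI h => sep (θ := fun i a => t i * D (Fin.natAdd _ i) a)
        (x := fun l => algebraMap K L (F l) * mon t l) (fun i a b => by rw [map_add, mul_add])
        (fun i m c => by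
          rw [Derivation.map_smul, mul_smul_comm, (eul hK hy t0 hD i).2, smul_comm]) I hI ψ
        (S.erase ψ) 1 (fun _ => 1) (by simp) one_ne_zero (by
          simp only [one_smul]
          rwa [Finset.add_sum_erase _ (fun l => algebraMap K L (F l) * mon t l) hψ])
    have z0 : ∑ l ∈ S, algebraMap K L (F l) * mon t l ≠ 0 := fun h => x0
      ((Submodule.mem_bot ℂ).1 (key ⊥ (fun i a ha => by simp [(Submodule.mem_bot ℂ).1 ha])
        ((Submodule.mem_bot ℂ).2 h)))
    refine ⟨z0, ?_⟩
    set z := ∑ l ∈ S, algebraMap K L (F l) * mon t l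
    let I : Submodule ℂ L :=
      { carrier := {a | a / z ∈ U.ring}
        add_mem' := fun a b => by simpa only [mem_ofPred, add_div] using add_mem a b
        zero_mem' := by simp [zero_mem]
        smul_mem' := fun c a h => by
          simpa only [mem_ofPred, Algebra.smul_def, mul_div_assoc] using mul_mem (U.con c) h }
    have := key I (fun i a ha => by
      by_cases a0 : a = 0
      · simp [a0]
      · have e : t i * D (Fin.natAdd _ i) a / z = t i * D (Fin.natAdd _ i) a / a * (a / z) := by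
          field_simp
        change _ / z ∈ U.ring
        rw [e]
        exact mul_mem (lgd i a) ha) (by change z / z ∈ U.ring; rw [div_self z0]; exact one_mem _)
    have := Pl.ord_nonneg_of_mem _ (this : _ / z ∈ U.ring)
    rw [Pl.ord_div _ x0 z0] at this
    omega

end Vale.Agent.P283R.Cx.Gp
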