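import Vale.Agent.P283R.Cx.St
import Vale.Agent.P283R.Cx.Gp
import Vale.Agent.P283R.Tp.Ram

/-!
# P283R, block CX, row DWN: restriction of places
-/

namespace Vale.Agent.P283R.Cx

open Vale.Agent.P287D

/-- **DWN** -/
theorem dwn : DWN := fun _ _ _ _ _ _ _ _ _ _ _ _ h hy U =>
  (To.trv_or h.ff' Gp.hc U).imp (fun l => ⟨l, Gp.lg_hor h.ff' hy.ind h.ind l⟩)
    fun ⟨Q, l⟩ => ⟨Q, l, Gp.lg_ver h.ff h.ff' hy.ind h.ind l⟩

end Vale.Agent.P283R.Cx
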