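import Vale.Agent.P283R.Cx.St
import Vale.Agent.P283R.To.D1

/-!
# P283R, block CX: finitely many cosets, the repair
-/

open Finset

noncomputable section

namespace Vale.Agent.P283R.Cx

namespace Fn

variable {N k : ℕ}

/-- the degrees of the Laurent monomials in the variables of weight zero -/
def mk (a : Fin N → Fin k → ℤ) (w : Fin N → ℤ) : (Fin N → ℤ) →+ (Fin k → ℤ) where
  toFun m := fun i => ∑ j, (if w j = 0 then m j else 0) * a j i
  map_zero' := funext fun i => by simp
  map_add' m m' := funext fun i => by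
    simp only [Pi.add_apply, ← sum_add_distrib]
    exact sum_congr rfl fun j _ => by split_ifs <;> ring

theorem mk_apply (a : Fin N → Fin k → ℤ) (w m : Fin N → ℤ) (i : Fin k) :
    mk a w m i = ∑ j, (if w j = 0 then m j else 0) * a j i := rfl

end Fn

open Fn in
theorem fin : FIN := by
  intro N k a w u₀ δ C h0 hw H
  obtain ⟨B, hB⟩ := exists_nat_ge C
  choose M hM hL hx using fun c : Fin N → ℕ => To.D1.sep (mk a w).range (dg a c - δ)
  have hf := AddSubgroup.finiteIndex_iInf' (s := Fintype.piFinset fun _ : Fin N => range (B + 1))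
    M fun c _ => hM c
  set M' := ⨅ c ∈ (Fintype.piFinset fun _ : Fin N => range (B + 1)), M c with hM'
  obtain ⟨c, hc, hC⟩ := H M'.index (Nat.pos_of_ne_zero hf.index_ne_zero)
  let c' : Fin N → ℕ := fun j => if w j = 0 then 0 else c j
  have hn : ∀ j, (0 : ℝ) ≤ c j * w j := fun j =>
    mul_nonneg (Nat.cast_nonneg _) (by exact_mod_cast (hw j).1)
  have hT : c' ∈ Fintype.piFinset fun _ : Fin N => range (B + 1) := by
    refine Fintype.mem_piFinset.2 fun j => mem_range.2 ?_
    by_cases e : w j = 0
    · simp [c', e]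
    · have h1 : (1 : ℝ) ≤ w j := by
        have := (hw j).1
        exact_mod_cast (show 1 ≤ w j by omega)
      have h2 := single_le_sum (f := fun j => (c j : ℝ) * w j) (fun j _ => hn j) (mem_univ j)
      have h3 : (c j : ℝ) < B := by
        nlinarith [(Nat.cast_nonneg (c j) : (0 : ℝ) ≤ c j)]
      have : c j < B := by exact_mod_cast h3
      simp only [c', if_neg e]
      omega
  have h1 : dg a c - δ ∈ M c' := by
    choose v hv using hc
    have : dg a c - δ = M'.index • v := funext fun i => by
      rw [Pi.sub_apply, hv i, Pi.smul_apply, nsmul_eq_mul]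
    rw [this]
    exact (biInf_le M hT : M' ≤ M c') (M'.nsmul_index_mem v)
  have h2 : dg a c' - δ = dg a c - δ - mk a w fun j => c j := funext fun i => by
    simp only [Pi.sub_apply, mk_apply, dg, c']
    rw [sub_right_comm, ← sum_sub_distrib]
    exact congrArg (· - δ i) (sum_congr rfl fun j _ => by split_ifs <;> simp)
  obtain ⟨m, hm⟩ := hx c' (h2 ▸ (M c').sub_mem h1 (hL c' ⟨_, rfl⟩))
  obtain ⟨T, hT'⟩ : ∃ T : ℕ, ∀ j, m j ≤ T := by
    refine ⟨∑ j, (m j).toNat, fun j => ?_⟩
    have := single_le_sum (f := fun j => (m j).toNat) (fun j _ => Nat.zero_le _) (mem_univ j)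
    omega
  refine ⟨fun j => if w j = 0 then (T * u₀ j - m j).toNat else c j, funext fun i => ?_, ?_⟩
  · have e1 := congrFun hm i
    have e2 := congrFun h0 i
    simp only [Pi.sub_apply, mk_apply, dg, c', Pi.zero_apply] at e1 e2 ⊢
    have e3 : ∑ j, ((if w j = 0 then (T * u₀ j - m j).toNat else c j : ℕ) : ℤ) * a j i =
        ∑ j, (((if w j = 0 then 0 else c j : ℕ) : ℤ) * a j i -
          (if w j = 0 then m j else 0) * a j i + T * (u₀ j * a j i)) := by
      refine sum_congr rfl fun j _ => ?_
      by_cases e : w j = 0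
      · have h3 : 0 ≤ (T : ℤ) * u₀ j - m j := by
          have h4 : (1 : ℤ) ≤ u₀ j := by exact_mod_cast (hw j).2.2 e
          nlinarith [hT' j, (Nat.cast_nonneg T : (0 : ℤ) ≤ T)]
        simp only [if_pos e, Int.toNat_of_nonneg h3]
        push_cast
        ring
      · have h3 : u₀ j = 0 := by
          by_contra h4
          exact e ((hw j).2.1 (Nat.pos_of_ne_zero h4))
        simp [e, h3]
    rw [e3, sum_add_distrib, sum_sub_distrib, ← mul_sum, e2, e1]
    ring
  · refine lt_of_eq_of_lt (sum_congr rfl fun j _ => ?_) hC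
    by_cases e : w j = 0 <;> simp [e]

end Vale.Agent.P283R.Cx
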