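import Vale.Agent.P283R.Cx.St
import Vale.Agent.P283R.Tp.Ram
import Vale.Agent.P287D.Gm.Unit

/-!
# P283R, block CX: places at which an invariant frame is regular
-/

open Set

noncomputable section

namespace Vale.Agent.P283R.Cx

open Vale.Agent.P287D

/-- **HOR** -/
theorem hor : HOR := by
  intro N F _ _ G z U e hF hz fz m dv
  have hK := Gm.Un.ff_adjoin hz.ind
  obtain ⟨Q, l⟩ := Pb.down hK hF U
  obtain ⟨-, a, b⟩ := (ram N _ F (IntermediateField.val _) (Gm.Un.gn z) hK hF
    (frm_of hK (.of_comp (IntermediateField.val _) hz.ind))).2 U Q l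
  have c : 0 ≤ kap (Gm.Un.gn z) Q := Cb.kap_nonneg hK fun i => (l _).2 (m i)
  have f : ∀ x ∈ IntermediateField.adjoin ℂ (range z), Fix G x := fun x hx σ hσ => by
    induction hx using IntermediateField.adjoin_induction with
    | mem x hx => obtain ⟨i, rfl⟩ := hx; exact fz i σ hσ
    | algebraMap x => exact σ.commutes x
    | add x y _ _ h k => rw [map_add, h, k]
    | inv x _ h => rw [map_inv₀, h]
    | mul x y _ _ h k => rw [map_mul, h, k]
  have g : (e : ℝ) ≤ U.ord (IntermediateField.val _ Q.t) := by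
    exact_mod_cast Int.le_of_dvd a (dv _ ((map_ne_zero _).2 Q.t_ne) (f _ Q.t.2))
  have a' : (0 : ℝ) < U.ord (IntermediateField.val _ Q.t) := by exact_mod_cast a
  refine g.trans (le_of_le_of_eq ?_ b.symm)
  nlinarith

end Vale.Agent.P283R.Cx
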