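import Vale.Agent.P283R.Cx.St
import Vale.Agent.P283R.To.Gs2
import Vale.Agent.P283R.To.Lin

/-!
# P283R, block CX: the Gauss lift with the weights of Goldman and Tucker
-/

open Set

noncomputable section

namespace Vale.Agent.P283R.Cx

open Vale.Agent.P287D Vale.Agent.P283M
open Vale.Agent.P283R.To (mon)

namespace Lif

/-- a vector orthogonal to the integral relations of the `a j` is a combination of their
coordinates -/
theorem fac {N k : ℕ} (a : Fin N → Fin k → ℤ) (v : Fin N → ℤ)
    (h : ∀ u : Fin N → ℤ, (∀ i, ∑ j, u j * a j i = 0) → ∑ j, u j * v j = 0) :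
    ∃ ξ : Fin k → ℚ, ∀ j, (v j : ℚ) = ∑ i, a j i * ξ i := by
  classical
  let f : (Fin N → ℤ) → (Fin N → ℚ) →ₗ[ℚ] ℚ := fun b =>
    ∑ j, (b j : ℚ) • LinearMap.proj j
  have fa : ∀ b u, f b u = ∑ j, u j * b j := fun b u => by
    simp only [f, LinearMap.sum_apply, LinearMap.smul_apply, LinearMap.proj_apply, smul_eq_mul]
    exact Finset.sum_congr rfl fun _ _ => mul_comm _ _
  have key : ⨅ i, LinearMap.ker (f fun j => a j i) ≤ LinearMap.ker (f v) := by
    intro u hu
    simp only [Submodule.mem_iInf, LinearMap.mem_ker, fa] at hu ⊢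
    let D : ℤ := ∏ j, ((u j).den : ℤ)
    have hD : (D : ℚ) ≠ 0 := Int.cast_ne_zero.2
      (Finset.prod_ne_zero_iff.2 fun j _ => by exact_mod_cast (u j).den_nz)
    have : ∀ j, ∃ c : ℤ, (c : ℚ) = D * u j := fun j => by
      obtain ⟨k, hk⟩ : ((u j).den : ℤ) ∣ D := Finset.dvd_prod_of_mem _ (Finset.mem_univ j)
      refine ⟨k * (u j).num, ?_⟩
      rw [hk]
      push_cast
      rw [← Rat.mul_den_eq_num]
      ring
    choose c hc using this
    have e : ∀ b : Fin N → ℤ, ((∑ j, c j * b j : ℤ) : ℚ) = D * ∑ j, u j * b j := fun b => by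
      push_cast
      rw [Finset.mul_sum]
      exact Finset.sum_congr rfl fun j _ => by rw [hc]; ring
    have := e v
    rw [h c fun i => by
      rw [← Int.cast_inj (α := ℚ), e, hu i]
      simp] at this
    exact (mul_eq_zero.1 (by simpa using this.symm)).resolve_left hD
  obtain ⟨ξ, hξ⟩ := (Submodule.mem_span_range_iff_exists_fun ℚ).1
    (mem_span_of_iInf_ker_le_ker key)
  refine ⟨ξ, fun j => ?_⟩
  have := LinearMap.congr_fun hξ (Pi.single j 1)
  simp only [LinearMap.sum_apply, LinearMap.smul_apply, fa, smul_eq_mul, Pi.single_apply, ite_mul,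
    one_mul, zero_mul, Finset.sum_ite_eq', Finset.mem_univ, if_true] at this
  rw [← this]
  exact Finset.sum_congr rfl fun _ _ => mul_comm _ _

variable {K F : Type} [Field K] [Algebra ℂ K] [Field F] [Algebra ℂ F] [Algebra K F]
  [IsScalarTower ℂ K F] {d k : ℕ} {y : Fin d → K} {t : Fin k → F}

/-- the frame `(y, t)` is algebraically independent -/
theorem zt_ind (x : Ext K d t) (hy : Frm y) : AlgebraicIndependent ℂ (zt y t) := by
  obtain ⟨D, hD⟩ := hy
  have yi : AlgebraicIndependent ℂ y := (Cb.jac_ne_iff hD y).1 (by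
    rw [Cb.jac_self hD]
    exact one_ne_zero)
  have := (yi.sumElim_comp x.ind).comp _
    ((finSumFinEquiv (m := d) (n := k)).symm.trans (Equiv.sumComm _ _)).injective
  refine (congrArg (fun w => AlgebraicIndependent ℂ w) (funext fun i => ?_)).mp this
  refine Fin.addCases (fun i => ?_) (fun i => ?_) i <;> simp [zt]

/-- the Gauss lift with rational weights on the `t i` -/
theorem lift (x : Ext K d t) (hy : Frm y) (Q : Pl K) (ξ : Fin k → ℚ) :
    ∃ U : Pl F, Lies (algebraMap K F) U Q ∧
      lt y t U = U.ord (algebraMap K F Q.t) * (1 + kap y Q) ∧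
      ∀ i, (U.ord (t i) : ℚ) = U.ord (algebraMap K F Q.t) * ξ i := by
  classical
  let V : Fin d → Fin (d + k) → ℤ := fun i => Pi.single (Fin.castAdd k i) 1
  have hV : LinearIndependent ℤ V :=
    (Pi.linearIndependent_single_one (Fin (d + k)) ℤ).comp _ (Fin.castAdd_injective d k)
  obtain ⟨U, l, h1, h2⟩ := To.upQ x.ff x.ff' (φ := algebraMap K F)
    (fun c => (IsScalarTower.algebraMap_apply ℂ K F c).symm) (zt_ind x hy) hV (y := y)
    (fun i => by
      rw [mon, Finset.prod_eq_single (Fin.castAdd k i)]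
      · simp [V, zt]
      · intro j _ hj
        simp [V, hj]
      · simp) Q (w := Fin.append (fun i => (Q.ord (y i) : ℚ)) ξ) (fun i => by
      rw [Finset.sum_eq_single (Fin.castAdd k i)]
      · simp [V]
      · intro j _ hj
        simp [V, hj]
      · simp)
  refine ⟨U, l, ?_, fun i => by simpa [zt] using h1 (Fin.natAdd d i)⟩
  rw [To.la, To.la, Fin.sum_univ_add] at h2
  simp only [zt, Fin.append_left, Fin.append_right, l.ord (y _), Int.cast_mul,
    ← Finset.mul_sum] at h2
  rw [lt, zt]
  linarith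

end Lif

/-- **LIF** -/
theorem lif : LIF := by
  intro K F _ _ _ _ _ _ d k y t x hy N s a Q s0 h
  classical
  let L : AddSubgroup (Fin N → ℤ) :=
    { carrier := {u | ∀ i, ∑ j, u j * a j i = 0}
      add_mem' := fun {u v} hu hv i => by
        simp only [Pi.add_apply, add_mul, Finset.sum_add_distrib, hu i, hv i, add_zero]
      zero_mem' := fun i => by simp
      neg_mem' := fun {u} hu i => by
        simp only [Pi.neg_apply, neg_mul, Finset.sum_neg_distrib, hu i, neg_zero] }
  let φ : L →+ ℤ :=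
    { toFun := fun u => ∑ j, u.1 j * Q.ord (s j)
      map_zero' := by simp
      map_add' := fun u v => by
        simp only [AddSubgroup.coe_add, Pi.add_apply, add_mul, Finset.sum_add_distrib] }
  obtain ⟨D, w, u₀, hD, hw, hu, hz⟩ := To.gt L φ fun u hu => by
    have e : ∀ j, ((u.1 j).toNat : ℤ) = u.1 j := fun j => Int.toNat_of_nonneg (hu j)
    have := h (fun j => (u.1 j).toNat) (funext fun i => by
      simp only [dg, e]
      exact u.2 i)
    have k := To.ord_mon Q s0 fun j => ((u.1 j).toNat : ℤ)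
    simp only [mon, zpow_natCast] at k
    rw [k] at this
    simp only [e] at this
    exact this
  obtain ⟨ξ, hξ⟩ := Lif.fac a (fun j => w j - D * Q.ord (s j)) fun u hu => by
    have := hw ⟨u, hu⟩
    change ∑ j, u j * w j = D * ∑ j, u j * Q.ord (s j) at this
    simp only [mul_sub, Finset.sum_sub_distrib, this, Finset.mul_sum]
    exact sub_eq_zero.2 (Finset.sum_congr rfl fun _ _ => by ring)
  have D0 : (0 : ℚ) < D := by exact_mod_cast hD
  obtain ⟨U, l, h1, h2⟩ := Lif.lift x hy Q fun i => ξ i / D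
  have e0 : (0 : ℚ) < U.ord (algebraMap K F Q.t) := by exact_mod_cast l.e_pos
  refine ⟨U, u₀, l, h1, funext fun i => hu i, fun j => ?_⟩
  have e : (U.ord (hm t (s j) (a j)) : ℚ) = U.ord (algebraMap K F Q.t) / D * w j := by
    have := hξ j
    rw [hm, P297Z.Pl.ord_mul _ ((map_ne_zero _).2 (s0 j)) (To.mon_ne x.ind.ne_zero _),
      To.ord_mon U x.ind.ne_zero, l.ord]
    push_cast at this ⊢
    simp only [h2]
    have k : ∑ i, (a j i : ℚ) * (U.ord (algebraMap K F Q.t) * (ξ i / D)) =
        U.ord (algebraMap K F Q.t) / D * ∑ i, a j i * ξ i := by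
      rw [Finset.mul_sum]
      exact Finset.sum_congr rfl fun _ _ => by ring
    rw [k, ← this]
    field_simp
    ring
  have p : (0 : ℚ) < U.ord (algebraMap K F Q.t) / D := div_pos e0 D0
  refine ⟨?_, (hz j).trans ?_⟩
  · have : (0 : ℚ) ≤ U.ord (hm t (s j) (a j)) := by
      rw [e]
      positivity
    exact_mod_cast this
  · rw [← Int.cast_inj (α := ℚ), e]
    simp [p.ne']

end Vale.Agent.P283R.Cx
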