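import Vale.Agent.P283R.Cx.St
import Vale.Agent.P283R.Tp.Hrt
import Vale.Agent.P283R.Lp.A

/-!
# P283R, block CX: Hartogs for real combinations of principal divisors
-/

open Set

noncomputable section

namespace Vale.Agent.P283R.Cx

open Vale.Agent.P287D Vale.Agent.P297Z
open Vale.Agent.P283R.To (mon mon_ne ord_mon)

/-- **RHA** -/
theorem rha : RHA := fun N F _ _ S ι _ f c hS hn f0 h U hU => by
  obtain ⟨fin, har, -⟩ := hrt N F S hS hn
  have fin' : {R | PD S R ∧ ∃ i, R.ord (f i) ≠ 0}.Finite :=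
    (finite_iUnion fun i => fin (f i)).subset fun R ⟨a, i, b⟩ => mem_iUnion.2 ⟨i, a, b⟩
  have := fin'.fintype
  have := Lp.cone_real (fun (R : {R | PD S R ∧ ∃ i, R.ord (f i) ≠ 0}) i => R.1.ord (f i))
    (fun i => (U.ord (f i) : ℝ)) (fun m hm => ?_) c fun R => ?_
  · simpa only [mul_comm] using this
  · have a : mon f m ∈ S := har _ fun R hR => (Pl.ord_nonneg_iff _ (mon_ne f0 m)).1 (by
      rw [ord_mon R f0]
      by_cases z : ∃ i, R.ord (f i) ≠ 0
      · simpa only [mul_comm] using hm ⟨R, hR, z⟩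
      · push Not at z
        simp [z])
    have b := Pl.ord_nonneg_of_mem _ (hU _ a)
    rw [ord_mon U f0] at b
    simp only [mul_comm (U.ord _ : ℝ)]
    exact_mod_cast b
  · simpa only [mul_comm] using h R.1 R.2.1

end Vale.Agent.P283R.Cx
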