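import Vale.Agent.P283R.Cx.Bas
import Vale.Agent.P283R.Cx.Rha
import Vale.Agent.P287D.Pb.Bas

/-!
# P283R, block CX: negativity on the ring of the sections
-/

open Set

noncomputable section

namespace Vale.Agent.P283R.Cx

open Vale.Agent.P287D Vale.Agent.P297Z Vale.Agent.P283M

/-- a member of a system which computes it at `Q` -/
theorem neg_pick {K : Type} [Field K] [Algebra ℂ K] (Q : Option (Pl K)) (s : Finset K) :
    ∃ f : K, f ≠ 0 ∧ (∀ P : Pl K, -P.ord f ≤ P.mz s) ∧ ∀ P ∈ Q, P.mz s = -P.ord f := by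
  by_cases h : ∃ f ∈ s, f ≠ 0
  · cases Q with
    | none =>
      obtain ⟨f, a, b⟩ := h
      exact ⟨f, b, fun P => Pb.le_mz P a b, by simp⟩
    | some Q =>
      obtain ⟨f, a, b, c⟩ := Pb.mz_att Q h
      exact ⟨f, b, fun P => Pb.le_mz P a b, by rintro P ⟨⟩; exact c⟩
  · push Not at h
    exact ⟨1, one_ne_zero, fun P => by simp [Pb.mz_eq_zero P h], fun P _ => by
      simp [Pb.mz_eq_zero P h]⟩

/-- **NEG** -/
theorem neg_of (aff : AFF) (nor : NOR) (pdv : PDV) : NEG := by
  intro K F _ _ _ _ _ _ d k y t hx hy N T D s a hc u β φ ψ e e' c c' hT ⟨γ, ⟨l, l0, hl⟩, hγ⟩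
    φ0 ψ0 hb U hU
  have t0 := hx.ind.ne_zero
  have ev : ∀ P, Ov u P → β P = ∑ x : l.support, l x * P.mz x := fun P p => by
    rw [hγ P p, hl, cmb, Finsupp.sum, Finset.sum_apply, ← Finset.sum_coe_sort]
    rfl
  have key : ∀ f : Finset K → K, (∀ x, f x ≠ 0) → (∀ x (P : Pl K), -P.ord (f x) ≤ P.mz x) →
      0 ≤ ∑ x : l.support, l x * U.ord (algebraMap K F (f x)) +
        (c * U.ord (hm t φ e) + c' * U.ord (hm t ψ e')) := fun f f0 hf => by
    have := rha (d + k) F (Rg s a t) (l.support ⊕ Bool)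
      (Sum.elim (fun x => hm t (f x) 0) fun b => cond b (hm t φ e) (hm t ψ e'))
      (Sum.elim (fun x => l x) fun b => cond b c c') (aff K F d k y t hx hy N T D s a hc)
      (nor K F d k y t hx hy N T D s a hc)
      (by
        rintro (x | _ | _)
        exacts [hm_ne t0 (f0 _) _, hm_ne t0 ψ0 _, hm_ne t0 φ0 _])
      (fun R hR => ?_) U hU
    · simpa only [Fintype.sum_sum_type, Fintype.sum_bool, Sum.elim_inl, Sum.elim_inr, cond_true,
        cond_false, hm_deg0] using this
    · simp only [Fintype.sum_sum_type, Fintype.sum_bool, Sum.elim_inl, Sum.elim_inr, cond_true,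
        cond_false]
      rcases pdv K F d k y t hx hy N T D s a hc R hR with ⟨E, hE, g⟩ | z
      · have b := hb E hE
        rw [ev E (hT E hE)] at b
        rw [g.ord φ e φ0, g.ord ψ e' ψ0]
        have : ∑ x : l.support, -(l x * R.ord (hm t (f x) 0)) ≤ ∑ x : l.support, l x * E.mz x :=
          Finset.sum_le_sum fun x _ => by
            rw [g.ord _ _ (f0 _), zero_dotProduct, add_zero, ← mul_neg]
            exact mul_le_mul_of_nonneg_left (by exact_mod_cast hf x E) (l0 x)
        rw [Finset.sum_neg_distrib] at this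
        linarith
      · simp [z _ _ φ0, z _ _ ψ0, z _ _ (f0 _)]
  refine ⟨fun Q hQ hu => ?_, fun h => ?_⟩
  · choose f f0 h1 h2 using neg_pick (some Q)
    have := key f f0 h1
    have b : ∑ x : l.support, l x * U.ord (algebraMap K F (f x)) =
        -(U.ord (algebraMap K F Q.t) * β Q) := by
      rw [ev Q hu, Finset.mul_sum, ← Finset.sum_neg_distrib]
      refine Finset.sum_congr rfl fun x _ => ?_
      rw [hQ.ord, h2 x Q rfl]
      push_cast
      ring
    linarith
  · choose f f0 h1 _ using neg_pick (K := K) none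
    simpa [Trv.ord (φ := algebraMap K F) h] using key f f0 h1

end Vale.Agent.P283R.Cx
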