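import Vale.Agent.P283R.Cx.Su
import Vale.Agent.P283M.Br.Klr
import Vale.Agent.P283M.Kl.Bas

/-!
# P283R, block CX: the assembly in the birational case
-/

open Set
open Vale.Agent.P297Z

noncomputable section

namespace Vale.Agent.P283R.Cx

open Vale.Agent.P287D Vale.Agent.P283M
open Vale.Agent.P283R.To (mon mon_ne ord_mon ord_prod)

namespace Tz

variable {K F : Type} [Field K] [Algebra ℂ K] [Field F] [Algebra ℂ F] [Algebra K F] {d k N : ℕ}
  {t : Fin k → F} {s : Fin N → K} {a : Fin N → Fin k → ℤ}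

omit [Algebra ℂ K] in
theorem ord_hm (t0 : ∀ i, t i ≠ 0) (U : Pl F) {φ : K} (h : φ ≠ 0) (e : Fin k → ℤ) :
    U.ord (hm t φ e) = U.ord (algebraMap K F φ) + ∑ i, e i * U.ord (t i) := by
  rw [hm, Pl.ord_mul _ ((map_ne_zero _).2 h) (mon_ne t0 _), ord_mon U t0]

omit [Algebra ℂ K] in
theorem ord_all (t0 : ∀ i, t i ≠ 0) (s0 : ∀ j, s j ≠ 0) (U : Pl F) (c : Fin N → ℕ) :
    ∑ j, (c j : ℤ) * U.ord (hm t (s j) (a j)) =
      U.ord (algebraMap K F (∏ j, s j ^ c j)) + ∑ i, dg a c i * U.ord (t i) := by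
  rw [map_prod, ord_prod U fun j => (map_ne_zero _).2 (pow_ne_zero _ (s0 j))]
  simp only [ord_hm t0 U (s0 _), map_pow, Pl.ord_pow, mul_add, Finset.sum_add_distrib, dg,
    Finset.sum_mul, Finset.mul_sum, mul_assoc]
  rw [Finset.sum_comm (s := Finset.univ (α := Fin k))]

theorem hm_mem [IsScalarTower ℂ K F] (grd : GRD) (x : Ext K d t) {y : Fin d → K} (hy : Frm y)
    {φ : K} {e : Fin k → ℤ} (h : φ ∈ Sp s a e) : hm t φ e ∈ Rg s a t := by
  classical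
  refine ((grd K F d k y t x hy).2 N s a _).2 ⟨Finsupp.single e φ, fun e' => ?_, ?_⟩
  · rw [Finsupp.single_apply]
    split_ifs with c
    · exact c ▸ h
    · exact zero_mem _
  · exact Finsupp.sum_single_index (by simp [hm])

omit [Algebra ℂ K] in
theorem rg_le {U : Pl F} (h : ∀ j, 0 ≤ U.ord (hm t (s j) (a j))) : ∀ x ∈ Rg s a t, x ∈ U.ring :=
  fun _ hx => Algebra.adjoin_le (S := { U.ring.toSubring with algebraMap_mem' := U.con })
    (by rintro _ ⟨j, rfl⟩; exact Cb.mem_ord (h j)) hx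

theorem le_lim {x y z : ℝ} (h : ∀ η : ℝ, 0 < η → x ≤ y + η * z) : x ≤ y := by
  refine le_of_forall_pos_le_add fun ε e0 => ?_
  have p : 0 < |z| + 1 := by positivity
  refine (h _ (div_pos e0 p)).trans (add_le_add_right ?_ _)
  rw [div_mul_eq_mul_div, div_le_iff₀ p]
  exact mul_le_mul_of_nonneg_left (by linarith [le_abs_self z]) e0.le

variable {n : ℕ} {u : Finset K} {Λ Γ Γ' : BD K} {D : Pl K → Fin k → ℤ}

/-- the monomials of degree zero are regular over `V` -/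
theorem mon_ov (A : Dat n u Λ Γ Γ') (cx : Cox (Tt n u Λ) D s a) {Q : Pl K} (o : Ov u Q)
    (c : Fin N → ℕ) (h : dg a c = 0) : 0 ≤ Q.ord (∏ j, s j ^ c j) := by
  have p0 := Finset.prod_ne_zero_iff.2 fun j (_ : j ∈ Finset.univ) => pow_ne_zero (c j) (cx.ne j)
  have := Kl.harto' A.ff A.big (Dsc.dv A.smp (∏ j, s j ^ c j)) A.base (fun R r w => by
    have := (cx.sec 0 _ p0).1 (Submodule.subset_span ⟨c, h, rfl⟩) R ⟨r, w⟩
    rw [zero_dotProduct, add_zero] at this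
    exact Int.cast_nonneg this) o
  exact Int.cast_nonneg_iff.1 this

/-- the places which are regular on the ring lie over `V` -/
theorem ov_of [IsScalarTower ℂ K F] (grd : GRD) (x : Ext K d t) {y : Fin d → K} (hy : Frm y)
    (cx : Cox (Tt n u Λ) D s a) {U : Pl F} (hU : ∀ x ∈ Rg s a t, x ∈ U.ring) {Q : Pl K}
    (l : Lies (algebraMap K F) U Q) : Ov u Q := fun v hv => by
  by_cases v0 : v = 0
  · exact v0 ▸ zero_mem _
  have := hU _ (hm_mem grd x hy ((cx.sec 0 v v0).2 fun P p => by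
    rw [zero_dotProduct, add_zero]
    exact Pl.ord_nonneg_of_mem _ (p.1 v hv)))
  exact (l v).2 (by simpa [hm, mon] using this)

/-- nef divisors -/
theorem nef_le [IsScalarTower ℂ K F] (neg : NEG) (A : Dat n u Λ Γ Γ') (x : Ext K (n + 1) t)
    {y : Fin (n + 1) → K} (hy : Frm y) (cx : Cox (Tt n u Λ) D s a) {q : ℕ} (hq : 0 < q) {h h₁ : K}
    {δ e₁ : Fin k → ℤ} (e1 : Eqv (Tt n u Λ) D (cn K (n + 1)) h₁ e₁)
    (e2 : Eqv (Tt n u Λ) D ((q : ℝ) • Γ) h δ) (nef : NefO n K u (-Γ)) {U : Pl F}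
    (hU : ∀ x ∈ Rg s a t, x ∈ U.ring) :
    (∀ Q, Lies (algebraMap K F) U Q → Ov u Q →
      (U.ord (hm t h δ) : ℝ) / q ≤ U.ord (algebraMap K F Q.t) * Γ Q) ∧
    ((∀ x : K, algebraMap K F x ∈ U.ring) → (U.ord (hm t h δ) : ℝ) / q ≤ 0) := by
  have q0 : (0 : ℝ) < q := Nat.cast_pos.2 hq
  have key := fun (η : ℝ) (η0 : 0 < η) => neg K F (n + 1) k y t x hy N _ D s a cx u (-Γ - η • Γ')
    h h₁⁻¹ δ (-e₁) (-(q : ℝ)⁻¹) η (fun P p => p.1) (Br.klr A A.dn.neg nef η0) e2.1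
    (inv_ne_zero e1.1) (fun P p => by
      have b1 := e1.2 P p
      have b2 := e2.2 P p
      have b3 := A.bdy P p.1 p.2
      rw [dsc, Pi.sub_apply] at b3
      rw [Pi.smul_apply, smul_eq_mul] at b2
      rw [Pl.ord_inv, neg_dotProduct]
      push_cast at b1 b2 ⊢
      rw [← b2, neg_mul, inv_mul_cancel_left₀ q0.ne']
      simp only [Pi.sub_apply, Pi.neg_apply, Pi.smul_apply, smul_eq_mul]
      nlinarith) U hU
  refine ⟨fun Q l o => le_lim (z := U.ord (algebraMap K F Q.t) * Γ' Q +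
    U.ord (hm t h₁⁻¹ (-e₁))) fun η η0 => ?_,
    fun o => le_lim (z := U.ord (hm t h₁⁻¹ (-e₁))) fun η η0 => ?_⟩
  · have := (key η η0).1 Q l o
    simp only [Pi.sub_apply, Pi.neg_apply, Pi.smul_apply, smul_eq_mul] at this
    rw [div_eq_inv_mul]
    linarith
  · have := (key η η0).2 o
    rw [div_eq_inv_mul]
    linarith

omit [Algebra ℂ K] in
theorem fix_K {G : Subgroup (F ≃ₐ[ℂ] F)} {r : ℕ} (hG : (G : Set _) = Gr K t r) (φ : K) :
    Fix G (algebraMap K F φ) := fun σ h => (hG ▸ h : σ ∈ Gr K t r).1 φ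

omit [Algebra ℂ K] in
theorem fix_t {G : Subgroup (F ≃ₐ[ℂ] F)} {r : ℕ} (hG : (G : Set _) = Gr K t r) (i : Fin k) :
    Fix G (t i ^ r) := fun σ h => by
  obtain ⟨c, c1, c2⟩ := (hG ▸ h : σ ∈ Gr K t r).2 i
  rw [map_pow, c2, smul_pow, c1, one_smul]

/-- the equation of `q (K + B)` -/
theorem eqv {q : ℕ} {h₁ g : K} {e₁ b : Fin k → ℤ} (e1 : Eqv (Tt n u Λ) D (cn K (n + 1)) h₁ e₁)
    (e2 : Eqv (Tt n u Λ) D ((q : ℝ) • -dsc (n + 1) Γ) g b) :
    Eqv (Tt n u Λ) D ((q : ℝ) • Γ) (h₁ ^ q * g) ((q : ℤ) • e₁ + b) :=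
  ⟨mul_ne_zero (pow_ne_zero _ e1.1) e2.1, fun P p => by
    have b1 := e1.2 P p
    have b2 := e2.2 P p
    rw [Pl.ord_mul _ (pow_ne_zero _ e1.1) e2.1, Pl.ord_pow, add_dotProduct, smul_dotProduct]
    simp only [dsc, Pi.sub_apply, Pi.neg_apply, Pi.smul_apply, smul_eq_mul] at b2 ⊢
    push_cast at b1 b2 ⊢
    rw [b1] at b2
    linarith⟩

/-- vertical places -/
theorem hyp_ver {y : Fin (n + 1) → K} (ey : cn K (n + 1) = kap y) {ε : ℝ} (ε0 : 0 ≤ ε) {U : Pl F}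
    {Q : Pl K} (l : Lies (algebraMap K F) U Q) {G : Subgroup (F ≃ₐ[ℂ] F)} {r e : ℕ}
    (hG : (G : Set _) = Gr K t r) (dv : Dv G U e) (lc : ε ≤ 1 + dsc (n + 1) Γ Q) {z : ℝ}
    (h1 : U.ord (algebraMap K F Q.t) * (1 + kap y Q) ≤ lt y t U)
    (h2 : z ≤ U.ord (algebraMap K F Q.t) * Γ Q) : ε * e ≤ lt y t U - z := by
  have p := l.e_pos
  have le : (e : ℝ) ≤ U.ord (algebraMap K F Q.t) := by
    exact_mod_cast Int.le_of_dvd p (dv _ ((map_ne_zero _).2 Q.t_ne) (fix_K hG _))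
  have p' : (0 : ℝ) < U.ord (algebraMap K F Q.t) := by exact_mod_cast p
  rw [dsc, Pi.sub_apply, ey] at lc
  nlinarith

/-- from the monomial upstairs to the section downstairs -/
theorem ld_pos (t0 : ∀ i, t i ≠ 0) (s0 : ∀ j, s j ≠ 0) {y : Fin d → K} {U : Pl F} {Q : Pl K}
    (l : Lies (algebraMap K F) U Q)
    (e : lt y t U = U.ord (algebraMap K F Q.t) * (1 + kap y Q)) {q m : ℕ} (hq : 0 < q)
    (hm0 : 0 < m) {h : K} (h0 : h ≠ 0) {δ : Fin k → ℤ} {c : Fin N → ℕ}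
    (c1 : dg a c = -((m : ℤ) • δ)) (c2 : ∑ j, (c j : ℝ) * U.ord (hm t (s j) (a j)) <
      q * m * (lt y t U - (U.ord (hm t h δ) : ℝ) / q)) :
    0 < ld y (q * m) (h ^ m * ∏ j, s j ^ c j) Q := by
  have q0 : (0 : ℝ) < q := Nat.cast_pos.2 hq
  have m0 : (0 : ℝ) < m := Nat.cast_pos.2 hm0
  have p' : (0 : ℝ) < U.ord (algebraMap K F Q.t) := by exact_mod_cast l.e_pos
  have p0 := Finset.prod_ne_zero_iff.2 fun j (_ : j ∈ Finset.univ) => pow_ne_zero (c j) (s0 j)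
  have b1 := congrArg (Int.cast : ℤ → ℝ) (ord_all (a := a) t0 s0 U c)
  have b2 := congrArg (Int.cast : ℤ → ℝ) (ord_hm t0 U h0 δ)
  rw [c1, l.ord] at b1
  rw [l.ord h] at b2
  simp only [Pi.neg_apply, Pi.smul_apply, smul_eq_mul, neg_mul, mul_assoc, Finset.sum_neg_distrib,
    ← Finset.mul_sum] at b1
  push_cast at b1 b2
  rw [b1, b2, e, mul_sub, mul_comm (q : ℝ) m, mul_assoc (m : ℝ) q (_ / _),
    mul_div_cancel₀ _ q0.ne'] at c2
  rw [ld, sub_pos, Pl.ord_mul _ (pow_ne_zero _ h0) p0, Pl.ord_pow, div_lt_iff₀ (by positivity)]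
  push_cast
  refine lt_of_mul_lt_mul_left ?_ p'.le
  linarith

end Tz

open Tz in
theorem topb_of (ext : EXT) (grd : GRD) (lar : LAR) (neg : NEG) (dwn : DWN) (hor : HOR)
    (lif : LIF) (fin : FIN) (bak : BAK) : TOPB := by
  intro c k n q m ε hq hε m2 cor K _ _ u Λ Γ Γ' D s a f A cx ci all ⟨h₁, e₁, e1⟩ ⟨g, b, e2⟩ bd lc
    nef
  obtain ⟨y, Dy, fy, ey⟩ := Cb.exists_cn A.ff
  have hy : Frm y := ⟨Dy, fy⟩
  obtain ⟨F, _, _, _, _, t, x⟩ := ext K (n + 1) k A.ff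
  have t0 := x.ind.ne_zero
  have q0 : (0 : ℝ) < q := Nat.cast_pos.2 hq
  have e3 := eqv e1 e2
  set h := h₁ ^ q * g
  set δ := (q : ℤ) • e₁ + b
  have gs : g ∈ Sp s a b := (cx.sec b g e2.1).2 fun P p => by
    have b2 := e2.2 P p
    have b3 := mul_nonneg q0.le (neg_nonneg.2 (bd P p))
    rw [Pi.smul_apply, smul_eq_mul, Pi.neg_apply] at b2
    rw [b2] at b3
    exact_mod_cast b3
  have eq : ∀ E ∈ Tt n u Λ, (E.ord h + δ ⬝ᵥ D E : ℤ) =
      q * kap y E + (E.ord g + b ⬝ᵥ D E : ℤ) := fun P p => by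
    have b2 := e2.2 P p
    have b3 := e3.2 P p
    simp only [dsc, ey, Pi.sub_apply, Pi.neg_apply, Pi.smul_apply, smul_eq_mul] at b2 b3
    push_cast at b2 b3 ⊢
    linarith
  have hyp : ∀ r : ℕ, 0 < r → ∀ G : Subgroup (F ≃ₐ[ℂ] F), (G : Set _) = Gr K t r → ∀ U : Pl F,
      (∀ x ∈ Rg s a t, x ∈ U.ring) → ∀ e : ℕ, 0 < e → Dv G U e →
        min ε 1 * e ≤ lt y t U - (U.ord (hm t h δ) : ℝ) / q := by
    intro r r0 G hG U hU e e0 dv
    have nf := nef_le neg A x hy cx hq e1 e3 nef hU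
    have e0' : (0 : ℝ) ≤ e := Nat.cast_nonneg _
    obtain ⟨tr, -⟩ | ⟨Q, l, w⟩ := dwn K F (n + 1) k y t x hy U
    · have z : ∀ e : Fin k → ℤ, 0 ≤ ∑ i, e i * U.ord (t i) := fun e => by
        obtain ⟨φ, p, φ0⟩ := all e
        have := Pl.ord_nonneg_of_mem _ (hU _ (hm_mem grd x hy p))
        rwa [ord_hm t0 U φ0, Trv.ord tr, zero_add] at this
      have z0 : ∀ i, U.ord (t i) = 0 := fun i => by
        have b1 := z (Pi.single i 1)
        have b2 := z (Pi.single i (-1))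
        rw [Finset.sum_eq_single i (fun j _ c => by simp [c]) (by simp), Pi.single_eq_same] at b1 b2
        omega
      obtain ⟨fr, sh⟩ := lar K F (n + 1) k y t x hy r r0
      have := hor _ F G _ U e x.ff' fr (fun i => by
        refine Fin.addCases (fun i => ?_) (fun i => ?_) i
        · simpa [zt] using fix_K hG _
        · simpa [zt] using fix_t hG _) (fun i => by
        refine Fin.addCases (fun i => ?_) (fun i => ?_) i
        · simpa [zt] using tr _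
        · simpa [zt] using pow_mem (Cb.mem_ord (z0 i).ge) r) dv
      rw [sh] at this
      simp only [z0, Int.cast_zero, Finset.sum_const_zero, mul_zero, add_zero] at this
      nlinarith [nf.2 tr, min_le_right ε 1]
    · have o := ov_of grd x hy cx hU l
      have := hyp_ver ey hε.le l hG dv (lc Q o) w (nf.1 Q l o)
      nlinarith [min_le_left ε 1]
  refine bak n k _ q m K u Λ Γ Γ' D s a y h δ A cx hy ey (by nlinarith) e3 fun Q o => ?_
  obtain ⟨U, u₀, l, e, d0, w⟩ := lif K F (n + 1) k y t x hy _ s a Q cx.ne (mon_ov A cx o)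
  obtain ⟨c', c1, c2⟩ := fin _ k a _ u₀ (-((m : ℤ) • δ)) _ d0 w fun r r0 =>
    (cor K F y t _ D s a f h g δ b r x hy cx ci e3.1 e2.1 gs eq r0 (hyp r r0) U
      (rg_le fun j => (w j).1)).imp fun _ p => ⟨fun i => by simpa using p.1 i, p.2⟩
  exact ⟨c', c1, ld_pos t0 cx.ne l e hq (by omega) e3.1 c1 c2⟩

theorem topx : TOPX := fun ext grd _ lar neg dwn hor lif fin bak c cor k n q ε hq hε => by
  obtain ⟨m, m2, H⟩ := cor (n + 1) k q (min ε 1) hq (lt_min hε one_pos)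
  exact ⟨q * m, Nat.mul_pos hq (by omega),
    topb_of ext grd lar neg dwn hor lif fin bak c k n q m ε hq hε m2 H⟩

end Vale.Agent.P283R.Cx
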