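import Vale.Agent.P283R.Cx.Stm
import Vale.Agent.P283M.Qv

/-!
# P283R, block CX: the statement on the tier
-/

open Set

noncomputable section

namespace Vale.Agent.P283R.Cox

open Vale.Agent.P287D Vale.Agent.P283M

section

variable {K : Type} [Field K] [Algebra ℂ K] {k N c : ℕ}

/-- the coefficient of `∑ m_i D_i` -/
def cf (D : Fin k → Pl K → ℤ) (m : Fin k → ℤ) (P : Pl K) : ℤ := ∑ i, m i * D i P

/-- the ring of the sections of the combinations of the `D_i` over `V` is the complete intersection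
`ℂ[x] / (g)` -/
structure Ci (n : ℕ) (u : Finset K) (Λ : BD K) (D : Fin k → Pl K → ℤ) (s : Fin N → K)
    (a : Fin N → Fin k → ℤ) (g : Fin c → MvPolynomial (Fin N) ℂ)
    (π : MvPolynomial (Fin N) ℂ →ₐ[ℂ] AddMonoidAlgebra K (Fin k → ℤ)) : Prop where
  fin : ∀ i, {P | Ov u P ∧ On n Λ P ∧ D i P ≠ 0}.Finite
  gen : ∀ j, π (.X j) = .single (a j) (s j)
  sec : ∀ F, (∃ p, π p = F) ↔ ∀ m, F.coeff m ≠ 0 →
    ∀ P, Ov u P → On n Λ P → 0 ≤ P.ord (F.coeff m) + cf D m P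
  ker : RingHom.ker π = Ideal.span (range g)
  ht : (RingHom.ker π).height = c

/-- on the prime divisors over `V`, `G` is linearly equivalent to a combination of the `D_i` -/
def Sp (n : ℕ) (u : Finset K) (Λ : BD K) (D : Fin k → Pl K → ℤ) (G : BD K) : Prop :=
  ∃ (m : Fin k → ℤ) (φ : K), φ ≠ 0 ∧ ∀ P, Ov u P → On n Λ P → G P = (P.ord φ + cf D m P : ℤ)

/-- the contraction is birational -/
def Bir (u : Finset K) : Prop := ∀ x : K, ∃ a ∈ Algebra.adjoin ℂ (u : Set K),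
  ∃ b ∈ Algebra.adjoin ℂ (u : Set K), b ≠ 0 ∧ x = a / b

end

/-- the statement on the tier, dimension `n + 1` -/
def QxAt (n : ℕ) : Prop := ∀ k q : ℕ, 1 ≤ q → ∀ ε : ℝ, 0 < ε →
  ∃ M : ℕ, 1 ≤ M ∧ ∀ (K : Type) [Field K] [Algebra ℂ K] (u : Finset K) (Λ Γ Γ' : BD K)
    (D : Fin k → Pl K → ℤ) (N c : ℕ) (s : Fin N → K) (a : Fin N → Fin k → ℤ)
    (g : Fin c → MvPolynomial (Fin N) ℂ)
    (π : MvPolynomial (Fin N) ℂ →ₐ[ℂ] AddMonoidAlgebra K (Fin k → ℤ)),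
    Dat n u Λ Γ Γ' → Bir u → Ci n u Λ D s a g π → Sp n u Λ D (cn K (n + 1)) →
    Sp n u Λ D ((q : ℝ) • -dsc (n + 1) Γ) → (∀ P, Ov u P → ε ≤ 1 + dsc (n + 1) Γ P) →
    (∀ P, Ov u P → On n Λ P → dsc (n + 1) Γ P ≤ 0) → NefO n K u (-Γ) → Cpl n M u Λ Γ

end Vale.Agent.P283R.Cox
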