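import Vale.Agent.P283R.Cx.Adz
import Vale.Agent.P283R.Sl.Gn

/-!
# P283R, block CX: rings of sections with `N` generators, the statement for the rows and the bridge
-/

open Set CategoryTheory AlgebraicGeometry

noncomputable section

namespace Vale.Agent.P283R.Cx

open Vale.Agent.P287D Vale.Agent.P283M Vale.Agent.P297Z MvPolynomial

/-- the statement for the rows; for `b` true all degrees have sections (birational contractions),
for `b` false the canonical divisor is in the span -/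
def QgB (b : Prop) (N k n q : ℕ) (ε : ℝ) (M : ℕ) : Prop :=
  ∀ (K : Type) [Field K] [Algebra ℂ K] (u : Finset K) (Λ Γ Γ' : BD K) (D : Pl K → Fin k → ℤ)
    (s : Fin N → K) (a : Fin N → Fin k → ℤ), Dat n u Λ Γ Γ' → Cox (Tt n u Λ) D s a →
    (b → ∀ e, ∃ φ ∈ Sp s a e, φ ≠ 0) → (¬ b → ∃ h e, Eqv (Tt n u Λ) D (cn K (n + 1)) h e) →
    (∃ h e, Eqv (Tt n u Λ) D ((q : ℝ) • Γ) h e) →
    (∀ P ∈ Tt n u Λ, dsc (n + 1) Γ P ≤ 0) → (∀ P, Ov u P → ε ≤ 1 + dsc (n + 1) Γ P) →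
    NefO n K u (-Γ) → Cpl n M u Λ Γ

/-- **QgU** -/
def QgU (b : Prop) (n : ℕ) : Prop := ∀ (N k q : ℕ) (ε : ℝ), 0 < q → 0 < ε →
  ∃ M : ℕ, 1 ≤ M ∧ QgB b N k n q ε M

namespace Gn

variable {K : Type} [Field K] [Algebra ℂ K] {k N c n : ℕ} {u : Finset K} {Λ Γ Γ' : BD K}
  {D : Fin k → Pl K → ℤ} {s : Fin N → K} {a : Fin N → Fin k → ℤ}
  {π : MvPolynomial (Fin N) ℂ →ₐ[ℂ] AddMonoidAlgebra K (Fin k → ℤ)}

/-- the ring of the sections is the image of `π` -/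
structure Cg (n : ℕ) (u : Finset K) (Λ : BD K) (D : Fin k → Pl K → ℤ) (s : Fin N → K)
    (a : Fin N → Fin k → ℤ)
    (π : MvPolynomial (Fin N) ℂ →ₐ[ℂ] AddMonoidAlgebra K (Fin k → ℤ)) : Prop where
  fin : ∀ i, {P | Ov u P ∧ On n Λ P ∧ D i P ≠ 0}.Finite
  gen : ∀ j, π (.X j) = .single (a j) (s j)
  sec : ∀ F, (∃ p, π p = F) ↔ ∀ m, F.coeff m ≠ 0 →
    ∀ P, Ov u P → On n Λ P → 0 ≤ P.ord (F.coeff m) + Cox.cf D m P

theorem shift (h : Cg n u Λ D s a π) : ∃ (s' : Fin N → K) (a' : Fin N → Fin k → ℤ)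
    (π' : MvPolynomial (Fin N) ℂ →ₐ[ℂ] AddMonoidAlgebra K (Fin k → ℤ)),
    Cg n u Λ D s' a' π' ∧ ∀ j, s' j ≠ 0 := by
  classical
  let r : Fin N → ℂ := fun j => if s j = 0 then 1 else 0
  let ψ : MvPolynomial (Fin N) ℂ ≃ₐ[ℂ] MvPolynomial (Fin N) ℂ :=
    AlgEquiv.ofAlgHom (aeval fun j => X j + C (r j)) (aeval fun j => X j - C (r j))
      (algHom_ext fun j => by simp) (algHom_ext fun j => by simp)
  refine ⟨fun j => if s j = 0 then 1 else s j, fun j => if s j = 0 then 0 else a j,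
    π.comp ψ.toAlgHom, ⟨h.fin, fun j => ?_, fun F => ?_⟩, fun j => ?_⟩
  · have : (π.comp ψ.toAlgHom) (X j) = π (X j) + algebraMap ℂ _ (r j) := by
      rw [← π.commutes, ← map_add]
      exact congrArg π (aeval_X _ j)
    rw [this, h.gen]
    by_cases z : s j = 0
    · simp [r, z]
    · simp [r, z]
  · rw [← h.sec]
    exact ⟨fun ⟨p, hp⟩ => ⟨_, hp⟩, fun ⟨p, hp⟩ => ⟨ψ.symm p, by simpa using hp⟩⟩
  · by_cases z : s j = 0 <;> simp [z]

theorem pi_mon (h : Cg n u Λ D s a π) (m : Fin N →₀ ℕ) (r : ℂ) :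
    π (monomial m r) = .single (dg a m) (r • ∏ j, s j ^ m j) := by
  rw [monomial_eq, Finsupp.prod_fintype _ _ (by simp), C_mul', map_smul, map_prod]
  simp only [map_pow, h.gen, AddMonoidAlgebra.single_pow, AddMonoidAlgebra.prod_single,
    AddMonoidAlgebra.smul_single]
  congr 1
  funext i
  simp [dg, Finset.sum_apply]

theorem co_mem (h : Cg n u Λ D s a π) (p : MvPolynomial (Fin N) ℂ) (e : Fin k → ℤ) :
    (π p).coeff e ∈ Sp s a e := by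
  classical
  induction p using induction_on' with
  | monomial m r =>
    rw [pi_mon h, AddMonoidAlgebra.coeff_single, Finsupp.single_apply]
    split_ifs with z
    exacts [z ▸ Submodule.smul_mem _ _ (mon_mem s a m), zero_mem _]
  | add p q hp hq => rw [map_add]; exact add_mem hp hq

theorem sp_range (h : Cg n u Λ D s a π) {e : Fin k → ℤ} {φ : K} (hφ : φ ∈ Sp s a e) :
    ∃ p, π p = .single e φ := by
  induction hφ using Submodule.span_induction with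
  | mem x hx =>
    obtain ⟨m, rfl, rfl⟩ := hx
    exact ⟨monomial (Finsupp.equivFunOnFinite.symm m) 1, by rw [pi_mon h, one_smul]; rfl⟩
  | zero => exact ⟨0, by simp⟩
  | add x y _ _ hx hy =>
    obtain ⟨p, hp⟩ := hx
    obtain ⟨q, hq⟩ := hy
    exact ⟨p + q, by rw [map_add, hp, hq, AddMonoidAlgebra.single_add]⟩
  | smul r x _ hx =>
    obtain ⟨p, hp⟩ := hx
    exact ⟨r • p, by rw [map_smul, hp, AddMonoidAlgebra.smul_single]⟩

theorem sec (h : Cg n u Λ D s a π) (e : Fin k → ℤ) (φ : K) (φ0 : φ ≠ 0) :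
    φ ∈ Sp s a e ↔ ∀ P ∈ Tt n u Λ, 0 ≤ P.ord φ + e ⬝ᵥ fun i => D i P := by
  classical
  have c : (AddMonoidAlgebra.single e φ).coeff e = φ := by simp
  refine ⟨fun m P t => ?_, fun m => ?_⟩
  · have := (h.sec _).1 (sp_range h m) e (c.symm ▸ φ0) P t.1 t.2
    rwa [c] at this
  · obtain ⟨p, hp⟩ := (h.sec (.single e φ)).2 fun e' z P o t => by
      rw [AddMonoidAlgebra.coeff_single, Finsupp.single_apply] at z ⊢
      split_ifs at z ⊢ with w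
      exacts [w ▸ m P ⟨o, t⟩, (z rfl).elim]
    have := co_mem h p e
    rwa [hp, c] at this

theorem fin (d : Dat n u Λ Γ Γ') (h : Cg n u Λ D s a π) (φ : K) (e : Fin k → ℤ) :
    {P | P ∈ Tt n u Λ ∧ P.ord φ + (e ⬝ᵥ fun i => D i P) ≠ 0}.Finite :=
  ((To.Cv.fin_car d (dv_mem_Car φ)).union (finite_iUnion h.fin)).subset fun P ⟨t, z⟩ => by
    by_contra w
    simp only [mem_union, mem_iUnion, mem_ofPred_eq, not_or, not_exists, not_and, not_not] at w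
    have b : P.ord φ = 0 := Int.cast_eq_zero.1 (w.1 t.2)
    exact z (by simp [b, dotProduct, fun i => w.2 i t.1 t.2])

theorem sp0 (h : Cg n u Λ D s a π) {x : K} (hx : x ∈ Algebra.adjoin ℂ (u : Set K)) :
    x ∈ Sp s a 0 := by
  by_cases z : x = 0
  · exact z ▸ zero_mem _
  · exact (sec h 0 x z).2 fun P t => by
      rw [zero_dotProduct, add_zero]
      exact Pl.ord_nonneg_of_mem _ (Ad.adj t.1 hx)

theorem all (d : Dat n u Λ Γ Γ') (b : Cox.Bir u) (h : Cg n u Λ D s a π) (e : Fin k → ℤ) :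
    ∃ φ ∈ Sp s a e, φ ≠ 0 := by
  obtain ⟨x, x1, x0, hx⟩ := Ad.clr b (fin d h 1 e) (fun P t => t.1.1) fun P => -(e ⬝ᵥ fun i => D i P)
  refine ⟨x, (sec h e x x0).2 fun P t => ?_, x0⟩
  by_cases z : P.ord 1 + (e ⬝ᵥ fun i => D i P) = 0
  · have := Pl.ord_nonneg_of_mem _ (Ad.adj t.1 x1)
    rw [Pl.ord_one] at z
    omega
  · have := hx P ⟨t, z⟩
    omega

theorem cox (d : Dat n u Λ Γ Γ') (b : Cox.Bir u) (h : Cg n u Λ D s a π)
    (s0 : ∀ j, s j ≠ 0) : Cox (Tt n u Λ) (fun P i => D i P) s a where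
  ne := s0
  sec := sec h
  fin := fin d h
  fr0 φ := let ⟨v, v1, z, z1, z0, e⟩ := b φ; ⟨0, v, sp0 h v1, z, sp0 h z1, z0, e⟩
  fr1 e := let ⟨φ, m, z⟩ := all d b h e
    ⟨0, φ, (add_zero e).symm ▸ m, 1, sp0 h (one_mem _), z, one_ne_zero⟩

theorem den (B : BIG) (d : Dat n u Λ Γ Γ') (h : Cg n u Λ D s a π)
    (h1 : Cox.Sp n u Λ D (cn K (n + 1))) {φ : K} (φ0 : φ ≠ 0) (e : Fin k → ℤ) :
    ∃ e', ∃ ψ ∈ Sp s a e', ψ ≠ 0 ∧ φ * ψ ∈ Sp s a (e + e') := by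
  obtain ⟨x, e₀, x0, hx⟩ := Ad.eqv h1
  obtain ⟨m, ψ, ψ0, w⟩ := B n K u Λ Γ Γ' (fun P => max 0 (-(P.ord φ + e ⬝ᵥ fun i => D i P))) d
    ((fin d h φ e).subset fun P ⟨t, z⟩ => ⟨t, fun v => z (by simp [v])⟩)
  have z : ψ / x ^ m ≠ 0 := div_ne_zero ψ0 (pow_ne_zero _ x0)
  have v : ∀ P ∈ Tt n u Λ, max 0 (-(P.ord φ + e ⬝ᵥ fun i => D i P)) ≤
      P.ord (ψ / x ^ m) + -((m : ℤ) • e₀) ⬝ᵥ fun i => D i P := fun P t => by
    have := w P t
    rw [hx P t] at this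
    rw [Pl.ord_div _ ψ0 (pow_ne_zero _ x0), Pl.ord_pow, neg_dotProduct, smul_dotProduct,
      smul_eq_mul, ← Int.cast_le (R := ℝ)]
    refine this.trans_eq ?_
    push_cast
    ring
  refine ⟨_, _, (sec h _ _ z).2 fun P t => (le_max_left _ _).trans (v P t), z,
    (sec h _ _ (mul_ne_zero φ0 z)).2 fun P t => ?_⟩
  have := (le_max_right _ _).trans (v P t)
  rw [Pl.ord_mul _ φ0 z, add_dotProduct]
  omega

theorem coxY (B : BIG) (d : Dat n u Λ Γ Γ') (h : Cg n u Λ D s a π)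
    (h1 : Cox.Sp n u Λ D (cn K (n + 1))) (s0 : ∀ j, s j ≠ 0) :
    Cox (Tt n u Λ) (fun P i => D i P) s a where
  ne := s0
  sec := sec h
  fin := fin d h
  fr0 φ := by
    by_cases z : φ = 0
    · exact ⟨0, 0, zero_mem _, 1, sp0 h (one_mem _), one_ne_zero, by simp [z]⟩
    · obtain ⟨e, ψ, m, ψ0, m'⟩ := den B d h h1 z 0
      exact ⟨e, _, zero_add e ▸ m', ψ, m, ψ0, (mul_div_cancel_right₀ _ ψ0).symm⟩
  fr1 e := let ⟨e', ψ, m, ψ0, m'⟩ := den B d h h1 one_ne_zero e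
    ⟨e', _, m', ψ, m, mul_ne_zero one_ne_zero ψ0, ψ0⟩

/-- the number of the divisors -/
theorem le (E : EXT) (A : AFF) (d : Dat n u Λ Γ Γ') {D : Pl K → Fin k → ℤ}
    (x : Cox (Tt n u Λ) D s a) : k ≤ N := by
  obtain ⟨F, _, _, _, _, t, e⟩ := E K (n + 1) k d.ff
  obtain ⟨y, _, hy, -⟩ := Cb.exists_cn d.ff
  have f := A K F _ k y t e ⟨_, hy⟩ N _ _ s a x
  let q : MvPolynomial (Fin N) ℂ →ₐ[ℂ] F := aeval fun j => hm t (s j) (a j)
  obtain ⟨c, hc⟩ := ENat.ne_top_iff_exists.1 (Ideal.height_ne_top (RingHom.ker_ne_top q))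
  have r : ∀ b : Rg s a t, ∃ p, q p = b := fun b => by
    have : (b : F) ∈ Algebra.adjoin ℂ (range fun j => hm t (s j) (a j)) := b.2
    rwa [Algebra.adjoin_range_eq_range_aeval] at this
  have w := (Qw.ff q f.ff (fun b => by
    obtain ⟨b₁, b₂, rfl⟩ := f.fr b
    obtain ⟨p₁, e₁⟩ := r b₁
    obtain ⟨p₂, e₂⟩ := r b₂
    by_cases z : (b₂ : F) = 0
    · exact ⟨0, 1, by simp, by simp [z]⟩
    · exact ⟨p₁, p₂, e₂ ▸ z, by rw [e₁, e₂]⟩) hc.symm).trdeg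
  rw [Qw.trd (S := MvPolynomial (Fin N) ℂ), trdeg_of_isDomain, Cardinal.mk_fin,
    Cardinal.lift_natCast] at w
  have : N = n + 1 + k + c := Nat.cast_injective w
  omega

/-- the body of the statement on the tier -/
def QB (b : Prop) (N n q : ℕ) (ε : ℝ) (M : ℕ) : Prop :=
  ∀ (k : ℕ) (K : Type) [Field K] [Algebra ℂ K] (u : Finset K) (Λ Γ Γ' : BD K)
    (D : Fin k → Pl K → ℤ) (s : Fin N → K) (a : Fin N → Fin k → ℤ)
    (π : MvPolynomial (Fin N) ℂ →ₐ[ℂ] AddMonoidAlgebra K (Fin k → ℤ)),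
    Dat n u Λ Γ Γ' → (b → Cox.Bir u) → (¬ b → Cox.Sp n u Λ D (cn K (n + 1))) → Cg n u Λ D s a π →
    Cox.Sp n u Λ D ((q : ℝ) • Γ) → (∀ P, Ov u P → ε ≤ 1 + dsc (n + 1) Γ P) →
    (∀ P, Ov u P → On n Λ P → dsc (n + 1) Γ P ≤ 0) → NefO n K u (-Γ) → ∃ i ≤ N, k = i ∧
      (QgB b N i n q ε M → Cpl n M u Λ Γ)

theorem qb (E : EXT) (A : AFF) (B : BIG) (b : Prop) (N n q : ℕ) (ε : ℝ) (M : ℕ) :
    QB b N n q ε M := fun k K _ _ u Λ Γ Γ' D s a π d h0 h1 h h2 h3 h4 h5 => by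
  obtain ⟨s, a, π, h, s0⟩ := shift h
  have x : Cox (Tt n u Λ) (fun P i => D i P) s a := by
    by_cases t : b
    exacts [cox d (h0 t) h s0, coxY B d h (h1 t) s0]
  exact ⟨k, le E A d x, rfl, fun H => H K u Λ Γ Γ' _ s a d x (fun t => all d (h0 t) h)
    (fun t => Ad.eqv (h1 t)) (Ad.eqv h2) (fun P t => h4 P t.1 t.2) h3 h5⟩

end Gn

end Vale.Agent.P283R.Cx
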