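import Mathlib.RingTheory.Ideal.Height
import Mathlib.Algebra.MvPolynomial.Eval
import Vale.Agent.P283R.Stm

/-!
# Bounded klt complements when a Cox ring is a complete intersection: the statement
-/

open CategoryTheory AlgebraicGeometry

namespace Vale.Agent.P283R.Cox

open Vale.Agent.P289 Vale.Agent.P283M.Stm Vale.Agent.P283M.Stm.Var Vale.Agent.P283R.Stm

/-- The ring `⊕_m H⁰(W, ∑ m_i D_i) t^m`, `m ∈ ℤ^k`, of the sections over `W` of the integral
combinations of the Weil divisors `D_i` is a complete intersection: it is the image of a polynomial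
ring under a map `x_j ↦ s_j t^(a_j)` whose kernel has height `c` and `c` generators. -/
def CoxCI {X : Var} (W : X.X.Opens) {k : ℕ} (D : Fin k → X.PrimeDiv →₀ ℤ) : Prop :=
  ∃ (N c : ℕ) (s : Fin N → X.K) (a : Fin N → Fin k → ℤ) (g : Fin c → MvPolynomial (Fin N) ℂ)
    (π : MvPolynomial (Fin N) ℂ →ₐ[ℂ] AddMonoidAlgebra X.K (Fin k → ℤ)),
    (∀ j, π (.X j) = .single (a j) (s j)) ∧
    (∀ F, (∃ p, π p = F) ↔ ∀ m, F.coeff m ≠ 0 →
      ∀ E : X.PrimeDiv, E.1 ∈ W → 0 ≤ ord (F.coeff m) E + ∑ i, m i * D i E) ∧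
    RingHom.ker π = Ideal.span (Set.range g) ∧ (RingHom.ker π).height = c

/-- On `W` the divisor `G` is linearly equivalent to an integral combination of the `D_i`. -/
def InSpan {X : Var} (W : X.X.Opens) {k : ℕ} (D : Fin k → X.PrimeDiv →₀ ℤ) (G : X.PrimeDiv → ℚ) :
    Prop :=
  ∃ (m : Fin k → ℤ) (φ : X.K), φ ≠ 0 ∧
    ∀ E : X.PrimeDiv, E.1 ∈ W → G E = (ord φ E + ∑ i, m i * D i E : ℤ)

/-- Shokurov's conjecture on bounded klt complements for the birational contractions `f` such that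
over an affine neighbourhood `V` of `z` the divisors `K_X` and `q B` are combinations of `k` Weil
divisors whose ring of sections is a complete intersection. -/
def QX : Prop :=
  ∀ d k q : ℕ, 1 ≤ d → 1 ≤ q → ∀ ε : ℝ, 0 < ε →
    ∃ n : ℕ, 1 ≤ n ∧ ∀ (X Z : Var) (f : X.X ⟶ Z.X) (ω : DForm ℂ X.K d) (B : X.QDiv)
      (z : Pt Z.X), dimension X.str = d → ω.Nonzero → Pair (ε ≤ ·) ⊤ ω B →
      Contraction f → FanoType f ω → NefOver f (-logCan ω B) →
      IsClosed ({z} : Set (Pt Z.X)) → Birational f →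
      (∃ (V : Z.X.Opens) (D : Fin k → X.PrimeDiv →₀ ℤ), IsAffineOpen V ∧ z ∈ V ∧
        CoxCI (f ⁻¹ᵁ V) D ∧ InSpan (f ⁻¹ᵁ V) D (logCan ω 0) ∧
        InSpan (f ⁻¹ᵁ V) D fun E => q * B E) →
      HasKltComplement f ω B n z

end Vale.Agent.P283R.Cox
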