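import Vale.Agent.P283R.Cx.Sch
import Vale.Agent.P283R.Sl.Cxo

/-!
# P283R, block CX: contractions of any relative dimension
-/

open Set CategoryTheory AlgebraicGeometry

noncomputable section

namespace Vale.Agent.P283R.Cox

open Vale.Agent.P289 (Pt St toRat DForm dimension)
open Vale.Agent.P287D Vale.Agent.P283M.Stm Vale.Agent.P283M.Stm.Var Vale.Agent.P297Z
open Vale.Agent.P283M Vale.Agent.P283M.Br Vale.Agent.P283R.Sch

/-- the statement on the tier for contractions of any relative dimension -/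
def QyAt (n : ℕ) : Prop := ∀ k q : ℕ, 1 ≤ q → ∀ ε : ℝ, 0 < ε →
  ∃ M : ℕ, 1 ≤ M ∧ ∀ (K : Type) [Field K] [Algebra ℂ K] (u : Finset K) (Λ Γ Γ' : BD K)
    (D : Fin k → Pl K → ℤ) (N c : ℕ) (s : Fin N → K) (a : Fin N → Fin k → ℤ)
    (g : Fin c → MvPolynomial (Fin N) ℂ)
    (π : MvPolynomial (Fin N) ℂ →ₐ[ℂ] AddMonoidAlgebra K (Fin k → ℤ)),
    Dat n u Λ Γ Γ' → Ci n u Λ D s a g π → Sp n u Λ D (cn K (n + 1)) →
    Sp n u Λ D ((q : ℝ) • -dsc (n + 1) Γ) → (∀ P, Ov u P → ε ≤ 1 + dsc (n + 1) Γ P) →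
    (∀ P, Ov u P → On n Λ P → dsc (n + 1) Γ P ≤ 0) → NefO n K u (-Γ) → Cpl n M u Λ Γ

/-- the scheme statement for contractions of any relative dimension -/
def QY : Prop :=
  ∀ d k q : ℕ, 1 ≤ d → 1 ≤ q → ∀ ε : ℝ, 0 < ε →
    ∃ n : ℕ, 1 ≤ n ∧ ∀ (X Z : Var) (f : X.X ⟶ Z.X) (ω : DForm ℂ X.K d) (B : X.QDiv)
      (z : Pt Z.X), dimension X.str = d → ω.Nonzero → Pair (ε ≤ ·) ⊤ ω B →
      Contraction f → FanoType f ω → NefOver f (-logCan ω B) →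
      IsClosed ({z} : Set (Pt Z.X)) →
      (∃ (V : Z.X.Opens) (D : Fin k → X.PrimeDiv →₀ ℤ), IsAffineOpen V ∧ z ∈ V ∧
        CoxCI (f ⁻¹ᵁ V) D ∧ InSpan (f ⁻¹ᵁ V) D (logCan ω 0) ∧
        InSpan (f ⁻¹ᵁ V) D fun E => q * B E) →
      HasKltComplement f ω B n z

theorem schY (q : ∀ n, QyAt n) : QY := by
  intro d k r hd hr ε hε
  obtain ⟨n, rfl⟩ : ∃ n, d = n + 1 := ⟨d - 1, by omega⟩
  obtain ⟨M, M1, hM⟩ := q n k r hr ε hε
  refine ⟨M, M1, fun X Z f ω B z hdim hω hB hf hF hn hz ⟨V, D, hV, zV, h1, h2, h3⟩ => ?_⟩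
  obtain ⟨u, bs⟩ := basV hf hz hV zV
  have hK := ffd X _ hdim
  obtain ⟨Λ, Γ, Γ', a, on, b, b', c, e⟩ := dataW hK hω hB hf hF bs
  obtain ⟨N, c', s, w, g, π, ci⟩ := ci_of bs on h1
  obtain ⟨j, j0, fr⟩ := frm X _ hK ω hω
  refine e M M1 (hM X.K u Λ Γ Γ' _ N c' s w g π a ci
    (sp_of bs on h2 j0 fun P E _ dm => ?_) (sp_of bs on h3 one_ne_zero fun P E c dm => ?_) b
    ((all_iff bs on (p := fun E => 0 ≤ B E) fun P E c dm => ?_).1 fun E _ => hB.1 E trivial)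
    (c hn))
  · rw [← fr X _ E P (is_of_dom dm) (ord_eq dm), logCan]
    simp
  · simp [b' P E c dm]
  · rw [b' P E c dm, neg_nonpos, Rat.cast_nonneg]

end Vale.Agent.P283R.Cox

namespace Vale.Agent.P283R.Sl

open Var

theorem on_coxY (h : Cox.QY) (k : ℕ) {q : ℕ} (hq : 1 ≤ q) :
    On fun _ _ _ f ω B z => FanoType f ω ∧ NefOver f (-logCan ω B) ∧ CoxCI k q f ω B z := by
  intro d hd ε hε R hR
  obtain ⟨n, hn, H⟩ := h d k q hd hq ε hε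
  exact ⟨n, hn, fun X Z f ω B z a b c _ s t u => (has_iff f ω B n z).2
    (H X.o Z.o f ω B z a b ((pair_iff _ _ ω B).1 c) s ((fanoType_iff f ω).1 u.1)
      ((nefOver_iff f _).1 u.2.1) t u.2.2)⟩

end Vale.Agent.P283R.Sl
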