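import Vale.Agent.P283R.Cx.Ad
import Vale.Agent.P283R.Cx.Sy
import Vale.Agent.P283R.Cx.Bry

/-!
# P283R, block CX, step 2: from the statement for the rows to the statement on the tier
-/

open Set

noncomputable section

namespace Vale.Agent.P283R.Cx

open Vale.Agent.P287D Vale.Agent.P283M Vale.Agent.P297Z MvPolynomial

namespace Ad

variable {K : Type} [Field K] [Algebra ℂ K] {k N c n : ℕ} {u : Finset K} {Λ Γ Γ' : BD K}
  {D : Fin k → Pl K → ℤ} {s : Fin N → K} {a : Fin N → Fin k → ℤ}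
  {g : Fin c → MvPolynomial (Fin N) ℂ}
  {π : MvPolynomial (Fin N) ℂ →ₐ[ℂ] AddMonoidAlgebra K (Fin k → ℤ)}

/-- denominators -/
theorem den (B : BIG) (d : Dat n u Λ Γ Γ') (h : Cox.Ci n u Λ D s a g π)
    (h1 : Cox.Sp n u Λ D (cn K (n + 1))) {φ : K} (φ0 : φ ≠ 0) (e : Fin k → ℤ) :
    ∃ e', ∃ ψ ∈ Sp s a e', ψ ≠ 0 ∧ φ * ψ ∈ Sp s a (e + e') := by
  obtain ⟨x, e₀, x0, hx⟩ := eqv h1
  obtain ⟨m, ψ, ψ0, w⟩ := B n K u Λ Γ Γ' (fun P => max 0 (-(P.ord φ + e ⬝ᵥ fun i => D i P))) d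
    ((fin d h φ e).subset fun P ⟨t, z⟩ => ⟨t, fun v => z (by simp [v])⟩)
  have z : ψ / x ^ m ≠ 0 := div_ne_zero ψ0 (pow_ne_zero _ x0)
  have v : ∀ P ∈ Tt n u Λ, max 0 (-(P.ord φ + e ⬝ᵥ fun i => D i P)) ≤
      P.ord (ψ / x ^ m) + -((m : ℤ) • e₀) ⬝ᵥ fun i => D i P := fun P t => by
    have := w P t
    rw [hx P t] at this
    rw [Pl.ord_div _ ψ0 (pow_ne_zero _ x0), Pl.ord_pow, neg_dotProduct, smul_dotProduct,
      smul_eq_mul, ← Int.cast_le (R := ℝ)]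
    refine this.trans_eq ?_
    push_cast
    ring
  refine ⟨_, _, (sec h _ _ z).2 fun P t => (le_max_left _ _).trans (v P t), z,
    (sec h _ _ (mul_ne_zero φ0 z)).2 fun P t => ?_⟩
  have := (le_max_right _ _).trans (v P t)
  rw [Pl.ord_mul _ φ0 z, add_dotProduct]
  omega

theorem coxY (B : BIG) (d : Dat n u Λ Γ Γ') (h : Cox.Ci n u Λ D s a g π)
    (h1 : Cox.Sp n u Λ D (cn K (n + 1))) (s0 : ∀ j, s j ≠ 0) :
    Cox (Tt n u Λ) (fun P i => D i P) s a where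
  ne := s0
  sec := sec h
  fin := fin d h
  fr0 φ := by
    by_cases z : φ = 0
    · exact ⟨0, 0, zero_mem _, 1, sp0 h (one_mem _), one_ne_zero, by simp [z]⟩
    · obtain ⟨e, ψ, m, ψ0, m'⟩ := den B d h h1 z 0
      exact ⟨e, _, zero_add e ▸ m', ψ, m, ψ0, (mul_div_cancel_right₀ _ ψ0).symm⟩
  fr1 e := let ⟨e', ψ, m, ψ0, m'⟩ := den B d h h1 one_ne_zero e
    ⟨e', _, m', ψ, m, mul_ne_zero one_ne_zero ψ0, ψ0⟩

end Ad

/-- the bridge, step 2 -/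
theorem qyAt_of (E : EXT) (A : AFF) (B : BIG) {n : ℕ} (H : QyU n) : Cox.QyAt n :=
  fun k q hq ε hε => by
  obtain ⟨M, M1, H⟩ := H k q ε hq hε
  refine ⟨M, M1, fun K _ _ u Λ Γ Γ' D N c s a g π d h h1 h2 h3 h4 h5 => ?_⟩
  obtain ⟨s, a, g, π, h, s0⟩ := Ad.shift h
  have x := Ad.coxY B d h h1 s0
  obtain rfl := Ad.dim E A d h x
  exact H c K u Λ Γ Γ' _ s a g d x (Ad.ci h) (Ad.eqv h1) (Ad.eqv h2)
    (fun P t => h4 P t.1 t.2) h3 h5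

end Vale.Agent.P283R.Cx
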