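import Vale.Agent.P283R.Cx.Su
import Vale.Agent.P283R.Cx.Bas
import Vale.Agent.P283R.Cx.Br
import Vale.Agent.P283R.To.Cv
import Vale.Agent.P283R.Tp.Quo2

/-!
# P283R, block CX: from the statement for the rows to the statement on the tier
-/

open Set

noncomputable section

namespace Vale.Agent.P283R.Cx

open Vale.Agent.P287D Vale.Agent.P283M Vale.Agent.P297Z MvPolynomial

namespace Ad

variable {K : Type} [Field K] [Algebra ℂ K] {k N c n : ℕ} {u : Finset K} {Λ Γ Γ' : BD K}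
  {D : Fin k → Pl K → ℤ} {s : Fin N → K} {a : Fin N → Fin k → ℤ}
  {g : Fin c → MvPolynomial (Fin N) ℂ}
  {π : MvPolynomial (Fin N) ℂ →ₐ[ℂ] AddMonoidAlgebra K (Fin k → ℤ)}

/-- the generators that vanish are replaced by `1` -/
theorem shift (h : Cox.Ci n u Λ D s a g π) : ∃ (s' : Fin N → K) (a' : Fin N → Fin k → ℤ)
    (g' : Fin c → MvPolynomial (Fin N) ℂ)
    (π' : MvPolynomial (Fin N) ℂ →ₐ[ℂ] AddMonoidAlgebra K (Fin k → ℤ)),
    Cox.Ci n u Λ D s' a' g' π' ∧ ∀ j, s' j ≠ 0 := by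
  classical
  let r : Fin N → ℂ := fun j => if s j = 0 then 1 else 0
  let ψ : MvPolynomial (Fin N) ℂ ≃ₐ[ℂ] MvPolynomial (Fin N) ℂ :=
    AlgEquiv.ofAlgHom (aeval fun j => X j + C (r j)) (aeval fun j => X j - C (r j))
      (algHom_ext fun j => by simp) (algHom_ext fun j => by simp)
  have e : RingHom.ker (π.comp ψ.toAlgHom) = (RingHom.ker π).comap ψ.toRingEquiv := rfl
  refine ⟨fun j => if s j = 0 then 1 else s j, fun j => if s j = 0 then 0 else a j,
    fun i => ψ.symm (g i), π.comp ψ.toAlgHom, ⟨h.fin, fun j => ?_, fun F => ?_, ?_, ?_⟩,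
    fun j => ?_⟩
  · have : (π.comp ψ.toAlgHom) (X j) = π (X j) + algebraMap ℂ _ (r j) := by
      rw [← π.commutes, ← map_add]
      exact congrArg π (aeval_X _ j)
    rw [this, h.gen]
    by_cases z : s j = 0
    · simp [r, z]
    · simp [r, z]
  · rw [← h.sec]
    exact ⟨fun ⟨p, hp⟩ => ⟨_, hp⟩, fun ⟨p, hp⟩ => ⟨ψ.symm p, by simpa using hp⟩⟩
  · rw [e, ← Ideal.map_symm, h.ker, Ideal.map_span, ← range_comp]
    rfl
  · rw [e, RingEquiv.height_comap, h.ht]
  · by_cases z : s j = 0 <;> simp [z]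

theorem pi_mon (h : Cox.Ci n u Λ D s a g π) (m : Fin N →₀ ℕ) (r : ℂ) :
    π (monomial m r) = .single (dg a m) (r • ∏ j, s j ^ m j) := by
  rw [monomial_eq, Finsupp.prod_fintype _ _ (by simp), C_mul', map_smul, map_prod]
  simp only [map_pow, h.gen, AddMonoidAlgebra.single_pow, AddMonoidAlgebra.prod_single,
    AddMonoidAlgebra.smul_single]
  congr 1
  funext i
  simp [dg, Finset.sum_apply]

theorem co_mem (h : Cox.Ci n u Λ D s a g π) (p : MvPolynomial (Fin N) ℂ) (e : Fin k → ℤ) :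
    (π p).coeff e ∈ Sp s a e := by
  classical
  induction p using induction_on' with
  | monomial m r =>
    rw [pi_mon h, AddMonoidAlgebra.coeff_single, Finsupp.single_apply]
    split_ifs with z
    exacts [z ▸ Submodule.smul_mem _ _ (mon_mem s a m), zero_mem _]
  | add p q hp hq => rw [map_add]; exact add_mem hp hq

theorem sp_range (h : Cox.Ci n u Λ D s a g π) {e : Fin k → ℤ} {φ : K} (hφ : φ ∈ Sp s a e) :
    ∃ p, π p = .single e φ := by
  induction hφ using Submodule.span_induction with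
  | mem x hx =>
    obtain ⟨m, rfl, rfl⟩ := hx
    exact ⟨monomial (Finsupp.equivFunOnFinite.symm m) 1, by rw [pi_mon h, one_smul]; rfl⟩
  | zero => exact ⟨0, by simp⟩
  | add x y _ _ hx hy =>
    obtain ⟨p, hp⟩ := hx
    obtain ⟨q, hq⟩ := hy
    exact ⟨p + q, by rw [map_add, hp, hq, AddMonoidAlgebra.single_add]⟩
  | smul r x _ hx =>
    obtain ⟨p, hp⟩ := hx
    exact ⟨r • p, by rw [map_smul, hp, AddMonoidAlgebra.smul_single]⟩

theorem sec (h : Cox.Ci n u Λ D s a g π) (e : Fin k → ℤ) (φ : K) (φ0 : φ ≠ 0) :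
    φ ∈ Sp s a e ↔ ∀ P ∈ Tt n u Λ, 0 ≤ P.ord φ + e ⬝ᵥ fun i => D i P := by
  classical
  have c : (AddMonoidAlgebra.single e φ).coeff e = φ := by simp
  refine ⟨fun m P t => ?_, fun m => ?_⟩
  · have := (h.sec _).1 (sp_range h m) e (c.symm ▸ φ0) P t.1 t.2
    rwa [c] at this
  · obtain ⟨p, hp⟩ := (h.sec (.single e φ)).2 fun e' z P o t => by
      rw [AddMonoidAlgebra.coeff_single, Finsupp.single_apply] at z ⊢
      split_ifs at z ⊢ with w
      exacts [w ▸ m P ⟨o, t⟩, (z rfl).elim]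
    have := co_mem h p e
    rwa [hp, c] at this

theorem fin (d : Dat n u Λ Γ Γ') (h : Cox.Ci n u Λ D s a g π) (φ : K) (e : Fin k → ℤ) :
    {P | P ∈ Tt n u Λ ∧ P.ord φ + (e ⬝ᵥ fun i => D i P) ≠ 0}.Finite :=
  ((To.Cv.fin_car d (dv_mem_Car φ)).union (finite_iUnion h.fin)).subset fun P ⟨t, z⟩ => by
    by_contra w
    simp only [mem_union, mem_iUnion, mem_ofPred_eq, not_or, not_exists, not_and, not_not] at w
    have b : P.ord φ = 0 := Int.cast_eq_zero.1 (w.1 t.2)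
    exact z (by simp [b, dotProduct, fun i => w.2 i t.1 t.2])

theorem ci (h : Cox.Ci n u Λ D s a g π) : CI s a g := by
  have : π = aeval fun j => AddMonoidAlgebra.single (a j) (s j) :=
    algHom_ext fun j => by rw [h.gen, aeval_X]
  rw [CI, ← this, h.ker]

theorem eqv {G : BD K} (h : Cox.Sp n u Λ D G) : ∃ φ e, Eqv (Tt n u Λ) (fun P i => D i P) G φ e :=
  let ⟨e, φ, z, w⟩ := h
  ⟨φ, e, z, fun P t => (w P t.1 t.2).trans (Int.cast_add _ _)⟩

/-- the number of the generators -/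
theorem dim (E : EXT) (A : AFF) (d : Dat n u Λ Γ Γ') (h : Cox.Ci n u Λ D s a g π)
    (x : Cox (Tt n u Λ) (fun P i => D i P) s a) : N = n + 1 + k + c := by
  obtain ⟨F, _, _, _, _, t, e⟩ := E K (n + 1) k d.ff
  obtain ⟨y, _, hy, -⟩ := Cb.exists_cn d.ff
  have f := A K F _ k y t e ⟨_, hy⟩ N _ _ s a x
  have t0 := e.ind.ne_zero
  let q : MvPolynomial (Fin N) ℂ →ₐ[ℂ] F := aeval fun j => hm t (s j) (a j)
  have l : ∀ p, q p = lv t (π p).coeff := fun p => by
    induction p using induction_on' with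
    | monomial m r =>
      rw [pi_mon h, AddMonoidAlgebra.coeff_single, lv_single, hm_smul, hm_prod t0, aeval_monomial,
        Finsupp.prod_fintype _ _ (by simp), Algebra.smul_def]
    | add p p' hp hq => rw [map_add, map_add, AddMonoidAlgebra.coeff_add, lv_add, hp, hq]
  have kq : RingHom.ker q = RingHom.ker π := Ideal.ext fun p => by
    rw [RingHom.mem_ker, RingHom.mem_ker, l]
    exact ⟨fun z => AddMonoidAlgebra.coeff_eq_zero.1 (lv_inj e.ind z),
      fun z => by rw [z]; exact lv_zero t⟩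
  have r : ∀ b : Rg s a t, ∃ p, q p = b := fun b => by
    have : (b : F) ∈ Algebra.adjoin ℂ (range fun j => hm t (s j) (a j)) := b.2
    rwa [Algebra.adjoin_range_eq_range_aeval] at this
  have w := (Qw.ff q f.ff (fun b => by
    obtain ⟨b₁, b₂, rfl⟩ := f.fr b
    obtain ⟨p₁, e₁⟩ := r b₁
    obtain ⟨p₂, e₂⟩ := r b₂
    by_cases z : (b₂ : F) = 0
    · exact ⟨0, 1, by simp, by simp [z]⟩
    · exact ⟨p₁, p₂, e₂ ▸ z, by rw [e₁, e₂]⟩) (kq ▸ h.ht)).trdeg
  rw [Qw.trd (S := MvPolynomial (Fin N) ℂ), trdeg_of_isDomain] at w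
  rw [Cardinal.mk_fin, Cardinal.lift_natCast] at w
  exact Nat.cast_injective w

theorem adj {P : Pl K} (o : Ov u P) {x : K} (h : x ∈ Algebra.adjoin ℂ (u : Set K)) :
    x ∈ P.ring := by
  induction h using Algebra.adjoin_induction with
  | mem x hx => exact o x hx
  | algebraMap c => exact P.con c
  | add x y _ _ b c => exact add_mem b c
  | mul x y _ _ b c => exact mul_mem b c

/-- functions on the base with zeros of high order -/
theorem clr (b : Cox.Bir u) {S : Set (Pl K)} (f : S.Finite) (o : ∀ P ∈ S, Ov u P)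
    (w : Pl K → ℤ) : ∃ x ∈ Algebra.adjoin ℂ (u : Set K), x ≠ 0 ∧ ∀ P ∈ S, w P ≤ P.ord x := by
  induction S, f using Finite.induction_on with
  | empty => exact ⟨1, one_mem _, one_ne_zero, fun _ h => h.elim⟩
  | @insert Q S _ _ ih =>
    obtain ⟨x, x1, x0, hx⟩ := ih fun P h => o P (mem_insert_of_mem _ h)
    obtain ⟨v, v1, z, z1, z0, e⟩ := b Q.t
    have v0 : v ≠ 0 := fun h => Q.t_ne (by simp [e, h])
    have n : ∀ P ∈ insert Q S, ∀ y ∈ Algebra.adjoin ℂ (u : Set K), 0 ≤ P.ord y := fun P h y hy =>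
      Pl.ord_nonneg_of_mem _ (adj (o P h) hy)
    have p : 1 ≤ Q.ord v := by
      have h1 := Q.ord_t
      have h2 := n Q (mem_insert _ _) z z1
      rw [e, Pl.ord_div _ v0 z0] at h1
      omega
    refine ⟨x * v ^ (w Q).natAbs, mul_mem x1 (pow_mem v1 _), mul_ne_zero x0 (pow_ne_zero _ v0),
      fun P h => ?_⟩
    rw [Pl.ord_mul _ x0 (pow_ne_zero _ v0), Pl.ord_pow]
    have h1 := n P h x x1
    rcases h with rfl | h
    · nlinarith [Int.le_natAbs (a := w P), Int.natCast_nonneg (w P).natAbs]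
    · have := hx P h
      have := mul_nonneg (Int.natCast_nonneg (w Q).natAbs) (n P (mem_insert_of_mem _ h) v v1)
      omega

theorem sp0 (h : Cox.Ci n u Λ D s a g π) {x : K} (hx : x ∈ Algebra.adjoin ℂ (u : Set K)) :
    x ∈ Sp s a 0 := by
  by_cases z : x = 0
  · exact z ▸ zero_mem _
  · exact (sec h 0 x z).2 fun P t => by
      rw [zero_dotProduct, add_zero]
      exact Pl.ord_nonneg_of_mem _ (adj t.1 hx)

/-- all degrees have sections -/
theorem all (d : Dat n u Λ Γ Γ') (b : Cox.Bir u) (h : Cox.Ci n u Λ D s a g π) (e : Fin k → ℤ) :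
    ∃ φ ∈ Sp s a e, φ ≠ 0 := by
  obtain ⟨x, x1, x0, hx⟩ := clr b (fin d h 1 e) (fun P t => t.1.1) fun P => -(e ⬝ᵥ fun i => D i P)
  refine ⟨x, (sec h e x x0).2 fun P t => ?_, x0⟩
  by_cases z : P.ord 1 + (e ⬝ᵥ fun i => D i P) = 0
  · have := Pl.ord_nonneg_of_mem _ (adj t.1 x1)
    rw [Pl.ord_one] at z
    omega
  · have := hx P ⟨t, z⟩
    omega

theorem cox (d : Dat n u Λ Γ Γ') (b : Cox.Bir u) (h : Cox.Ci n u Λ D s a g π)
    (s0 : ∀ j, s j ≠ 0) : Cox (Tt n u Λ) (fun P i => D i P) s a where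
  ne := s0
  sec := sec h
  fin := fin d h
  fr0 φ := let ⟨v, v1, z, z1, z0, e⟩ := b φ; ⟨0, v, sp0 h v1, z, sp0 h z1, z0, e⟩
  fr1 e := let ⟨φ, m, z⟩ := all d b h e
    ⟨0, φ, (add_zero e).symm ▸ m, 1, sp0 h (one_mem _), z, one_ne_zero⟩

end Ad

/-- the bridge -/
theorem qxAt_of (E : EXT) (A : AFF) {n : ℕ} (H : QxU n) : Cox.QxAt n := fun k q hq ε hε => by
  obtain ⟨M, M1, H⟩ := H k q ε hq hε
  refine ⟨M, M1, fun K _ _ u Λ Γ Γ' D N c s a g π d b h h1 h2 h3 h4 h5 => ?_⟩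
  obtain ⟨s, a, g, π, h, s0⟩ := Ad.shift h
  have x := Ad.cox d b h s0
  obtain rfl := Ad.dim E A d h x
  exact H c K u Λ Γ Γ' _ s a g d x (Ad.ci h) (Ad.all d b h) (Ad.eqv h1) (Ad.eqv h2)
    (fun P t => h4 P t.1 t.2) h3 h5

end Vale.Agent.P283R.Cx
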