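import Vale.Agent.P283R.Cx.Bas
import Vale.Agent.P283R.Tp.Quo2
import Vale.Agent.P283R.Ty.L

/-!
# P283R, block CX: the ambient space
-/

set_option linter.all false

open Set MvPolynomial

noncomputable section

namespace Vale.Agent.P283R.Cx

open Vale.Agent.P287D
open Vale.Agent.P283R.To (mon mon_add)
open Vale.Agent.P283R.Co (K0 z0)

namespace Lc

variable {K F : Type} [Field K] [Algebra ℂ K] [Field F] [Algebra ℂ F] [Algebra K F]
  [IsScalarTower ℂ K F] {k N : ℕ}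

theorem ker_eq {t : Fin k → F} (t0 : ∀ i, t i ≠ 0)
    (h : ∀ ψ : (Fin k → ℤ) →₀ K, lv t ψ = 0 → ψ = 0) (s : Fin N → K) (a : Fin N → Fin k → ℤ) :
    RingHom.ker (aeval fun j => hm t (s j) (a j) : MvPolynomial (Fin N) ℂ →ₐ[ℂ] F) =
      RingHom.ker (aeval fun j => AddMonoidAlgebra.single (a j) (s j) :
        MvPolynomial (Fin N) ℂ →ₐ[ℂ] AddMonoidAlgebra K (Fin k → ℤ)) := by
  let L : AddMonoidAlgebra K (Fin k → ℤ) →ₐ[K] F := AddMonoidAlgebra.lift K F _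
    { toFun e := mon t e.toAdd
      map_one' := by simp [mon]
      map_mul' := fun e e' => mon_add t0 _ _ }
  have e : (aeval fun j => hm t (s j) (a j) : MvPolynomial (Fin N) ℂ →ₐ[ℂ] F) =
      (L.restrictScalars ℂ).comp (aeval fun j => AddMonoidAlgebra.single (a j) (s j)) :=
    algHom_ext fun j => by simp [L, hm, Algebra.smul_def]
  ext p
  rw [RingHom.mem_ker, RingHom.mem_ker, e]
  refine ⟨fun k => ?_, fun k => by rw [AlgHom.comp_apply, k, map_zero]⟩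
  exact AddMonoidAlgebra.coeff_injective (h _ k)

/-- scaling of the variables -/
def sc (γ : Fin N → ℂ) : MvPolynomial (Fin N) ℂ →ₐ[ℂ] MvPolynomial (Fin N) ℂ :=
  aeval fun j => C (γ j) * X j

theorem map_sc {A : Type} [CommRing A] [Algebra ℂ A] {x : Fin N → A} {γ : Fin N → ℂ}
    {σ : A ≃ₐ[ℂ] A} (h : ∀ j, σ (x j) = algebraMap ℂ A (γ j) * x j) (p : MvPolynomial (Fin N) ℂ) :
    σ (aeval x p) = aeval x (sc γ p) :=
  DFunLike.congr_fun (show (σ : A →ₐ[ℂ] A).comp (aeval x) = (aeval x).comp (sc γ) from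
    algHom_ext fun j => by simp [sc, h]) p

theorem inv_mul' {A : Type} [CommRing A] [Algebra ℂ A] {x : A} {γ : ℂ} {σ : A ≃ₐ[ℂ] A}
    (h0 : γ ≠ 0) (h : σ x = algebraMap ℂ A γ * x) : σ⁻¹ x = algebraMap ℂ A γ⁻¹ * x := by
  apply σ.injective
  rw [map_mul, σ.commutes, h, ← mul_assoc, ← map_mul, inv_mul_cancel₀ h0, map_one, one_mul]
  exact σ.apply_symm_apply x

theorem mul_mul' {A : Type} [CommRing A] [Algebra ℂ A] {x : A} {γ δ : ℂ} {σ τ : A ≃ₐ[ℂ] A}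
    (h : σ x = algebraMap ℂ A γ * x) (k : τ x = algebraMap ℂ A δ * x) :
    (σ * τ) x = algebraMap ℂ A (γ * δ) * x := by
  rw [AlgEquiv.mul_apply, k, map_mul, σ.commutes, h, map_mul]; ring

theorem exists_aut {γ : Fin N → ℂ} (h : ∀ j, γ j ≠ 0) :
    ∃ σ : K0 N ≃ₐ[ℂ] K0 N, ∀ j, σ (z0 N j) = algebraMap ℂ _ (γ j) * z0 N j :=
  ⟨Qw.up (AlgEquiv.ofAlgHom (sc γ) (sc fun j => (γ j)⁻¹)
    (algHom_ext fun j => by simp [sc, ← mul_assoc, ← C_mul, h j])
    (algHom_ext fun j => by simp [sc, ← mul_assoc, ← C_mul, h j])), fun j => by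
    rw [z0, Qw.up_map, IsScalarTower.algebraMap_apply ℂ (MvPolynomial (Fin N) ℂ) (K0 N),
      ← map_mul]
    simp [sc]⟩

theorem aut_ext {σ τ : K0 N ≃ₐ[ℂ] K0 N} (h : ∀ j, σ (z0 N j) = τ (z0 N j)) : σ = τ :=
  AlgEquiv.ext fun x => by
    have k : ∀ p, σ (aeval (z0 N) p) = τ (aeval (z0 N) p) := fun p =>
      DFunLike.congr_fun (show (σ : K0 N →ₐ[ℂ] K0 N).comp (aeval (z0 N)) =
        (τ : K0 N →ₐ[ℂ] K0 N).comp (aeval (z0 N)) from algHom_ext fun j => by simp [h]) p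
    obtain ⟨a, b, -, rfl⟩ := IsFractionRing.div_surjective (A := MvPolynomial (Fin N) ℂ) x
    rw [map_div₀, map_div₀, ← Ty.aeval_z0, ← Ty.aeval_z0, k, k]

/-- the diagonal automorphisms of the affine space which induce members of `G` -/
def grp (G : Subgroup (F ≃ₐ[ℂ] F)) (η : Fin N → F) {r : ℕ} (hr : 0 < r) :
    Subgroup (K0 N ≃ₐ[ℂ] K0 N) where
  carrier := {σ' | ∃ σ ∈ G, ∃ γ : Fin N → ℂ, ∀ j, γ j ^ r = 1 ∧
    σ' (z0 N j) = algebraMap ℂ _ (γ j) * z0 N j ∧ σ (η j) = algebraMap ℂ _ (γ j) * η j}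
  one_mem' := ⟨1, one_mem _, 1, fun j => by simp⟩
  mul_mem' := by
    rintro σ' τ' ⟨σ, hσ, γ, h⟩ ⟨τ, hτ, δ, k⟩
    exact ⟨σ * τ, mul_mem hσ hτ, fun j => γ j * δ j, fun j =>
      ⟨by rw [mul_pow, (h j).1, (k j).1, one_mul], mul_mul' (h j).2.1 (k j).2.1,
        mul_mul' (h j).2.2 (k j).2.2⟩⟩
  inv_mem' := by
    rintro σ' ⟨σ, hσ, γ, h⟩
    have h0 : ∀ j, γ j ≠ 0 := fun j e => by simpa [e, hr.ne'] using (h j).1
    exact ⟨σ⁻¹, inv_mem hσ, fun j => (γ j)⁻¹, fun j => ⟨by rw [inv_pow, (h j).1, inv_one],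
      inv_mul' (h0 j) (h j).2.1, inv_mul' (h0 j) (h j).2.2⟩⟩

theorem fin_grp (G : Subgroup (F ≃ₐ[ℂ] F)) (η : Fin N → F) {r : ℕ} (hr : 0 < r) :
    Finite (grp G η hr) := by
  choose σ _ γ h using fun τ : grp G η hr => τ.2
  have f : {c : Fin N → ℂ | ∀ j, c j ∈ {x : ℂ | x ^ r = 1}}.Finite :=
    Set.Finite.pi' fun _ => (Polynomial.nthRoots r (1 : ℂ)).toFinset.finite_toSet.subset
      fun x hx => by simpa [Polynomial.mem_nthRoots hr] using hx
  have := f.to_subtype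
  exact Finite.of_injective (fun τ => (⟨γ τ, fun j => (h τ j).1⟩ :
    {c : Fin N → ℂ | ∀ j, c j ∈ {x : ℂ | x ^ r = 1}})) fun τ τ' e => Subtype.ext
      (aut_ext fun j => by
        rw [(h τ j).2.1, (h τ' j).2.1, show γ τ = γ τ' from congrArg Subtype.val e])

end Lc

open Lc in
theorem lci_of (grd : GRD) : LCI := by
  intro K F _ _ _ _ _ _ d k y t ex fr c r s a f G ci hr hG
  have t0 : ∀ i, t i ≠ 0 := ex.ind.ne_zero
  set η : Fin (d + k + c) → F := fun j => hm t (s j) (a j) with hη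
  let ι : MvPolynomial (Fin (d + k + c)) ℂ →ₐ[ℂ] K0 (d + k + c) := aeval (z0 _)
  let e := AlgEquiv.ofInjective ι Ty.rat_z0.ind
  let q : MvPolynomial (Fin (d + k + c)) ℂ →ₐ[ℂ] Rg s a t := (aeval η).codRestrict _ fun p => by
    rw [Rg, Algebra.adjoin_range_eq_range_aeval]; exact ⟨p, rfl⟩
  have key : ∀ (σ' : K0 _ ≃ₐ[ℂ] K0 _) (σ : F ≃ₐ[ℂ] F) (γ : Fin (d + k + c) → ℂ),
      (∀ j, σ' (z0 _ j) = algebraMap ℂ _ (γ j) * z0 _ j) →
      (∀ j, σ (η j) = algebraMap ℂ _ (γ j) * η j) → ∀ a b : ι.range,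
      σ' a = b → σ (q (e.symm a)) = q (e.symm b) := fun σ' σ γ h1 h2 a b ab => by
    obtain ⟨a, rfl⟩ := e.surjective a
    obtain ⟨b, rfl⟩ := e.surjective b
    rw [e.symm_apply_apply, e.symm_apply_apply,
      ← Ty.rat_z0.ind ((map_sc h1 a).symm.trans ab)]
    exact map_sc h2 a
  have : Algebra.Smooth ℂ (MvPolynomial (Fin (d + k + c)) ℂ) := ⟨inferInstance, inferInstance⟩
  have sq : Function.Surjective q := by
    rintro ⟨b, hb⟩
    rw [Rg, Algebra.adjoin_range_eq_range_aeval] at hb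
    obtain ⟨p, rfl⟩ := hb
    exact ⟨p, rfl⟩
  refine ⟨K0 (d + k + c), inferInstance, inferInstance, grp G η hr, ι.range,
    q.comp e.symm.toAlgHom, fun j => e (f j), ⟨Ty.rat_z0.ff, ?_, fun x => ?_⟩, .of_equiv e,
    fin_grp G η hr, ?_, sq.comp e.symm.surjective, ?_, fun σ hσ => ?_, ?_⟩
  · rw [← Algebra.map_top]
    exact Subalgebra.FG.map _ Algebra.FiniteType.out
  · obtain ⟨a, b, -, rfl⟩ := IsFractionRing.div_surjective (A := MvPolynomial (Fin (d + k + c)) ℂ) x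
    exact ⟨e a, e b, by rw [← Ty.aeval_z0, ← Ty.aeval_z0]; rfl⟩
  · rintro σ' ⟨σ, -, γ, h⟩ _ ⟨p, rfl⟩
    exact ⟨sc γ p, (map_sc (fun j => (h j).2.1) p).symm⟩
  · rw [show range (fun j => e (f j)) = e '' range f from range_comp e f, ← Ideal.map_span, ← ci,
      ← ker_eq t0 (grd K F d k y t ex fr).1]
    ext b
    obtain ⟨b, rfl⟩ := e.surjective b
    rw [Ideal.mem_map_of_equiv, RingHom.mem_ker]
    refine ⟨fun h => ⟨b, ?_, rfl⟩, fun ⟨x, h, h'⟩ => ?_⟩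
    · simpa [q, Subtype.ext_iff] using h
    · rw [← h']
      simpa [q, Subtype.ext_iff] using h
  · have hσ' : σ ∈ Gr K t r := hG ▸ hσ
    choose u hu using hσ'.2
    have u0 : ∀ i, u i ≠ 0 := fun i e => by simpa [e, hr.ne'] using (hu i).1
    obtain ⟨σ', h⟩ := exists_aut (γ := fun j => ∏ i, u i ^ a j i) fun j =>
      Finset.prod_ne_zero_iff.2 fun i _ => zpow_ne_zero _ (u0 i)
    have h2 : ∀ j, σ (η j) = algebraMap ℂ _ (∏ i, u i ^ a j i) * η j := fun j => by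
      simp only [hη, hm, mon, map_mul, hσ'.1, map_prod, map_zpow₀, (hu _).2, Algebra.smul_def,
        mul_zpow, Finset.prod_mul_distrib]
      ring
    refine ⟨σ', ⟨σ, hσ, _, fun j => ⟨?_, h j, h2 j⟩⟩, key σ' σ _ h h2⟩
    rw [← Finset.prod_pow]
    refine Finset.prod_eq_one fun i _ => ?_
    rw [← zpow_natCast, ← zpow_mul, mul_comm, zpow_mul, zpow_natCast, (hu i).1, one_zpow]
  · rintro σ' ⟨σ, hσ, γ, h⟩
    exact ⟨σ, hσ, key σ' σ γ (fun j => (h j).2.1) fun j => (h j).2.2⟩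

theorem lci : LCI := lci_of grd

end Vale.Agent.P283R.Cx
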