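import Vale.Agent.P283R.Cx.Br
import Vale.Agent.P283R.Cx.Sc
import Vale.Agent.P283R.To.Sch
import Vale.Agent.P283R.Br.Bs

/-!
# P283R, block CX: the scheme side of the bridge
-/

open Set CategoryTheory AlgebraicGeometry

noncomputable section

namespace Vale.Agent.P283R.Cox

open Vale.Agent.P289 (Pt St toRat DForm dimension)
open Vale.Agent.P287D Vale.Agent.P283M.Stm Vale.Agent.P283M.Stm.Var Vale.Agent.P297Z
open Vale.Agent.P283M Vale.Agent.P283M.Br Vale.Agent.P283R.Sch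

variable {X Z : Var} {n k : ℕ} {f : X.X ⟶ Z.X} {z : Pt Z.X} {V : Z.X.Opens} {u : Finset X.K}
  {Λ : BD X.K}

open Classical in
/-- the coefficient of a divisor at a place -/
def up (D : X.PrimeDiv →₀ ℤ) (P : Pl X.K) : ℤ :=
  if h : ∃ E : X.PrimeDiv, Dom P.ring E.1 then D h.choose else 0

theorem is_uniq {P : Pl X.K} {E E' : X.PrimeDiv} (h : Dom P.ring E.1) (h' : Dom P.ring E'.1) :
    E = E' := Subtype.ext (Crv.dom_unique (dom_S h) (dom_S h'))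

theorem up_eq (D : X.PrimeDiv →₀ ℤ) {P : Pl X.K} {E : X.PrimeDiv} (h : Dom P.ring E.1) :
    up D P = D E := by
  have e : ∃ E : X.PrimeDiv, Dom P.ring E.1 := ⟨E, h⟩
  rw [up, dif_pos e, is_uniq e.choose_spec h]

theorem ord_eq {P : Pl X.K} {E : X.PrimeDiv} (h : Dom P.ring E.1) (g : X.K) :
    ord g E = P.ord g :=
  (plc X X (RingEquiv.refl _) (fun _ => rfl) E).2 P (is_of_dom h) g

section

variable (bs : Base f V z u)
  (on : ∀ (P : Pl X.K) (x : Pt X.X), x ∈ f ⁻¹ᵁ V → Dom P.ring x → (On n Λ P ↔ x.CodimOne))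

include bs on

theorem all_iff {p : X.PrimeDiv → Prop} {q : Pl X.K → Prop}
    (h : ∀ (P : Pl X.K) (E : X.PrimeDiv), E.1 ∈ f ⁻¹ᵁ V → Dom P.ring E.1 → (p E ↔ q P)) :
    (∀ E : X.PrimeDiv, E.1 ∈ f ⁻¹ᵁ V → p E) ↔ ∀ P, Ov u P → On n Λ P → q P := by
  refine ⟨fun H P o c => ?_, fun H E c => ?_⟩
  · obtain ⟨x, hx, dm⟩ := bs.ctr P.ring P.con o
    exact (h P ⟨x, (on P x hx dm).1 c⟩ hx dm).1 (H _ hx)
  · obtain ⟨P, e, -⟩ := pl_of plc E
    exact (h P E c e.dom).2 (H P (fun a ha => (e.dom a (bs.reg a ha _ c)).1)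
      ((on P _ c e.dom).2 E.2))

omit bs on in
theorem cf_eq (D : Fin k → X.PrimeDiv →₀ ℤ) (m : Fin k → ℤ) {P : Pl X.K} {E : X.PrimeDiv}
    (h : Dom P.ring E.1) : cf (fun i => up (D i)) m P = ∑ i, m i * D i E :=
  Finset.sum_congr rfl fun i _ => congrArg _ (up_eq _ h)

theorem sp_of {D : Fin k → X.PrimeDiv →₀ ℤ} {G : X.PrimeDiv → ℚ} (h : InSpan (f ⁻¹ᵁ V) D G)
    {G' : BD X.K} {j : X.K} (j0 : j ≠ 0) (e : ∀ (P : Pl X.K) (E : X.PrimeDiv), E.1 ∈ f ⁻¹ᵁ V →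
      Dom P.ring E.1 → (G E : ℝ) = G' P + P.ord j) : Sp n u Λ (fun i => up (D i)) G' := by
  obtain ⟨m, φ, φ0, h⟩ := h
  refine ⟨m, φ / j, div_ne_zero φ0 j0, (all_iff bs on fun P E c dm => ?_).1 h⟩
  rw [cf_eq D m dm, ord_eq dm, Pl.ord_div _ φ0 j0, ← Rat.cast_inj (α := ℝ), e P E c dm]
  push_cast
  constructor <;> intro a <;> linarith

theorem ci_of {D : Fin k → X.PrimeDiv →₀ ℤ} (h : CoxCI (f ⁻¹ᵁ V) D) :
    ∃ (N c : ℕ) (s : Fin N → X.K) (a : _) (g : Fin c → _) (π : _),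
      Ci n u Λ (fun i => up (D i)) s a g π := by
  obtain ⟨N, c, s, a, g, π, h1, h2, h3, h4⟩ := h
  choose Q e o using pl_of (X := X) plc
  refine ⟨N, c, s, a, g, π, fun i => ((D i).support.finite_toSet.image Q).subset ?_, h1,
    fun F => (h2 F).trans (forall_congr' fun m => imp_congr_right fun _ =>
      all_iff bs on fun P E _ dm => by rw [cf_eq D m dm, ord_eq dm]), h3, h4⟩
  rintro P ⟨a, b, c⟩
  obtain ⟨x, hx, dm⟩ := bs.ctr P.ring P.con a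
  rw [up_eq (E := ⟨x, (on P x hx dm).1 b⟩) _ dm] at c
  refine ⟨_, Finsupp.mem_support_iff.2 c, Pl.ext' (congrArg _ (Pl.eq_of_le'
    (v := (Q _).toPlace) (w := P.toPlace) fun g hg => (dm g ((e _ g).1 hg)).1))⟩

end

/-- the scheme side -/
theorem sch (q : ∀ n, QxAt n) : QX := by
  intro d k r hd hr ε hε
  obtain ⟨n, rfl⟩ : ∃ n, d = n + 1 := ⟨d - 1, by omega⟩
  obtain ⟨M, M1, hM⟩ := q n k r hr ε hε
  refine ⟨M, M1, fun X Z f ω B z hdim hω hB hf hF hn hz ⟨p, hp⟩ ⟨V, D, hV, zV, h1, h2, h3⟩ => ?_⟩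
  obtain ⟨u, bs⟩ := basV hf hz hV zV
  have hK := ffd X _ hdim
  obtain ⟨Λ, Γ, Γ', a, on, b, b', c, e⟩ := dataW hK hω hB hf hF bs
  obtain ⟨N, c', s, w, g, π, ci⟩ := ci_of bs on h1
  obtain ⟨A, χ, hA⟩ := P283R.Br.exists_bs hf hp hV zV hz
  obtain ⟨j, j0, fr⟩ := frm X _ hK ω hω
  refine e M M1 (hM X.K u Λ Γ Γ' _ N c' s w g π a (fun x => ?_) ci
    (sp_of bs on h2 j0 fun P E _ dm => ?_) (sp_of bs on h3 one_ne_zero fun P E c dm => ?_) b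
    ((all_iff bs on (p := fun E => 0 ≤ B E) fun P E c dm => ?_).1 fun E _ => hB.1 E trivial)
    (c hn))
  · obtain ⟨a, ha, b, hb, h⟩ := hA.frK hV zV x
    exact ⟨a, bs.con a ((hA.mem a).1 ha), b, bs.con b ((hA.mem b).1 hb), h⟩
  · rw [← fr X _ E P (is_of_dom dm) (ord_eq dm), logCan]
    simp
  · simp [b' P E c dm]
  · rw [b' P E c dm, neg_nonpos, Rat.cast_nonneg]

end Vale.Agent.P283R.Cox
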