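import Vale.Agent.P283R.Cx.Corp
import Vale.Agent.P283R.Cx.Top
import Vale.Agent.P283R.Cx.Neg
import Vale.Agent.P283R.Cx.Pdv
import Vale.Agent.P283R.Cx.Aff
import Vale.Agent.P283R.Cx.Ad
import Vale.Agent.P283R.Cx.Ext
import Vale.Agent.P283R.Cx.Lar
import Vale.Agent.P283R.Cx.Dwn
import Vale.Agent.P283R.Cx.Lif
import Vale.Agent.P283R.Cx.Fin
import Vale.Agent.P283R.Cx.Bak
import Vale.Agent.P283R.Cx.Gav
import Vale.Agent.P283R.Cx.Grp
import Vale.Agent.P283R.Cx.Lci
import Vale.Agent.P283R.Cx.Kah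
import Vale.Agent.P283R.Cx.Hor
import Vale.Agent.P283R.Cx.Sch
import Vale.Agent.P283R.Mi.Fin

/-!
# P283R, block CX: birational contractions whose Cox ring is a complete intersection
-/

namespace Vale.Agent.P283R.Cx

theorem nor : NOR := nor_of gav

theorem pdv : PDV := pdv_of grd gav

theorem neg : NEG := neg_of aff nor pdv

theorem coru : CORu := coru_of aff nor pdv kah grp lar lci Mi.acu

theorem corp : CORp := corp_of aff nor pdv kah grp lar lci Mi.aclu

theorem topb : TOPB := topb_of ext grd lar neg dwn hor lif fin bak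

theorem qxU (n : ℕ) : QxU n := qxU_of topb coru n

/-- **step 1** -/
theorem qx : Cox.QX := Cox.sch fun n => qxAt_of ext aff (qxU n)

end Vale.Agent.P283R.Cx
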