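import Vale.Agent.P283R.Cx.Sy
import Vale.Agent.P283R.To.Cv
import Vale.Agent.P287D.Ba.PosOn

/-!
# P283R, block CX: `-K` is big over the base
-/

open Set

noncomputable section

namespace Vale.Agent.P283R.Cx

open Vale.Agent.P287D Vale.Agent.P283M Vale.Agent.P297Z

namespace Bg

variable {K : Type} [Field K] [Algebra ℂ K] {n : ℕ} {u : Finset K} {Λ Γ Γ' : BD K}

/-- the real form -/
theorem real (dt : Dat n u Λ Γ Γ') (w : Finset K) : ∃ η : ℝ, 0 < η ∧ ∃ ρ ∈ Prn K,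
    ∀ P ∈ Tt n u Λ, cn K (n + 1) P + η * mx w P ≤ ρ P := by
  obtain ⟨ε, ε0, γ, sγ, eγ⟩ := dt.amp
  obtain ⟨δ, δ0, G, G0, pG⟩ := dt.big w
  obtain ⟨G', G1, pG'⟩ := sγ.eff
  refine ⟨ε * δ, mul_pos ε0 δ0, G' - γ + ε • (G - (Λ - δ • mx w)),
    add_mem pG' (Submodule.smul_mem _ _ pG), fun P p => ?_⟩
  have b1 := dt.bdy P p.1 p.2
  have b2 := mul_nonneg ε0.le (G0 P)
  have b3 := eγ P p.1
  have b4 : 0 ≤ G' P := G1 P
  simp only [dsc, Pi.add_apply, Pi.sub_apply, Pi.neg_apply, Pi.smul_apply, smul_eq_mul] at b1 b3 ⊢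
  nlinarith

theorem den {ι : Type} (T : Finset ι) (x : ι → ℚ) :
    ∃ M : ℕ, 0 < M ∧ ∀ i ∈ T, ∃ z : ℤ, (M : ℚ) * x i = z := by
  refine ⟨∏ i ∈ T, (x i).den, Finset.prod_pos fun i _ => (x i).den_pos, fun i hi => ?_⟩
  obtain ⟨c, hc⟩ := Finset.dvd_prod_of_mem (fun i => (x i).den) hi
  exact ⟨(x i).num * c, by
    rw [hc]; push_cast; rw [mul_right_comm, mul_comm _ (x i), Rat.mul_den_eq_num]⟩

end Bg

/-- **BIG** -/
theorem big : BIG := by
  classical
  intro n K _ _ u Λ Γ Γ' Z dt fin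
  let w : Finset K := insert 1 (fin.toFinset.image fun P => P.t⁻¹ ^ (Z P).toNat)
  have w0 : ∀ P : Pl K, 0 ≤ P.mz w := fun P => by
    have : (0 : ℝ) ≤ P.mz w := mx_nonneg (Finset.mem_insert_self _ _) P
    exact_mod_cast this
  have w1 : ∀ P ∈ Tt n u Λ, Z P ≤ P.mz w := fun P hP => by
    by_cases z : Z P = 0
    · exact z ▸ w0 P
    · have := P.le_mz (s := w) (Finset.mem_insert_of_mem (Finset.mem_image_of_mem _
        (fin.mem_toFinset.2 ⟨hP, z⟩))) (pow_ne_zero _ (inv_ne_zero P.t_ne))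
      rw [Pl.ord_pow, Pl.ord_inv, P.ord_t] at this
      omega
  obtain ⟨η, η0, ρ, pρ, le⟩ := Bg.real dt w
  obtain ⟨T, a, T0, rfl⟩ := mem_Prn.1 pρ
  choose c hc using fun P : Pl K => Cb.cn_int (n := n + 1) P
  let sl : Pl K → ℝ := fun P => ∑ f ∈ T, P.ord f • a f - c P • (1 : ℝ) - P.mz w • η
  have s0 : ∀ P ∈ Tt n u Λ, 0 ≤ sl P := fun P p => by
    have := le P p
    simp only [Finset.sum_apply, Pi.smul_apply, smul_eq_mul, dv_apply, mx_apply, hc] at this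
    simp only [sl, zsmul_eq_mul, mul_comm _ (a _)]
    linarith
  have fn : {P | On n Λ P ∧ ((∃ f ∈ T, P.ord f ≠ 0) ∨ P.mz w ≠ 0)}.Finite :=
    ((T.finite_toSet.biUnion fun f _ => To.Cv.fin_car dt (dv_mem_Car f)).union
      (To.Cv.fin_car dt (smp_mx w).car)).subset fun P ⟨o, h⟩ => h.imp
        (fun ⟨f, hf, z⟩ => mem_biUnion hf ⟨o, Int.cast_ne_zero.2 z⟩)
        fun z => ⟨o, Int.cast_ne_zero.2 z⟩
  obtain ⟨φ, hφ⟩ := exists_qlin (insert 1 (insert η (fn.toFinset.image sl)))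
  have p1 := hφ 1 (Finset.mem_insert_self _ _) one_pos
  have p2 := hφ η (Finset.mem_insert_of_mem (Finset.mem_insert_self _ _)) η0
  have p3 : ∀ P ∈ Tt n u Λ, 0 ≤ ∑ f ∈ T, P.ord f * φ (a f) - c P * φ 1 - P.mz w * φ η :=
    fun P p => by
      have e : φ (sl P) = ∑ f ∈ T, P.ord f * φ (a f) - c P * φ 1 - P.mz w * φ η := by
        simp only [sl, map_sub, map_sum, map_zsmul, zsmul_eq_mul (α := ℚ)]
      by_cases h : (∃ f ∈ T, P.ord f ≠ 0) ∨ P.mz w ≠ 0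
      · rw [← e]
        rcases (s0 P p).eq_or_lt with z | z
        · rw [← z, map_zero]
        · exact (hφ _ (Finset.mem_insert_of_mem (Finset.mem_insert_of_mem
            (Finset.mem_image_of_mem _ (fn.mem_toFinset.2 ⟨p.2, h⟩)))) z).le
      · push Not at h
        have k : 0 ≤ ∑ f ∈ T, P.ord f • a f - c P • (1 : ℝ) - P.mz w • η := s0 P p
        have k1 : ∑ f ∈ T, P.ord f • a f = 0 := Finset.sum_eq_zero fun f hf => by simp [h.1 f hf]
        have k2 : ∑ f ∈ T, (P.ord f : ℚ) * φ (a f) = 0 :=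
          Finset.sum_eq_zero fun f hf => by simp [h.1 f hf]
        rw [k1, h.2, zero_smul, sub_zero, zero_sub, zsmul_eq_mul, mul_one, neg_nonneg] at k
        have k3 : (c P : ℚ) ≤ 0 := by exact_mod_cast k
        rw [k2, h.2]
        push_cast
        nlinarith
  obtain ⟨M, M0, hM⟩ := Bg.den (insert 1 (insert η (T.image a))) φ
  obtain ⟨m, hm⟩ := hM 1 (Finset.mem_insert_self _ _)
  obtain ⟨e, he⟩ := hM η (Finset.mem_insert_of_mem (Finset.mem_insert_self _ _))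
  choose! z hz using fun f (hf : f ∈ T) => hM (a f)
    (Finset.mem_insert_of_mem (Finset.mem_insert_of_mem (Finset.mem_image_of_mem a hf)))
  have M1 : (0 : ℚ) < M := Nat.cast_pos.2 M0
  have m0 : 0 < m := by exact_mod_cast hm ▸ mul_pos M1 p1
  have e0 : 0 < e := by exact_mod_cast he ▸ mul_pos M1 p2
  refine ⟨m.toNat, ∏ f ∈ T, f ^ z f, Finset.prod_ne_zero_iff.2 fun f hf => zpow_ne_zero _ (T0 f hf),
    fun P p => ?_⟩
  have k := mul_nonneg M1.le (p3 P p)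
  rw [mul_sub, mul_sub, Finset.mul_sum, mul_left_comm _ _ (φ 1), mul_left_comm _ _ (φ η), hm, he,
    Finset.sum_congr rfl fun f hf => by rw [mul_left_comm, hz f hf]] at k
  have k' : 0 ≤ ∑ f ∈ T, P.ord f * z f - c P * m - P.mz w * e := by exact_mod_cast k
  have o : P.ord (∏ f ∈ T, f ^ z f) = ∑ f ∈ T, P.ord f * z f := by
    rw [P.ord_prod _ fun f hf => zpow_ne_zero _ (T0 f hf)]
    exact Finset.sum_congr rfl fun f _ => by rw [Pl.ord_zpow, mul_comm]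
  have m1 : ((m.toNat : ℕ) : ℝ) = m := by exact_mod_cast Int.toNat_of_nonneg m0.le
  rw [hc, o, m1]
  exact_mod_cast (by nlinarith [w1 P p, w0 P] :
    Z P ≤ ∑ f ∈ T, P.ord f * z f - m * c P)

end Vale.Agent.P283R.Cx
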