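import Vale.Agent.P283R.Cx.Z0
import Vale.Agent.P283R.Cx.All
import Vale.Agent.P283R.Cx.Tpy
import Vale.Agent.P283R.Cx.Big
import Vale.Agent.P283R.Cx.Ady
import Vale.Agent.P283R.Cy.Mkf

/-!
# P283R, block CX, step 2: all contractions, from a complement over one point of the base
-/

set_option linter.all false

open Set CategoryTheory AlgebraicGeometry

noncomputable section

namespace Vale.Agent.P283R.Cx

open Vale.Agent.P287D Vale.Agent.P283M Vale.Agent.P283R.Cy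

/-- the tier side at given data -/
theorem tpy_at {n k N q m m' : ℕ} {ε : ℝ} {K : Type} [Field K] [Algebra ℂ K] {u : Finset K}
    {Λ Γ Γ' : BD K} {y : Fin (n + 1) → K} {D : Pl K → Fin k → ℤ} {s : Fin N → K}
    {a : Fin N → Fin k → ℤ} {h₀ g : K} {e₀ b : Fin k → ℤ} (hq : 0 < q) (m2 : 2 ≤ m) (m1 : 1 ≤ m')
    (z : Dy n q ε u Λ Γ Γ' y D s a h₀ g e₀ b)
    (H : ∀ Q, Vt s a Q → MN q m y s a (h₀ ^ q * g) ((q : ℤ) • e₀ + b) Q)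
    (H' : ∀ Q : Pl K, (∀ x ∈ Sp s a 0, x ≠ 0 → Q.ord x = 0) →
      MN q m' y s a (h₀ ^ q * g) ((q : ℤ) • e₀ + b) Q) : Cpl n (q * (m * m')) u Λ Γ := by
  refine bak n k _ q _ K u Λ Γ Γ' D s a y _ _ z.dat z.cox z.fr z.cn
    (m2.trans ((Nat.le_mul_of_pos_right _ m1).trans (Nat.le_mul_of_pos_left _ hq))) (Hwr.eqv' z)
    fun Q o => ?_
  by_cases v : ∃ x ∈ Sp s a 0, x ≠ 0 ∧ 0 < Q.ord x
  · exact Tpy.mn_mul m1 (H Q ⟨fun c hc => Bak.reg z.dat z.cox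
      (Finset.prod_ne_zero_iff.2 fun j _ => pow_ne_zero _ (z.cox.ne j)) (hc ▸ mon_mem s a c) o, v⟩)
  · rw [mul_comm m]
    exact Tpy.mn_mul (by omega) (H' Q fun φ hφ φ0 =>
      (not_lt.1 fun p => v ⟨φ, hφ, φ0, p⟩).antisymm (Bak.reg z.dat z.cox φ0 hφ o))

/-- step 2, up to the horizontal places -/
theorem qy_of (h : HZU) : Cox.QY :=
  Cox.schY fun n => qyAt_of ext aff big (qyU_of corp mdp h tpy n)

open Vale.Agent.P289 (Pt DForm dimension)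
open Vale.Agent.P283M.Stm Vale.Agent.P283M.Stm.Var Vale.Agent.P283M.Br Vale.Agent.P283R.Sch
open Vale.Agent.P283R.Cox

/-- the index depends on the index `n₀` of a klt complement over some point of the base -/
def QY0 : Prop :=
  ∀ d k q n₀ : ℕ, 1 ≤ d → 1 ≤ q → 1 ≤ n₀ → ∀ ε : ℝ, 0 < ε →
    ∃ n : ℕ, 1 ≤ n ∧ ∀ (X Z : Var) (f : X.X ⟶ Z.X) (ω : DForm ℂ X.K d) (B : X.QDiv)
      (z : Pt Z.X), dimension X.str = d → ω.Nonzero → Pair (ε ≤ ·) ⊤ ω B →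
      Contraction f → FanoType f ω → NefOver f (-logCan ω B) →
      IsClosed ({z} : Set (Pt Z.X)) → (∃ z', HasKltComplement f ω B n₀ z') →
      (∃ (V : Z.X.Opens) (D : Fin k → X.PrimeDiv →₀ ℤ), IsAffineOpen V ∧ z ∈ V ∧
        CoxCI (f ⁻¹ᵁ V) D ∧ InSpan (f ⁻¹ᵁ V) D (logCan ω 0) ∧
        InSpan (f ⁻¹ᵁ V) D fun E => q * B E) →
      HasKltComplement f ω B n z

theorem qy0 : QY0 := by
  intro d k r n₀ hd hr n0 ε hε
  obtain ⟨n, rfl⟩ : ∃ n, d = n + 1 := ⟨d - 1, by omega⟩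
  obtain ⟨m, m2, H⟩ := corp (n + 1) k r ε hr hε
  have M1 : 1 ≤ r * (m * n₀) := Nat.mul_pos hr (Nat.mul_pos (by omega) n0)
  refine ⟨_, M1, fun X Z f ω B z hdim hω hB hf hF hn hz ⟨z', h0⟩ ⟨V, D, hV, zV, h1, h2, h3⟩ => ?_⟩
  obtain ⟨u, bs⟩ := basV hf hz hV zV
  have hK := ffd X _ hdim
  obtain ⟨Λ, Γ, Γ', dt, on, b, b', c, e⟩ := dataW hK hω hB hf hF bs
  obtain ⟨N, c', s, w, g, π, ci⟩ := ci_of bs on h1
  obtain ⟨j, j0, fr⟩ := frm X _ hK ω hω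
  have s1 : Cox.Sp n u Λ _ (cn X.K (n + 1)) := sp_of bs on h2 j0 fun P E _ dm => by
    rw [← fr X _ E P (is_of_dom dm) (ord_eq dm), logCan]
    simp
  have s2 : Cox.Sp n u Λ _ ((r : ℝ) • -dsc (n + 1) Γ) :=
    sp_of bs on h3 one_ne_zero fun P E c dm => by simp [b' P E c dm]
  have s3 : ∀ P, Ov u P → On n Λ P → dsc (n + 1) Γ P ≤ 0 :=
    (all_iff bs on (p := fun E => 0 ≤ B E) fun P E c dm => by
      rw [b' P E c dm, neg_nonpos, Rat.cast_nonneg]).1 fun E _ => hB.1 E trivial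
  obtain ⟨s, a, g, π, h, s0⟩ := Ad.shift ci
  have x := Ad.coxY big dt h s1 s0
  obtain rfl := Ad.dim ext aff dt h x
  obtain ⟨h₁, e₁, e'⟩ := Ad.eqv s1
  obtain ⟨g₁, b₁, e''⟩ := Ad.eqv s2
  obtain ⟨y, E, hy, hc⟩ := Cb.exists_cn dt.ff
  have Y : Dy n r ε u Λ Γ Γ' y _ s a h₁ g₁ e₁ b₁ := ⟨dt, ⟨E, hy⟩, hc, x, hc ▸ e', e'',
    fun P t => s3 P t.1 t.2, b, fun _ => Br.klr dt dt.dn.neg (c hn)⟩
  exact e _ M1 (tpy_at hr m2 n0 Y (mdp c' _ k r m ε hr hε (H c') X.K y _ _ s a g _ g₁ _ b₁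
    (Tpy.dx hr Y (Ad.ci h)) False.elim) (hz0 hr n0 Y (gen_of hK hω hf bs on b' n0 h0)))

end Vale.Agent.P283R.Cx

namespace Vale.Agent.P283R.Sl

open Var

theorem on_cox0 (k : ℕ) {q n₀ : ℕ} (hq : 1 ≤ q) (n0 : 1 ≤ n₀) :
    On fun _ _ _ f ω B z => FanoType f ω ∧ NefOver f (-logCan ω B) ∧
      (∃ z', HasKltComplement f ω B n₀ z') ∧ CoxCI k q f ω B z := by
  intro d hd ε hε R hR
  obtain ⟨n, hn, H⟩ := Cx.qy0 d k q n₀ hd hq n0 ε hε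
  exact ⟨n, hn, fun X Z f ω B z a b c _ s t u => (has_iff f ω B n z).2
    (H X.o Z.o f ω B z a b ((pair_iff _ _ ω B).1 c) s ((fanoType_iff f ω).1 u.1)
      ((nefOver_iff f _).1 u.2.1) t (u.2.2.1.imp fun z' => (has_iff f ω B n₀ z').1) u.2.2.2)⟩

end Vale.Agent.P283R.Sl
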