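import Vale.Agent.P283R.Cx.Gu
import Vale.Agent.P283R.Un.Fg

/-!
# P283R: every contraction of Fano type is in the class `Generated`
-/

open Set

noncomputable section

namespace Vale.Agent.P283R

open Vale.Agent.P287D Vale.Agent.P283M P277Z.Gr

theorem Cx.ut : Cx.UT := fun n K _ _ u Λ Γ Γ' k D d fin => by
  obtain ⟨T, f, h1, h2⟩ := fg_iff.1 (Un.fg d (fun i P => D P i) fun i =>
    (fin i).subset fun P c => ⟨⟨c.1, c.2.1⟩, c.2.2⟩)
  obtain ⟨N, x, -, rfl⟩ := f.fin_param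
  have e : ∀ m, Cx.Sp (fun j => (x j).2) (fun j => (x j).1) m = gen ℂ (range x) m := fun m =>
    congrArg (Submodule.span ℂ) (Set.ext fun g => ⟨?_, fun h => ?_⟩)
  · refine ⟨N, fun j => (x j).2, fun j => (x j).1, fun m φ z => ?_⟩
    rw [e]
    refine ⟨fun h => Un.mem_Hs.1 ((Submodule.span_le.2 fun g hg =>
      Mono.mem_fam (Un.fam_Hs _ _) h1 hg) h) z, fun h => h2 m trivial (Un.mem_Hs.2 fun _ => h)⟩
  · rintro ⟨c, rfl, rfl⟩
    exact (Mono.iff_range (fun j => (x j).1) fun j => (x j).2).2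
      ⟨c, funext fun i => by simp [Cx.dg, Finset.sum_apply], rfl⟩
  · obtain ⟨c, a, b⟩ := (Mono.iff_range (fun j => (x j).1) fun j => (x j).2).1 h
    exact ⟨c, funext fun i => by simp [Cx.dg, ← a, Finset.sum_apply], b⟩

theorem Sl.un : Sl.UN := Sl.un_of Cx.ut

end Vale.Agent.P283R
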