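import Vale.Agent.P283R.Cx.Top

/-!
# P283R, block CX: the assembly in the birational case, factored
-/

open Set
open Vale.Agent.P297Z

noncomputable section

namespace Vale.Agent.P283R.Cx

open Vale.Agent.P287D Vale.Agent.P283M Tz

variable {K F : Type} [Field K] [Algebra ℂ K] [Field F] [Algebra ℂ F] [Algebra K F]
  [IsScalarTower ℂ K F] {n k N q m : ℕ} {t : Fin k → F} {s : Fin N → K} {a : Fin N → Fin k → ℤ}
  {u : Finset K} {Λ Γ Γ' : BD K} {D : Pl K → Fin k → ℤ} {y : Fin (n + 1) → K} {ε : ℝ}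

/-- the statement `COR` for one ring of sections -/
def CorAt (T : Set (Pl K)) (D : Pl K → Fin k → ℤ) (s : Fin N → K) (a : Fin N → Fin k → ℤ)
    {d : ℕ} (y : Fin d → K) (t : Fin k → F) (q : ℕ) (ε : ℝ) (m : ℕ) : Prop :=
  ∀ (h g : K) (δ b : Fin k → ℤ) (r : ℕ), h ≠ 0 → g ≠ 0 → g ∈ Sp s a b →
    (∀ E ∈ T, (E.ord h + δ ⬝ᵥ D E : ℤ) = q * kap y E + (E.ord g + b ⬝ᵥ D E : ℤ)) → 0 < r →
    (∀ G : Subgroup (F ≃ₐ[ℂ] F), (G : Set _) = Gr K t r → ∀ U : Pl F,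
      (∀ x ∈ Rg s a t, x ∈ U.ring) → ∀ e : ℕ, 0 < e → Dv G U e →
        ε * e ≤ lt y t U - (U.ord (hm t h δ) : ℝ) / q) →
    ∀ U : Pl F, (∀ x ∈ Rg s a t, x ∈ U.ring) → ∃ c : Fin N → ℕ,
      (∀ i, (r : ℤ) ∣ dg a c i + m * δ i) ∧
      ∑ j, (c j : ℝ) * U.ord (hm t (s j) (a j)) < q * m * (lt y t U - (U.ord (hm t h δ) : ℝ) / q)

omit [Algebra ℂ F] [Algebra K F] [IsScalarTower ℂ K F] [Field F] in
/-- the equation of `q B` is a section -/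
theorem Tz.g_mem (cx : Cox (Tt n u Λ) D s a) {g : K} {b : Fin k → ℤ}
    (e2 : Eqv (Tt n u Λ) D ((q : ℝ) • -dsc (n + 1) Γ) g b)
    (bd : ∀ P ∈ Tt n u Λ, dsc (n + 1) Γ P ≤ 0) : g ∈ Sp s a b :=
  (cx.sec b g e2.1).2 fun P p => by
    have b2 := e2.2 P p
    have b3 := mul_nonneg (Nat.cast_nonneg q : (0 : ℝ) ≤ q) (neg_nonneg.2 (bd P p))
    rw [Pi.smul_apply, smul_eq_mul, Pi.neg_apply] at b2
    rw [b2] at b3
    exact_mod_cast b3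

omit [Algebra ℂ F] [Algebra K F] [IsScalarTower ℂ K F] [Field F] in
theorem Tz.eq_of (ey : cn K (n + 1) = kap y) {h g : K} {δ b : Fin k → ℤ}
    (e2 : Eqv (Tt n u Λ) D ((q : ℝ) • -dsc (n + 1) Γ) g b)
    (e3 : Eqv (Tt n u Λ) D ((q : ℝ) • Γ) h δ) : ∀ E ∈ Tt n u Λ,
    (E.ord h + δ ⬝ᵥ D E : ℤ) = q * kap y E + (E.ord g + b ⬝ᵥ D E : ℤ) := fun P p => by
  have b2 := e2.2 P p
  have b3 := e3.2 P p
  simp only [dsc, ey, Pi.sub_apply, Pi.neg_apply, Pi.smul_apply, smul_eq_mul] at b2 b3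
  push_cast at b2 b3 ⊢
  linarith

/-- vertical places satisfy the hypothesis upstairs -/
theorem Tz.hyp_v (grd : GRD) (neg : NEG) (A : Dat n u Λ Γ Γ') (x : Ext K (n + 1) t) (hy : Frm y)
    (ey : cn K (n + 1) = kap y) (cx : Cox (Tt n u Λ) D s a) (hq : 0 < q) (hε : 0 ≤ ε) {h h₁ : K}
    {δ e₁ : Fin k → ℤ} (e1 : Eqv (Tt n u Λ) D (cn K (n + 1)) h₁ e₁)
    (e3 : Eqv (Tt n u Λ) D ((q : ℝ) • Γ) h δ) (lc : ∀ P, Ov u P → ε ≤ 1 + dsc (n + 1) Γ P)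
    (nef : NefO n K u (-Γ)) {r : ℕ} {G : Subgroup (F ≃ₐ[ℂ] F)} (hG : (G : Set _) = Gr K t r)
    {U : Pl F} (hU : ∀ x ∈ Rg s a t, x ∈ U.ring) {e : ℕ} (dv : Dv G U e) {Q : Pl K}
    (l : Lies (algebraMap K F) U Q)
    (w : U.ord (algebraMap K F Q.t) * (1 + kap y Q) ≤ lt y t U) :
    ε * e ≤ lt y t U - (U.ord (hm t h δ) : ℝ) / q :=
  have o := ov_of grd x hy cx hU l
  hyp_ver ey hε l hG dv (lc Q o) w ((nef_le neg A x hy cx hq e1 e3 nef hU).1 Q l o)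

/-- the hypothesis upstairs, birational case -/
theorem Tz.hyp (grd : GRD) (lar : LAR) (neg : NEG) (dwn : DWN) (hor : HOR) (A : Dat n u Λ Γ Γ')
    (x : Ext K (n + 1) t) (hy : Frm y) (ey : cn K (n + 1) = kap y) (cx : Cox (Tt n u Λ) D s a)
    (all : ∀ e, ∃ φ ∈ Sp s a e, φ ≠ 0) (hq : 0 < q) (hε : 0 ≤ ε) {h h₁ : K} {δ e₁ : Fin k → ℤ}
    (e1 : Eqv (Tt n u Λ) D (cn K (n + 1)) h₁ e₁) (e3 : Eqv (Tt n u Λ) D ((q : ℝ) • Γ) h δ)
    (lc : ∀ P, Ov u P → ε ≤ 1 + dsc (n + 1) Γ P) (nef : NefO n K u (-Γ)) {r : ℕ} (r0 : 0 < r)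
    (G : Subgroup (F ≃ₐ[ℂ] F)) (hG : (G : Set _) = Gr K t r) (U : Pl F)
    (hU : ∀ x ∈ Rg s a t, x ∈ U.ring) (e : ℕ) (dv : Dv G U e) :
    min ε 1 * e ≤ lt y t U - (U.ord (hm t h δ) : ℝ) / q := by
  have t0 := x.ind.ne_zero
  have e0' : (0 : ℝ) ≤ e := Nat.cast_nonneg _
  obtain ⟨tr, -⟩ | ⟨Q, l, w⟩ := dwn K F (n + 1) k y t x hy U
  · have z : ∀ e : Fin k → ℤ, 0 ≤ ∑ i, e i * U.ord (t i) := fun e => by
      obtain ⟨φ, p, φ0⟩ := all e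
      have := Pl.ord_nonneg_of_mem _ (hU _ (hm_mem grd x hy p))
      rwa [ord_hm t0 U φ0, Trv.ord tr, zero_add] at this
    have z0 : ∀ i, U.ord (t i) = 0 := fun i => by
      have b1 := z (Pi.single i 1)
      have b2 := z (Pi.single i (-1))
      rw [Finset.sum_eq_single i (fun j _ c => by simp [c]) (by simp), Pi.single_eq_same] at b1 b2
      omega
    obtain ⟨fr, sh⟩ := lar K F (n + 1) k y t x hy r r0
    have := hor _ F G _ U e x.ff' fr (fun i => by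
      refine Fin.addCases (fun i => ?_) (fun i => ?_) i
      · simpa [zt] using fix_K hG _
      · simpa [zt] using fix_t hG _) (fun i => by
      refine Fin.addCases (fun i => ?_) (fun i => ?_) i
      · simpa [zt] using tr _
      · simpa [zt] using pow_mem (Cb.mem_ord (z0 i).ge) r) dv
    rw [sh] at this
    simp only [z0, Int.cast_zero, Finset.sum_const_zero, mul_zero, add_zero] at this
    nlinarith [(nef_le neg A x hy cx hq e1 e3 nef hU).2 tr, min_le_right ε 1]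
  · have := hyp_v grd neg A x hy ey cx hq hε e1 e3 lc nef hG hU dv l w
    nlinarith [min_le_left ε 1]

/-- **the assembly**, any number of generators, the field `K(t)` is given -/
theorem topc (grd : GRD) (lar : LAR) (neg : NEG) (dwn : DWN) (hor : HOR) (lif : LIF) (fin : FIN)
    (bak : BAK) (hq : 0 < q) (hε : 0 < ε) (m2 : 2 ≤ m) (x : Ext K (n + 1) t)
    (cor : ∀ y : Fin (n + 1) → K, Frm y → CorAt (Tt n u Λ) D s a y t q (min ε 1) m)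
    (A : Dat n u Λ Γ Γ') (cx : Cox (Tt n u Λ) D s a) (all : ∀ e, ∃ φ ∈ Sp s a e, φ ≠ 0)
    (h1 : ∃ h e, Eqv (Tt n u Λ) D (cn K (n + 1)) h e)
    (h2 : ∃ h e, Eqv (Tt n u Λ) D ((q : ℝ) • -dsc (n + 1) Γ) h e)
    (bd : ∀ P ∈ Tt n u Λ, dsc (n + 1) Γ P ≤ 0) (lc : ∀ P, Ov u P → ε ≤ 1 + dsc (n + 1) Γ P)
    (nef : NefO n K u (-Γ)) : Cpl n (q * m) u Λ Γ := by
  obtain ⟨h₁, e₁, e1⟩ := h1
  obtain ⟨g, b, e2⟩ := h2
  obtain ⟨y, Dy, fy, ey⟩ := Cb.exists_cn A.ff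
  have hy : Frm y := ⟨Dy, fy⟩
  have e3 := eqv e1 e2
  refine bak n k _ q m K u Λ Γ Γ' D s a y _ _ A cx hy ey (by nlinarith) e3 fun Q o => ?_
  obtain ⟨U, u₀, l, e, d0, w⟩ := lif K F (n + 1) k y t x hy _ s a Q cx.ne (mon_ov A cx o)
  obtain ⟨c', c1, c2⟩ := fin _ k a _ u₀ (-((m : ℤ) • ((q : ℤ) • e₁ + b))) _ d0 w fun r r0 =>
    (cor y hy _ g _ b r e3.1 e2.1 (g_mem cx e2 bd) (eq_of ey e2 e3) r0
      (fun G hG U hU e _ dv => hyp grd lar neg dwn hor A x hy ey cx all hq hε.le e1 e3 lc nef r0 G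
        hG U hU e dv) U
      (rg_le fun j => (w j).1)).imp fun _ p => ⟨fun i => by
        rw [Pi.neg_apply, sub_neg_eq_add]
        exact p.1 i, p.2⟩
  exact ⟨c', c1, ld_pos x.ind.ne_zero cx.ne l e hq (by omega) e3.1 c1 c2⟩

end Vale.Agent.P283R.Cx
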