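import Vale.Agent.P283R.Cx.Ady
import Vale.Agent.P283R.Sl.Cz

/-!
# P283R, blocks CX and CY: the bridge for any family of pairs `(k, c)`
-/

open Set CategoryTheory AlgebraicGeometry

noncomputable section

namespace Vale.Agent.P283R.Cox

open Vale.Agent.P289 (Pt St toRat DForm dimension)
open Vale.Agent.P287D Vale.Agent.P283M.Stm Vale.Agent.P283M.Stm.Var Vale.Agent.P297Z
open Vale.Agent.P283M Vale.Agent.P283M.Br Vale.Agent.P283R.Sch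

/-- the body of the statement on the tier; for `b` true the contraction is birational -/
def QwB (b : Prop) (c k n q : ℕ) (ε : ℝ) (M : ℕ) : Prop :=
  ∀ (K : Type) [Field K] [Algebra ℂ K] (u : Finset K) (Λ Γ Γ' : BD K)
    (D : Fin k → Pl K → ℤ) (N : ℕ) (s : Fin N → K) (a : Fin N → Fin k → ℤ)
    (g : Fin c → MvPolynomial (Fin N) ℂ)
    (π : MvPolynomial (Fin N) ℂ →ₐ[ℂ] AddMonoidAlgebra K (Fin k → ℤ)),
    Dat n u Λ Γ Γ' → (b → Bir u) → Ci n u Λ D s a g π → Sp n u Λ D (cn K (n + 1)) →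
    Sp n u Λ D ((q : ℝ) • -dsc (n + 1) Γ) → (∀ P, Ov u P → ε ≤ 1 + dsc (n + 1) Γ P) →
    (∀ P, Ov u P → On n Λ P → dsc (n + 1) Γ P ≤ 0) → NefO n K u (-Γ) → Cpl n M u Λ Γ

theorem qwB_x (E : Cx.EXT) (A : Cx.AFF) {c k n q M : ℕ} {ε : ℝ} (H : Cx.QxB c k n q ε M) :
    QwB True c k n q ε M := fun K _ _ u Λ Γ Γ' D N s a g π d b h h1 h2 h3 h4 h5 => by
  obtain ⟨s, a, g, π, h, s0⟩ := Cx.Ad.shift h
  have x := Cx.Ad.cox d (b trivial) h s0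
  obtain rfl := Cx.Ad.dim E A d h x
  exact H K u Λ Γ Γ' _ s a g d x (Cx.Ad.ci h) (Cx.Ad.all d (b trivial) h) (Cx.Ad.eqv h1)
    (Cx.Ad.eqv h2) (fun P t => h4 P t.1 t.2) h3 h5

theorem qwB_y (E : Cx.EXT) (A : Cx.AFF) (B : Cx.BIG) {c k n q M : ℕ} {ε : ℝ}
    (H : Cx.QyB c k n q ε M) : QwB False c k n q ε M :=
  fun K _ _ u Λ Γ Γ' D N s a g π d _ h h1 h2 h3 h4 h5 => by
  obtain ⟨s, a, g, π, h, s0⟩ := Cx.Ad.shift h
  have x := Cx.Ad.coxY B d h h1 s0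
  obtain rfl := Cx.Ad.dim E A d h x
  exact H K u Λ Γ Γ' _ s a g d x (Cx.Ad.ci h) (Cx.Ad.eqv h1) (Cx.Ad.eqv h2)
    (fun P t => h4 P t.1 t.2) h3 h5

variable {X Z : Var} {n k : ℕ} {f : X.X ⟶ Z.X} {z : Pt Z.X} {V : Z.X.Opens} {u : Finset X.K}
  {Λ : BD X.K}

theorem ci_at (bs : Base f V z u)
    (on : ∀ (P : Pl X.K) (x : Pt X.X), x ∈ f ⁻¹ᵁ V → Dom P.ring x → (On n Λ P ↔ x.CodimOne))
    {D : Fin k → X.PrimeDiv →₀ ℤ} {c : ℕ}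
    (h : Sl.GradedCIc c fun m => {φ : X.K | φ ≠ 0 →
      ∀ E : X.PrimeDiv, E.1 ∈ f ⁻¹ᵁ V → 0 ≤ ord φ E + ∑ i, m i * D i E}) :
    ∃ (N : ℕ) (s : Fin N → X.K) (a : _) (g : Fin c → _) (π : _),
      Ci n u Λ (fun i => up (D i)) s a g π := by
  obtain ⟨N, s, a, g, π, h1, h2, h3, h4⟩ := h
  obtain ⟨_, _, _, _, _, _, x⟩ := ci_of bs on (D := D) ⟨N, c, s, a, g, π, h1, h2, h3, h4⟩
  exact ⟨N, s, a, g, π, x.fin, h1,
    fun F => (h2 F).trans (forall_congr' fun m => imp_congr_right fun _ =>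
      all_iff bs on fun P E _ dm => by rw [cf_eq D m dm, ord_eq dm]), h3, h4⟩

/-- the scheme side -/
theorem schW {b : Prop} {c r M : ℕ} {ε : ℝ} (M1 : 1 ≤ M) (hM : QwB b c k n r ε M)
    {ω : DForm ℂ X.K (n + 1)} {B : X.QDiv} (hdim : dimension X.str = (n + 1 : ℕ))
    (hω : ω.Nonzero) (hB : Pair (ε ≤ ·) ⊤ ω B) (hf : Contraction f) (hF : FanoType f ω)
    (hn : NefOver f (-logCan ω B)) (hz : IsClosed ({z} : Set (Pt Z.X)))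
    (hb : b → Stm.Birational f) (hV : IsAffineOpen V) (zV : z ∈ V)
    {D : Fin k → X.PrimeDiv →₀ ℤ}
    (h1 : Sl.GradedCIc c fun m => {φ : X.K | φ ≠ 0 →
      ∀ E : X.PrimeDiv, E.1 ∈ f ⁻¹ᵁ V → 0 ≤ ord φ E + ∑ i, m i * D i E})
    (h2 : InSpan (f ⁻¹ᵁ V) D (logCan ω 0)) (h3 : InSpan (f ⁻¹ᵁ V) D fun E => r * B E) :
    HasKltComplement f ω B M z := by
  obtain ⟨u, bs⟩ := basV hf hz hV zV
  have hK := ffd X _ hdim
  obtain ⟨Λ, Γ, Γ', a, on, b, b', c, e⟩ := dataW hK hω hB hf hF bs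
  obtain ⟨N, s, w, g, π, ci⟩ := ci_at bs on h1
  obtain ⟨j, j0, fr⟩ := frm X _ hK ω hω
  refine e M M1 (hM X.K u Λ Γ Γ' _ N s w g π a (fun t x => ?_) ci
    (sp_of bs on h2 j0 fun P E _ dm => ?_) (sp_of bs on h3 one_ne_zero fun P E c dm => ?_) b
    ((all_iff bs on (p := fun E => 0 ≤ B E) fun P E c dm => ?_).1 fun E _ => hB.1 E trivial)
    (c hn))
  · obtain ⟨p, hp⟩ := hb t
    obtain ⟨A, χ, hA⟩ := P283R.Br.exists_bs hf hp hV zV hz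
    obtain ⟨a, ha, b, hb, h⟩ := hA.frK hV zV x
    exact ⟨a, bs.con a ((hA.mem a).1 ha), b, bs.con b ((hA.mem b).1 hb), h⟩
  · rw [← fr X _ E P (is_of_dom dm) (ord_eq dm), logCan]
    simp
  · simp [b' P E c dm]
  · rw [b' P E c dm, neg_nonpos, Rat.cast_nonneg]

end Vale.Agent.P283R.Cox

namespace Vale.Agent.P283R.Sl

open Var

variable {q : ℕ}

theorem on_w {b : Prop} {p : ℕ → ℕ → Prop}
    (h : ∀ (n : ℕ) (ε : ℝ), 0 < ε → ∃ M, 1 ≤ M ∧ ∀ k c, p k c → Cox.QwB b c k n q ε M) :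
    On fun _ _ _ f ω B z => FanoType f ω ∧ NefOver f (-logCan ω B) ∧ (b → ∃ p, IsPull f p) ∧
      ∃ k c, p k c ∧ CoxCIc k c q f ω B z := by
  intro d hd ε hε R hR
  obtain ⟨n, rfl⟩ : ∃ n, d = n + 1 := ⟨d - 1, by omega⟩
  obtain ⟨M, M1, H⟩ := h n ε hε
  refine ⟨M, M1, fun X Z f ω B z a b c _ s t ⟨u1, u2, u3, k, c', w, V, D, hV, zV, h1, h2, h3⟩ =>
    (has_iff f ω B M z).2 ?_⟩
  exact Cox.schW (X := X.o) (Z := Z.o) M1 (H k c' w) a b ((pair_iff _ _ ω B).1 c) s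
    ((fanoType_iff f ω).1 u1) ((nefOver_iff f _).1 u2) t u3 hV zV h1 h2 h3

theorem On.le {C : ℕ → ∀ (d : ℕ) (X Z : Var), (X.X ⟶ Z.X) → X.Form d → X.QDiv → Pt Z.X → Prop}
    (h : ∀ i, On (C i)) (l : ℕ) : On fun d X Z f ω B z => ∃ i ≤ l, C i d X Z f ω B z := by
  induction l with
  | zero => exact (h 0).mono fun _ _ _ _ _ _ _ ⟨i, a, b⟩ => Nat.le_zero.1 a ▸ b
  | succ l ih =>
    exact (ih.or (h (l + 1))).mono fun _ _ _ _ _ _ _ ⟨i, a, b⟩ =>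
      (Nat.of_le_succ a).imp (fun a => ⟨i, a, b⟩) fun (a : i = l + 1) => a ▸ b

/-- the number of divisors or the codimension is bounded -/
theorem on_min {b : Prop}
    (h : ∀ (k n : ℕ) (ε : ℝ), 0 < ε → ∃ M, 1 ≤ M ∧ ∀ c, Cox.QwB b c k n q ε M)
    (h' : ∀ (c n : ℕ) (ε : ℝ), 0 < ε → ∃ M, 1 ≤ M ∧ ∀ k, Cox.QwB b c k n q ε M) (l : ℕ) :
    On fun _ _ _ f ω B z => FanoType f ω ∧ NefOver f (-logCan ω B) ∧ (b → ∃ p, IsPull f p) ∧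
      ∃ k c, min k c ≤ l ∧ CoxCIc k c q f ω B z :=
  (On.le (fun i => (on_w (b := b) (q := q) (p := fun k _ => k = i) fun n ε e =>
    let ⟨M, M1, H⟩ := h i n ε e; ⟨M, M1, fun _ c x => x ▸ H c⟩).or
    (on_w (b := b) (q := q) (p := fun _ c => c = i) fun n ε e =>
    let ⟨M, M1, H⟩ := h' i n ε e; ⟨M, M1, fun k _ x => x ▸ H k⟩)) l).mono
    fun _ _ _ _ _ _ _ ⟨u1, u2, u3, k, c, w, x⟩ => ⟨min k c, w, (min_choice k c).imp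
      (fun e => ⟨u1, u2, u3, k, c, e.symm, x⟩) fun e => ⟨u1, u2, u3, k, c, e.symm, x⟩⟩

/-- birational contractions -/
theorem on_minX (E : Cx.EXT) (A : Cx.AFF) (h : ∀ n, Cx.QxU n) (h' : ∀ c n, Cy.QzAt c n)
    (hq : 1 ≤ q) (l : ℕ) :
    On fun _ _ _ f ω B z => FanoType f ω ∧ NefOver f (-logCan ω B) ∧ (∃ p, IsPull f p) ∧
      ∃ k c, min k c ≤ l ∧ CoxCIc k c q f ω B z :=
  (on_min (b := True)
    (fun k n ε e => let ⟨M, M1, H⟩ := h n k q ε hq e; ⟨M, M1, fun c => Cox.qwB_x E A (H c)⟩)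
    (fun c n ε e => let ⟨M, M1, H⟩ := h' c n q ε hq e; ⟨M, M1, fun k => Cox.qwB_x E A (H k)⟩)
    l).mono fun _ _ _ _ _ _ _ u => ⟨u.1, u.2.1, fun _ => u.2.2.1, u.2.2.2⟩

/-- all contractions -/
theorem on_minY (E : Cx.EXT) (A : Cx.AFF) (B : Cx.BIG) (h : ∀ n, Cx.QyU n)
    (h' : ∀ (c n : ℕ) (ε : ℝ), 0 < ε → ∃ M, 1 ≤ M ∧ ∀ k, Cx.QyB c k n q ε M)
    (hq : 1 ≤ q) (l : ℕ) :
    On fun _ _ _ f ω B z => FanoType f ω ∧ NefOver f (-logCan ω B) ∧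
      ∃ k c, min k c ≤ l ∧ CoxCIc k c q f ω B z :=
  (on_min (b := False)
    (fun k n ε e => let ⟨M, M1, H⟩ := h n k q ε hq e; ⟨M, M1, fun c => Cox.qwB_y E A B (H c)⟩)
    (fun c n ε e => let ⟨M, M1, H⟩ := h' c n ε e; ⟨M, M1, fun k => Cox.qwB_y E A B (H k)⟩)
    l).mono fun _ _ _ _ _ _ _ u => ⟨u.1, u.2.1, False.elim, u.2.2⟩

/-- all contractions for a bounded number of divisors, birational ones for bounded codimension -/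
theorem on_mix (E : Cx.EXT) (A : Cx.AFF) (B : Cx.BIG) (h : ∀ n, Cx.QyU n)
    (h' : ∀ c n, Cy.QzAt c n) (hq : 1 ≤ q) (l : ℕ) :
    On fun _ _ _ f ω B z => FanoType f ω ∧ NefOver f (-logCan ω B) ∧
      ∃ k c, (k ≤ l ∨ c ≤ l ∧ ∃ p, IsPull f p) ∧ CoxCIc k c q f ω B z :=
  (On.le (fun i => (on_w (b := False) (q := q) (p := fun k _ => k = i) fun n ε e =>
    let ⟨M, M1, H⟩ := h n i q ε hq e; ⟨M, M1, fun _ c x => x ▸ Cox.qwB_y E A B (H c)⟩).or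
    (on_w (b := True) (q := q) (p := fun _ c => c = i) fun n ε e =>
    let ⟨M, M1, H⟩ := h' i n q ε hq e; ⟨M, M1, fun k _ x => x ▸ Cox.qwB_x E A (H k)⟩)) l).mono
    fun _ _ _ _ _ _ _ ⟨u1, u2, k, c, w, x⟩ => w.elim
      (fun w => ⟨k, w, .inl ⟨u1, u2, False.elim, k, c, rfl, x⟩⟩)
      fun w => ⟨c, w.1, .inr ⟨u1, u2, fun _ => w.2, k, c, rfl, x⟩⟩

end Vale.Agent.P283R.Sl
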