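import Vale.Agent.P283R.Tp.St
import Vale.Agent.P283R.To.Gs
import Vale.Agent.P283M.Qv

/-!
# P283R, block CX: varieties whose Cox ring is a complete intersection, the statements

`T` is the set of the prime divisors of `X` over `V`, `D P i` is the coefficient of `P` in the Weil
divisor `D_i`, the ring of the sections `⊕ H⁰(e · D) t ^ e ⊆ F = K(t)` is generated by the
`s j * t ^ a j`.
-/

open Set

noncomputable section

namespace Vale.Agent.P283R.Cx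

open Vale.Agent.P287D Vale.Agent.P283M
open Vale.Agent.P283R.To (mon)

section defs

variable {K F : Type} [Field K] [Algebra ℂ K] [Field F] [Algebra ℂ F] [Algebra K F] {d k N : ℕ}

/-- the degree of a monomial -/
def dg (a : Fin N → Fin k → ℤ) (c : Fin N → ℕ) : Fin k → ℤ := fun i => ∑ j, c j * a j i

/-- the span of the monomials of degree `e` -/
def Sp (s : Fin N → K) (a : Fin N → Fin k → ℤ) (e : Fin k → ℤ) : Submodule ℂ K :=
  Submodule.span ℂ ((fun c : Fin N → ℕ => ∏ j, s j ^ c j) '' {c | dg a c = e})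

/-- the sections `s j` of degree `a j` generate the ring of all sections, whose fraction field is
`K(t)` -/
structure Cox (T : Set (Pl K)) (D : Pl K → Fin k → ℤ) (s : Fin N → K) (a : Fin N → Fin k → ℤ) :
    Prop where
  ne : ∀ j, s j ≠ 0
  sec : ∀ e φ, φ ≠ 0 → (φ ∈ Sp s a e ↔ ∀ P ∈ T, 0 ≤ P.ord φ + e ⬝ᵥ D P)
  fin : ∀ (φ : K) e, {P | P ∈ T ∧ P.ord φ + e ⬝ᵥ D P ≠ 0}.Finite
  fr0 : ∀ φ : K, ∃ e, ∃ b ∈ Sp s a e, ∃ c ∈ Sp s a e, c ≠ 0 ∧ φ = b / c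
  fr1 : ∀ e, ∃ e', ∃ b ∈ Sp s a (e + e'), ∃ c ∈ Sp s a e', b ≠ 0 ∧ c ≠ 0

/-- the relations are generated by `f` -/
def CI {c : ℕ} (s : Fin N → K) (a : Fin N → Fin k → ℤ) (f : Fin c → MvPolynomial (Fin N) ℂ) :
    Prop :=
  RingHom.ker (MvPolynomial.aeval fun j => AddMonoidAlgebra.single (a j) (s j) :
    MvPolynomial (Fin N) ℂ →ₐ[ℂ] AddMonoidAlgebra K (Fin k → ℤ)) = Ideal.span (range f)

/-- the trace of `β` on `T` is `div h + e · D` -/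
def Eqv (T : Set (Pl K)) (D : Pl K → Fin k → ℤ) (β : BD K) (h : K) (e : Fin k → ℤ) : Prop :=
  h ≠ 0 ∧ ∀ P ∈ T, β P = P.ord h + (e ⬝ᵥ D P : ℤ)

/-- the prime divisors of `X` over `V` -/
def Tt (n : ℕ) (u : Finset K) (Λ : BD K) : Set (Pl K) := {P | Ov u P ∧ On n Λ P}

variable (K) in
/-- `F = K(t)` -/
structure Ext (d : ℕ) (t : Fin k → F) : Prop where
  ff : FF K d
  ff' : FF F (d + k)
  ind : AlgebraicIndependent K t
  gen : IntermediateField.adjoin K (range t) = ⊤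

/-- homogeneous elements -/
def hm (t : Fin k → F) (φ : K) (e : Fin k → ℤ) : F := algebraMap K F φ * mon t e

/-- Laurent polynomials -/
def lv (t : Fin k → F) (ψ : (Fin k → ℤ) →₀ K) : F := ψ.sum fun e φ => hm t φ e

/-- the ring of the sections -/
def Rg (s : Fin N → K) (a : Fin N → Fin k → ℤ) (t : Fin k → F) : Subalgebra ℂ F :=
  Algebra.adjoin ℂ (range fun j => hm t (s j) (a j))

/-- the frame `(y, t)` -/
def zt (y : Fin d → K) (t : Fin k → F) : Fin (d + k) → F :=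
  Fin.append (fun i => algebraMap K F (y i)) t

/-- the log discrepancy of the form `dy ∧ dlog t` -/
def lt (y : Fin d → K) (t : Fin k → F) (U : Pl F) : ℝ :=
  1 + kap (zt y t) U - ∑ i, (U.ord (t i) : ℝ)

variable (K) in
/-- the `r`-torsion of the torus -/
def Gr (t : Fin k → F) (r : ℕ) : Set (F ≃ₐ[ℂ] F) :=
  {σ | (∀ φ : K, σ (algebraMap K F φ) = algebraMap K F φ) ∧
    ∀ i, ∃ c : ℂ, c ^ r = 1 ∧ σ (t i) = c • t i}

/-- `v` is the Gauss place over `E` with the weights `w` -/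
structure Gv (y : Fin d → K) (t : Fin k → F) (E : Pl K) (w : Fin k → ℤ) (v : Pl F) : Prop where
  ord : ∀ (φ : K) e, φ ≠ 0 → v.ord (hm t φ e) = E.ord φ + e ⬝ᵥ w
  min : ∀ ψ : (Fin k → ℤ) →₀ K, ∀ e ∈ ψ.support, v.ord (lv t ψ) ≤ E.ord (ψ e) + e ⬝ᵥ w
  lt : lt y t v = 1 + kap y E

variable (K) in
/-- the homogeneous elements are units -/
def Hz (t : Fin k → F) (R : Pl F) : Prop := ∀ (φ : K) e, φ ≠ 0 → R.ord (hm t φ e) = 0

end defs

/-- a property of `F = K(t)` with a frame `y` of `K` -/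
def ForX (p : ∀ (K F : Type) [Field K] [Algebra ℂ K] [Field F] [Algebra ℂ F] [Algebra K F]
    (d k : ℕ), (Fin d → K) → (Fin k → F) → Prop) : Prop :=
  ∀ (K F : Type) [Field K] [Algebra ℂ K] [Field F] [Algebra ℂ F] [Algebra K F]
    [IsScalarTower ℂ K F] (d k : ℕ) (y : Fin d → K) (t : Fin k → F), Ext K d t → Frm y →
    p K F d k y t

/-- a property of the ring of the sections -/
def ForY (p : ∀ (K F : Type) [Field K] [Algebra ℂ K] [Field F] [Algebra ℂ F] [Algebra K F]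
    (d k : ℕ), (Fin d → K) → (Fin k → F) → Set (Pl K) → (Pl K → Fin k → ℤ) → Subalgebra ℂ F →
      Prop) : Prop :=
  ForX fun K F _ _ _ _ _ d k y t => ∀ (N : ℕ) (T : Set (Pl K)) (D : Pl K → Fin k → ℤ)
    (s : Fin N → K) (a : Fin N → Fin k → ℤ), Cox T D s a → p K F d k y t T D (Rg s a t)

/-- **EXT** -/
def EXT : Prop := ∀ (K : Type) [Field K] [Algebra ℂ K] (d k : ℕ), FF K d →
  ∃ (F : Type) (_ : Field F) (_ : Algebra ℂ F) (_ : Algebra K F) (_ : IsScalarTower ℂ K F)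
    (t : Fin k → F), Ext K d t

/-- **GRD**: the grading -/
def GRD : Prop := ForX fun K F _ _ _ _ _ _ k _ t =>
  (∀ ψ : (Fin k → ℤ) →₀ K, lv t ψ = 0 → ψ = 0) ∧
    ∀ (N : ℕ) (s : Fin N → K) (a : Fin N → Fin k → ℤ) (b : F),
      b ∈ Rg s a t ↔ ∃ ψ : (Fin k → ℤ) →₀ K, (∀ e, ψ e ∈ Sp s a e) ∧ lv t ψ = b

/-- **GAV**: the Gauss places -/
def GAV : Prop := ForX fun _ _ _ _ _ _ _ _ _ y t => ∀ E w, ∃ v, Gv y t E w v

/-- **AFF** -/
def AFF : Prop := ForY fun _ _ _ _ _ _ _ d k _ _ _ _ S => Aff (d + k) S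

/-- **NOR** -/
def NOR : Prop := ForY fun _ _ _ _ _ _ _ _ _ _ _ _ _ S => IsIntegrallyClosed S

/-- **PDV**: the prime divisors of the ring of the sections -/
def PDV : Prop := ForY fun K _ _ _ _ _ _ _ _ y t T D S => ∀ R, PD S R →
  (∃ E ∈ T, Gv y t E (D E) R) ∨ Hz K t R

/-- **KAH**: the form has no zeros along the prime divisors of the generic torus -/
def KAH : Prop := ForY fun K _ _ _ _ _ _ _ _ y t _ _ S => ∀ R, PD S R → Hz K t R → lt y t R = 1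

/-- **GRP**: the group -/
def GRP : Prop := ForX fun K F _ _ _ _ _ _ k _ t => ∀ r : ℕ, 0 < r →
  ∃ G : Subgroup (F ≃ₐ[ℂ] F), (G : Set _) = Gr K t r ∧ Finite G ∧
    (∀ (N : ℕ) (s : Fin N → K) (a : Fin N → Fin k → ℤ), Stab G (Rg s a t)) ∧
    (∀ (φ : K) e, (∀ i, (r : ℤ) ∣ e i) → Fix G (hm t φ e)) ∧
    ∀ ψ : (Fin k → ℤ) →₀ K, Fix G (lv t ψ) → ∀ e ∈ ψ.support, ∀ i, (r : ℤ) ∣ e i

/-- **LAR**: the invariant frame -/
def LAR : Prop := ForX fun _ _ _ _ _ _ _ _ _ y t => ∀ r : ℕ, 0 < r →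
  Frm (zt y fun i => t i ^ r) ∧
    ∀ U, 1 + kap (zt y fun i => t i ^ r) U = lt y t U + r * ∑ i, (U.ord (t i) : ℝ)

/-- **LCI**: the ambient space -/
def LCI : Prop := ForX fun K F _ _ _ _ _ d k _ t => ∀ (c r : ℕ) (s : Fin (d + k + c) → K)
  (a : Fin (d + k + c) → Fin k → ℤ) (f : Fin c → MvPolynomial (Fin (d + k + c)) ℂ)
  (G : Subgroup (F ≃ₐ[ℂ] F)), CI s a f → 0 < r → (G : Set _) = Gr K t r →
    ∃ (F' : Type) (_ : Field F') (_ : Algebra ℂ F') (G' : Subgroup (F' ≃ₐ[ℂ] F'))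
      (S' : Subalgebra ℂ F') (π : S' →ₐ[ℂ] Rg s a t) (f' : Fin c → S'),
      Lci (d + k) G (Rg s a t) G' S' π f'

/-- **RHA**: Hartogs for real combinations of principal divisors -/
def RHA : Prop := ∀ (N : ℕ) (F : Type) [Field F] [Algebra ℂ F] (S : Subalgebra ℂ F) (ι : Type)
  [Fintype ι] (f : ι → F) (c : ι → ℝ), Aff N S → IsIntegrallyClosed S → (∀ i, f i ≠ 0) →
    (∀ R, PD S R → 0 ≤ ∑ i, c i * R.ord (f i)) →
    ∀ U : Pl F, (∀ b ∈ S, b ∈ U.ring) → 0 ≤ ∑ i, c i * U.ord (f i)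

/-- **NEG**: negativity -/
def NEG : Prop := ForY fun K F _ _ _ _ _ _ k _ t T D S => ∀ (u : Finset K) (β : BD K) (φ ψ : K)
  (e e' : Fin k → ℤ) (c c' : ℝ), (∀ P ∈ T, Ov u P) → SmpO u β → φ ≠ 0 → ψ ≠ 0 →
    (∀ P ∈ T, β P ≤ c * (P.ord φ + e ⬝ᵥ D P : ℤ) + c' * (P.ord ψ + e' ⬝ᵥ D P : ℤ)) →
    ∀ U : Pl F, (∀ b ∈ S, b ∈ U.ring) →
      (∀ Q, Lies (algebraMap K F) U Q → Ov u Q → U.ord (algebraMap K F Q.t) * β Q ≤
        c * U.ord (hm t φ e) + c' * U.ord (hm t ψ e')) ∧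
      ((∀ x : K, algebraMap K F x ∈ U.ring) → 0 ≤ c * U.ord (hm t φ e) + c' * U.ord (hm t ψ e'))

/-- **DWN**: restriction of places -/
def DWN : Prop := ForX fun K F _ _ _ _ _ _ _ y t => ∀ U : Pl F,
  ((∀ x : K, algebraMap K F x ∈ U.ring) ∧ 0 ≤ lt y t U) ∨ ∃ Q, Lies (algebraMap K F) U Q ∧
    U.ord (algebraMap K F Q.t) * (1 + kap y Q) ≤ lt y t U

/-- **HOR**: places at which an invariant frame is regular -/
def HOR : Prop := ∀ (N : ℕ) (F : Type) [Field F] [Algebra ℂ F] (G : Subgroup (F ≃ₐ[ℂ] F))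
  (z : Fin N → F) (U : Pl F) (e : ℕ), FF F N → Frm z → (∀ i, Fix G (z i)) →
    (∀ i, z i ∈ U.ring) → Dv G U e → e ≤ 1 + kap z U

/-- **LIF**: the Gauss lift with the weights of Goldman and Tucker -/
def LIF : Prop := ForX fun K F _ _ _ _ _ _ k y t => ∀ (N : ℕ) (s : Fin N → K)
  (a : Fin N → Fin k → ℤ) (Q : Pl K), (∀ j, s j ≠ 0) →
    (∀ c, dg a c = 0 → 0 ≤ Q.ord (∏ j, s j ^ c j)) →
    ∃ (U : Pl F) (u₀ : Fin N → ℕ), Lies (algebraMap K F) U Q ∧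
      lt y t U = U.ord (algebraMap K F Q.t) * (1 + kap y Q) ∧ dg a u₀ = 0 ∧
      ∀ j, 0 ≤ U.ord (hm t (s j) (a j)) ∧ (0 < u₀ j ↔ U.ord (hm t (s j) (a j)) = 0)

/-- **FIN**: finitely many cosets, the repair -/
def FIN : Prop := ∀ (N k : ℕ) (a : Fin N → Fin k → ℤ) (w : Fin N → ℤ) (u₀ : Fin N → ℕ)
  (δ : Fin k → ℤ) (C : ℝ), dg a u₀ = 0 → (∀ j, 0 ≤ w j ∧ (0 < u₀ j ↔ w j = 0)) →
    (∀ r : ℕ, 0 < r → ∃ c, (∀ i, (r : ℤ) ∣ dg a c i - δ i) ∧ ∑ j, (c j : ℝ) * w j < C) →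
    ∃ c, dg a c = δ ∧ ∑ j, (c j : ℝ) * w j < C

/-- **BAK**: from the monomial sections to the complement -/
def BAK : Prop := ∀ (n k N q m : ℕ) (K : Type) [Field K] [Algebra ℂ K] (u : Finset K)
  (Λ Γ Γ' : BD K) (D : Pl K → Fin k → ℤ) (s : Fin N → K) (a : Fin N → Fin k → ℤ)
  (y : Fin (n + 1) → K) (h : K) (δ : Fin k → ℤ), Dat n u Λ Γ Γ' → Cox (Tt n u Λ) D s a → Frm y →
    cn K (n + 1) = kap y → 2 ≤ q * m → Eqv (Tt n u Λ) D ((q : ℝ) • Γ) h δ →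
    (∀ Q, Ov u Q → ∃ c, dg a c = -((m : ℤ) • δ) ∧ 0 < ld y (q * m) (h ^ m * ∏ j, s j ^ c j) Q) →
    Cpl n (q * m) u Λ Γ

/-- **COR**: the theorem for the finite groups, at one place `U`; `η = hm t h δ` is the equation
of `q (K + B)` and `σ = hm t g b` the equation of `q B` -/
def COR (c : ℕ) : Prop := ∀ (d k q : ℕ) (ε : ℝ), 0 < q → 0 < ε → ∃ m : ℕ, 2 ≤ m ∧
  ∀ (K F : Type) [Field K] [Algebra ℂ K] [Field F] [Algebra ℂ F] [Algebra K F]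
    [IsScalarTower ℂ K F] (y : Fin d → K) (t : Fin k → F) (T : Set (Pl K))
    (D : Pl K → Fin k → ℤ) (s : Fin (d + k + c) → K) (a : Fin (d + k + c) → Fin k → ℤ)
    (f : Fin c → MvPolynomial (Fin (d + k + c)) ℂ) (h g : K) (δ b : Fin k → ℤ) (r : ℕ),
    Ext K d t → Frm y → Cox T D s a → CI s a f → h ≠ 0 → g ≠ 0 → g ∈ Sp s a b →
    (∀ E ∈ T, (E.ord h + δ ⬝ᵥ D E : ℤ) = q * kap y E + (E.ord g + b ⬝ᵥ D E : ℤ)) → 0 < r →
    (∀ G : Subgroup (F ≃ₐ[ℂ] F), (G : Set _) = Gr K t r → ∀ U : Pl F,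
      (∀ x ∈ Rg s a t, x ∈ U.ring) → ∀ e : ℕ, 0 < e → Dv G U e →
        ε * e ≤ lt y t U - (U.ord (hm t h δ) : ℝ) / q) →
    ∀ U : Pl F, (∀ x ∈ Rg s a t, x ∈ U.ring) → ∃ n : Fin (d + k + c) → ℕ,
      (∀ i, (r : ℤ) ∣ dg a n i + m * δ i) ∧
      ∑ j, (n j : ℝ) * U.ord (hm t (s j) (a j)) < q * m * (lt y t U - (U.ord (hm t h δ) : ℝ) / q)

/-- **the tier statement, step 1** (all degrees have sections: the birational case) -/
def QxAt (c k n : ℕ) : Prop := ∀ (q : ℕ) (ε : ℝ), 0 < q → 0 < ε → ∃ N : ℕ, 1 ≤ N ∧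
  ∀ (K : Type) [Field K] [Algebra ℂ K] (u : Finset K) (Λ Γ Γ' : BD K) (D : Pl K → Fin k → ℤ)
    (s : Fin (n + 1 + k + c) → K) (a : Fin (n + 1 + k + c) → Fin k → ℤ)
    (f : Fin c → MvPolynomial (Fin (n + 1 + k + c)) ℂ), Dat n u Λ Γ Γ' → Cox (Tt n u Λ) D s a →
    CI s a f → (∀ e, ∃ φ ∈ Sp s a e, φ ≠ 0) → (∃ h e, Eqv (Tt n u Λ) D (cn K (n + 1)) h e) →
    (∃ h e, Eqv (Tt n u Λ) D ((q : ℝ) • -dsc (n + 1) Γ) h e) →
    (∀ P ∈ Tt n u Λ, dsc (n + 1) Γ P ≤ 0) → (∀ P, Ov u P → ε ≤ 1 + dsc (n + 1) Γ P) →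
    NefO n K u (-Γ) → Cpl n N u Λ Γ

/-- **CORR** -/
def CORR : Prop := GRD → AFF → NOR → PDV → KAH → GRP → LAR → LCI → ∀ c, AC c → COR c

/-- **TOPX** -/
def TOPX : Prop := EXT → GRD → GRP → LAR → NEG → DWN → HOR → LIF → FIN → BAK →
  ∀ c, COR c → ∀ k n, QxAt c k n

end Vale.Agent.P283R.Cx
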