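import Vale.Agent.P283R.Cx.Hwr
import Vale.Agent.P283R.Cx.Bas
import Vale.Agent.P283R.Cx.Sch
import Vale.Agent.P283R.Br.Glue

/-!
# P283R, block CX: the horizontal places from a complement of the generic fibre
-/

set_option linter.all false

open Set CategoryTheory AlgebraicGeometry

noncomputable section

namespace Vale.Agent.P283R.Cx

open Vale.Agent.P287D Vale.Agent.P283M Vale.Agent.P283R.Cy Vale.Agent.P297Z

section

variable {K : Type} [Field K] [Algebra ℂ K] {k N n q n₀ : ℕ} {ε : ℝ} {u : Finset K} {Λ Γ Γ' : BD K}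
  {y : Fin (n + 1) → K} {D : Pl K → Fin k → ℤ} {s : Fin N → K} {a : Fin N → Fin k → ℤ} {h₀ g : K}
  {e₀ b : Fin k → ℤ}

/-- a klt `n₀`-complement of the generic fibre -/
def Gen (n n₀ : ℕ) (u : Finset K) (Λ Γ : BD K) : Prop :=
  ∃ φ : K, φ ≠ 0 ∧ ∀ P : Pl K, (∀ x ∈ Algebra.adjoin ℂ (u : Set K), x ≠ 0 → P.ord x = 0) →
    (On n Λ P → Γ P ≤ (n₀ : ℝ)⁻¹ * dv φ P) ∧ -1 < dsc (n + 1) ((n₀ : ℝ)⁻¹ • dv φ) P

theorem pickK (s0 : ∀ j, s j ≠ 0) {e : Fin k → ℤ} {φ : K} (h : φ ∈ Sp s a e) (φ0 : φ ≠ 0)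
    (Q : Pl K) : ∃ c, dg a c = e ∧ Q.ord (∏ j, s j ^ c j) ≤ Q.ord φ := by
  by_contra c
  push Not at c
  have k : Sp s a e ≤ Q.sub (-(Q.ord φ + 1)) := Submodule.span_le.2 (by
    rintro _ ⟨n, hn, rfl⟩
    have := c n hn
    exact .inr (by exact_mod_cast (by omega : (0 : ℤ) ≤ Q.ord (∏ j, s j ^ n j) + -(Q.ord φ + 1))))
  have := (k h).resolve_left φ0
  linarith

/-- the vertical poles are removed by a function from the base -/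
theorem clear {T : Set (Pl K)} (hT : ∀ P ∈ T, Ov u P) (w : Pl K → ℤ) (S : Finset (Pl K))
    (h : ∀ P ∈ S, ∃ x ∈ Algebra.adjoin ℂ (u : Set K), x ≠ 0 ∧ 0 < P.ord x) :
    ∃ x ∈ Algebra.adjoin ℂ (u : Set K), x ≠ 0 ∧ ∀ P ∈ T, P ∈ S → 0 ≤ P.ord x + w P := by
  classical
  induction S using Finset.induction_on with
  | empty => exact ⟨1, one_mem _, one_ne_zero, fun _ _ a => (Finset.notMem_empty _ a).elim⟩
  | insert E S _ ih =>
    obtain ⟨x, x1, x0, hx⟩ := ih fun P p => h P (Finset.mem_insert_of_mem p)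
    obtain ⟨z, z1, z0, hz⟩ := h E (Finset.mem_insert_self _ _)
    refine ⟨x * z ^ (w E).natAbs, mul_mem x1 (pow_mem z1 _), mul_ne_zero x0 (pow_ne_zero _ z0),
      fun P p m => ?_⟩
    have a1 := Pl.ord_nonneg_of_mem _ (Br.adj_le (hT P p) x1)
    have a2 := Pl.ord_nonneg_of_mem _ (Br.adj_le (hT P p) z1)
    rw [Pl.ord_mul _ x0 (pow_ne_zero _ z0), Pl.ord_pow]
    rcases Finset.mem_insert.1 m with rfl | m
    · nlinarith [neg_abs_le (w P), Int.natCast_natAbs (w P), abs_nonneg (w P)]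
    · nlinarith [hx P p m, mul_nonneg (Int.natCast_nonneg (w E).natAbs) a2]

theorem hz0 (hq : 0 < q) (n0 : 0 < n₀) (x : Dy n q ε u Λ Γ Γ' y D s a h₀ g e₀ b)
    (G : Gen n n₀ u Λ Γ) (Q : Pl K) (hQ : ∀ x ∈ Sp s a 0, x ≠ 0 → Q.ord x = 0) :
    MN q n₀ y s a (h₀ ^ q * g) ((q : ℤ) • e₀ + b) Q := by
  obtain ⟨φ, φ0, H⟩ := G
  obtain ⟨h0, e⟩ := Hwr.eqv' x
  generalize h₀ ^ q * g = h at h0 e
  generalize (q : ℤ) • e₀ + b = δ at e
  have q' : (0 : ℝ) < q := Nat.cast_pos.2 hq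
  have n' : (0 : ℝ) < n₀ := Nat.cast_pos.2 n0
  have ψ0 : φ ^ q / h ^ n₀ ≠ 0 := div_ne_zero (pow_ne_zero _ φ0) (pow_ne_zero _ h0)
  have o : ∀ P : Pl K, P.ord (φ ^ q / h ^ n₀) = q * P.ord φ - n₀ * P.ord h := fun P => by
    rw [Pl.ord_div _ (pow_ne_zero _ φ0) (pow_ne_zero _ h0), Pl.ord_pow, Pl.ord_pow]
  let w : Pl K → ℤ := fun P => P.ord (φ ^ q / h ^ n₀) + -((n₀ : ℤ) • δ) ⬝ᵥ D P
  have f : {P | P ∈ Tt n u Λ ∧ w P < 0}.Finite :=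
    (x.cox.fin _ _).subset fun P p => ⟨p.1, p.2.ne⟩
  obtain ⟨z, z1, z0, hz⟩ := clear (T := Tt n u Λ) (fun P p => p.1) w f.toFinset fun P p => by
    obtain ⟨p, l⟩ := f.mem_toFinset.1 p
    by_contra c
    push Not at c
    have k := (H P fun z a b => (c z a b).antisymm
      (Pl.ord_nonneg_of_mem _ (Br.adj_le p.1 a))).1 p.2
    have k' := e P p
    rw [Pi.smul_apply, smul_eq_mul] at k'
    rw [le_inv_mul_iff₀ n', dv_apply] at k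
    simp only [w, o, neg_dotProduct, smul_dotProduct, smul_eq_mul] at l
    have l' := Int.cast_lt (R := ℝ).2 l
    push_cast at l' k'
    nlinarith
  have sp : ∀ z ∈ Algebra.adjoin ℂ (u : Set K), z ≠ 0 → z ∈ Sp s a 0 := fun z a b =>
    (x.cox.sec 0 z b).2 fun P p => by simpa using Pl.ord_nonneg_of_mem _ (Br.adj_le p.1 a)
  obtain ⟨c, c1, c2⟩ := pickK x.cox.ne ((x.cox.sec (-((n₀ : ℤ) • δ)) _ (mul_ne_zero z0 ψ0)).2
    fun P p => by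
      rw [Pl.ord_mul _ z0 ψ0, add_assoc]
      by_cases c : w P < 0
      · exact hz P p (f.mem_toFinset.2 ⟨p, c⟩)
      · exact add_nonneg (Pl.ord_nonneg_of_mem _ (Br.adj_le p.1 z1)) (not_lt.1 c))
    (mul_ne_zero z0 ψ0) Q
  refine ⟨c, c1, ?_⟩
  have k := (H Q fun z a b => hQ z (sp z a b) b).2
  rw [Pl.ord_mul _ z0 ψ0, hQ z (sp z z1 z0) z0, zero_add, o] at c2
  have c3 := Int.cast_le (R := ℝ).2 c2
  rw [dsc, x.cn, Pi.sub_apply, Pi.smul_apply, smul_eq_mul, dv_apply, lt_sub_comm,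
    inv_mul_lt_iff₀ n'] at k
  rw [ld, sub_pos, div_lt_iff₀ (by positivity), Pl.ord_mul _ (pow_ne_zero _ h0)
    (Finset.prod_ne_zero_iff.2 fun j _ => pow_ne_zero _ (x.cox.ne j)), Pl.ord_pow]
  push_cast at c3 ⊢
  nlinarith

end

open Vale.Agent.P289 (Pt DForm)
open Vale.Agent.P283M.Stm Vale.Agent.P283M.Stm.Var Vale.Agent.P283M.Br Vale.Agent.P283M.Am

/-- the scheme side -/
theorem gen_of {X Z : Var} {n n₀ : ℕ} {f : X.X ⟶ Z.X} {ω : DForm ℂ X.K (n + 1)} {B : X.QDiv}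
    {z z' : Pt Z.X} (hK : FF X.K (n + 1)) (hω : ω.Nonzero) (hf : Contraction f) {V : Z.X.Opens}
    {u : Finset X.K} (bs : Base f V z u) {Λ Γ : BD X.K}
    (on : ∀ (P : Pl X.K) (x : Pt X.X), x ∈ f ⁻¹ᵁ V → Dom P.ring x → (On n Λ P ↔ x.CodimOne))
    (cf : ∀ (P : Pl X.K) (E : X.PrimeDiv), E.1 ∈ f ⁻¹ᵁ V → Dom P.ring E.1 →
      dsc (n + 1) Γ P = -(B E : ℝ)) (n0 : 0 < n₀) (H : HasKltComplement f ω B n₀ z') :
    Gen n n₀ u Λ Γ := by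
  obtain ⟨U, L, φ, zU, le, pr, lq⟩ := H
  obtain ⟨h, h0, fr⟩ := frm X _ hK ω hω
  obtain ⟨x₀, hx₀⟩ := hf.2.2.1.surj z
  obtain ⟨x₁, hx₁⟩ := hf.2.2.1.surj z'
  have φ0 := (lq x₁ (show f x₁ ∈ U from hx₁ ▸ zU)).1
  have : Nonempty ↑(f ⁻¹ᵁ V) := ⟨⟨x₀, show f x₀ ∈ V from hx₀ ▸ bs.mem⟩⟩
  have := hf.2.2.2 V
  refine ⟨φ / h ^ n₀, div_ne_zero φ0 (pow_ne_zero _ h0), fun P hP => ?_⟩
  obtain ⟨x, hx, dm⟩ := bs.ctr P.ring P.con fun a ha => by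
    by_cases a0 : a = 0
    · rw [a0]; exact zero_mem _
    · exact (Pl.ord_nonneg_iff _ a0).1 (hP a (Algebra.subset_adjoin ha) a0).ge
  have xU : x ∈ f ⁻¹ᵁ U := by
    obtain ⟨w, w1, w2⟩ := nonempty_preirreducible_inter V.isOpen U.isOpen ⟨z, bs.mem⟩ ⟨z', zU⟩
    obtain ⟨r, r1, r2⟩ := bs.aff.exists_basicOpen_le (V := U) ⟨w, w2⟩ w1
    have r0 : pl f V r ≠ 0 := fun e => by
      rw [pl_inj f V (e.trans (map_zero _).symm), Scheme.basicOpen_zero] at r2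
      exact r2
    have rg := mem_reg.1 (pl_reg f V r)
    refine r1 ((un_pl hx r).1 ⟨r0, rg x hx, (dm _ (rg x hx)).2 r0 ?_⟩)
    exact ((Pl.ord_eq_zero_iff _ r0).1 (hP _ (bs.con _ rg) r0)).2
  refine ⟨fun o => ?_, ?_⟩
  · have k1 := cf P ⟨x, (on P x hx dm).1 o⟩ hx dm
    have k2 := Br.coef' fr n0 h0 (E := ⟨x, (on P x hx dm).1 o⟩) (lq x xU) dm
    have k3 := Rat.cast_le (K := ℝ).2 (le ⟨x, (on P x hx dm).1 o⟩ xU)
    simp only [dsc, Pi.sub_apply, Pi.smul_apply, smul_eq_mul] at k1 k2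
    linarith
  · obtain ⟨M, E, rfl, i⟩ := mod X P x dm
    have o := (plc X M.Y M.pull (mdc X M).1 E).2 P i
    have := pr.2.2 M E xU n₀ φ n0 (lq _ xU)
    rw [fr _ _ E P i o, o] at this
    rw [Br.dsc_eq n0 φ0 h0]
    have k : (0 : ℝ) < _ := this
    linarith

end Vale.Agent.P283R.Cx
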