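import Vale.Agent.P283R.Cx.Ga

/-!
# P283R: finite generation of the rings of sections, the scheme side
-/

open Set CategoryTheory AlgebraicGeometry

noncomputable section

namespace Vale.Agent.P283R.Cx

open Vale.Agent.P287D Vale.Agent.P283M Vale.Agent.P297Z MvPolynomial

/-- **UT**: finite generation on the tier -/
def UT : Prop := ∀ (n : ℕ) (K : Type) [Field K] [Algebra ℂ K] (u : Finset K) (Λ Γ Γ' : BD K)
  (k : ℕ) (D : Pl K → Fin k → ℤ), Dat n u Λ Γ Γ' → (∀ i, {P | P ∈ Tt n u Λ ∧ D P i ≠ 0}.Finite) →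
    ∃ (N : ℕ) (s : Fin N → K) (a : Fin N → Fin k → ℤ), ∀ e φ, φ ≠ 0 →
      (φ ∈ Sp s a e ↔ ∀ P ∈ Tt n u Λ, 0 ≤ P.ord φ + e ⬝ᵥ D P)

theorem gen_of_sp {K : Type} [Field K] [Algebra ℂ K] {k N : ℕ} (s : Fin N → K)
    (a : Fin N → Fin k → ℤ) : Sl.GradedGen N fun e => (Sp s a e : Set K) := by
  classical
  let π : MvPolynomial (Fin N) ℂ →ₐ[ℂ] AddMonoidAlgebra K (Fin k → ℤ) :=
    aeval fun j => .single (a j) (s j)
  have g : ∀ j, π (X j) = .single (a j) (s j) := fun j => aeval_X _ j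
  have mo : ∀ (m : Fin N →₀ ℕ) (r : ℂ), π (monomial m r) = .single (dg a m) (r • ∏ j, s j ^ m j) :=
    fun m r => by
    rw [monomial_eq, Finsupp.prod_fintype _ _ (by simp), C_mul', map_smul, map_prod]
    simp only [map_pow, g, AddMonoidAlgebra.single_pow, AddMonoidAlgebra.prod_single,
      AddMonoidAlgebra.smul_single]
    congr 1
    funext i
    simp [dg, Finset.sum_apply]
  refine ⟨s, a, π, g, fun F => ⟨?_, fun h => ?_⟩⟩
  · rintro ⟨p, rfl⟩ e
    induction p using induction_on' with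
    | monomial m r =>
      rw [mo, AddMonoidAlgebra.coeff_single, Finsupp.single_apply]
      split_ifs with z
      exacts [z ▸ Submodule.smul_mem _ _ (mon_mem s a m), zero_mem (Sp s a e)]
    | add p q hp hq => rw [map_add]; exact add_mem hp hq
  · have : ∀ e, ∀ φ ∈ Sp s a e, AddMonoidAlgebra.single e φ ∈ π.range := fun e φ hφ => by
      induction hφ using Submodule.span_induction with
      | mem x hx =>
        obtain ⟨m, rfl, rfl⟩ := hx
        exact ⟨monomial (Finsupp.equivFunOnFinite.symm m) 1, (mo _ _).trans (by rw [one_smul]; rfl)⟩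
      | zero => exact ⟨0, by simp⟩
      | add x y _ _ hx hy => rw [AddMonoidAlgebra.single_add]; exact add_mem hx hy
      | smul r x _ hx => rw [← AddMonoidAlgebra.smul_single]; exact Subalgebra.smul_mem _ hx _
    rw [← F.sum_coeff_single]
    exact (sum_mem fun e _ => this e _ (h e) : _ ∈ π.range)

end Vale.Agent.P283R.Cx

namespace Vale.Agent.P283R.Cox

open Vale.Agent.P289 (Pt St toRat DForm dimension)
open Vale.Agent.P287D Vale.Agent.P283M.Stm Vale.Agent.P283M.Stm.Var Vale.Agent.P297Z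
open Vale.Agent.P283M Vale.Agent.P283M.Br Vale.Agent.P283R.Sch

theorem schU (h : Cx.UT) {X Z : Var} {n k : ℕ} {f : X.X ⟶ Z.X} {z : Pt Z.X} {V : Z.X.Opens}
    {ω : DForm ℂ X.K (n + 1)} (hdim : dimension X.str = (n + 1 : ℕ)) (hω : ω.Nonzero)
    (hf : Contraction f) (hF : FanoType f ω) (hz : IsClosed ({z} : Set (Pt Z.X)))
    (hV : IsAffineOpen V) (zV : z ∈ V) (D : Fin k → X.PrimeDiv →₀ ℤ) :
    ∃ N, Sl.GradedGen N fun m => {φ : X.K | φ ≠ 0 →
      ∀ E : X.PrimeDiv, E.1 ∈ f ⁻¹ᵁ V → 0 ≤ ord φ E + ∑ i, m i * D i E} := by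
  obtain ⟨u, bs⟩ := basV hf hz hV zV
  have hK := ffd X _ hdim
  obtain ⟨C, hC, hA⟩ := id hF
  obtain ⟨Λ, Γ, Γ', a, on, -⟩ := dataW (ε := 0) (B := C) hK hω
    ⟨hC.1, hC.2.1, fun Y E c r w r0 t => (hC.2.2 Y E c r w r0 t).le⟩ hf hF bs
  choose Q e o using pl_of (X := X) plc
  obtain ⟨N, s, w, H⟩ := h n X.K u Λ Γ Γ' k (fun P i => up (D i) P) a fun i =>
    ((D i).support.finite_toSet.image Q).subset (by
      rintro P ⟨⟨a, b⟩, c⟩
      obtain ⟨x, hx, dm⟩ := bs.ctr P.ring P.con a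
      rw [up_eq (E := ⟨x, (on P x hx dm).1 b⟩) _ dm] at c
      refine ⟨_, Finsupp.mem_support_iff.2 c, Pl.ext' (congrArg _ (Pl.eq_of_le'
        (v := (Q _).toPlace) (w := P.toPlace) fun g hg => (dm g ((e _ g).1 hg)).1))⟩)
  refine ⟨N, (congrArg (Sl.GradedGen N) (funext fun m => Set.ext fun φ => ?_)).mp
    (Cx.gen_of_sp s w)⟩
  by_cases z : φ = 0
  · exact iff_of_true (z ▸ zero_mem (Cx.Sp s w m)) fun c => (c z).elim
  · refine (H m φ z).trans ⟨fun t _ => ?_, fun t P c => ?_⟩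
    · exact (all_iff bs on (q := fun P => 0 ≤ P.ord φ + cf (fun i => up (D i)) m P)
        fun P E _ dm => by rw [cf_eq D m dm, ord_eq dm]).2 fun P b c => t P ⟨b, c⟩
    · exact (all_iff bs on (q := fun P => 0 ≤ P.ord φ + cf (fun i => up (D i)) m P)
        fun P E _ dm => by rw [cf_eq D m dm, ord_eq dm]).1 (t z) P c.1 c.2

end Vale.Agent.P283R.Cox

namespace Vale.Agent.P283R.Sl

theorem un_of (h : Cx.UT) : UN := fun d X Z f ω z hd a b s u t k D => by
  obtain ⟨n, rfl⟩ : ∃ n, d = n + 1 := ⟨d - 1, by omega⟩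
  obtain ⟨V, hV, zV, -⟩ := exists_isAffineOpen_mem_and_subset (X := Z.X) (x := z) (U := ⊤) trivial
  obtain ⟨N, w⟩ := Cox.schU h (X := X.o) (Z := Z.o) a b s ((fanoType_iff f ω).1 u) t hV zV D
  exact ⟨V, N, hV, zV, w⟩

end Vale.Agent.P283R.Sl
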