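import Vale.Agent.P283R.H.Hk

/-!
# P283R, block CX: the lower bound goes up, precise form
-/

open Set
open Vale.Agent.P297Z

noncomputable section

namespace Vale.Agent.P283R.H

open Vale.Agent.P287D Vale.Agent.P283M

/-- **HKP**: klt through the centre of `E`, the bound `ε` only at the centre of `E` -/
def HKP : Prop := ∀ (N c : ℕ) (K L : Type) [Field K] [Algebra ℂ K] [Field L] [Algebra ℂ L]
  (T : Subalgebra ℂ K) (u : Finset K) (ρ : T →ₐ[ℂ] L) (Φ : Fin (c + 1) → K) (E : Pl K)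
  (y' : Fin N → K) (y : Fin N → L) (M : ℕ) (ψ : K) (ψ₀ : L) (ε δ : ℝ), Ci N T u ρ Φ E → 0 < N →
    0 < ε → 0 < δ → AlgebraicIndependent ℂ y → (∀ j, Lf T ρ (y' j) (y j)) → Lf T ρ ψ ψ₀ → ψ₀ ≠ 0 →
    (∃ s : T, ρ s ≠ 0 ∧ E.rd s = 0) →
    (∀ P, Tru T E P → Cb.Sp P T → ldk Φ y' M ψ P + δ * ∑ i, (P.ord (Φ i) : ℝ) ≤ 1) →
    (∀ R : Pl L, (∀ s : T, ρ s ∈ R.ring ∧ (R.rd (ρ s) = 0 → E.rd s = 0)) → 0 < ld y M ψ₀ R) →
    (∀ R : Pl L, (∀ s : T, ρ s ∈ R.ring ∧ (R.rd (ρ s) = 0 ↔ E.rd s = 0)) → ε ≤ ld y M ψ₀ R) →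
    min ε 1 ≤ ldk Φ y' M ψ E

theorem hkp_of (one : ONE) (ree : REE) (upq : UPQ) (gau : GA2) (adk : ADK) : HKP := by
  intro N c K L _ _ _ _ T u ρ Φ E y' y M ψ ψ₀ ε δ ci N0 ε0 δ0 hy ly lψ ψ0 ⟨s₀, s1, s2⟩ bdy klt eps
  obtain ⟨n, hn⟩ : ∃ n, N + c = n + 1 := ⟨N + c - 1, by omega⟩
  have hK : FF K (n + 2) := by
    have := ci.ff
    rwa [← add_assoc, hn] at this
  have mr : ∀ P, Tru T E P → ∀ i, Φ i ∈ P.ring := fun P h i =>
    let ⟨x, e, _⟩ := ci.mem i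
    e ▸ (h x).1
  have w0 : ∀ i, 0 < E.ord (Φ i) := fun i =>
    ((Bm.rd_zero_iff E (mr E ci.tru i)).1 (ci.van i)).resolve_left (ci.ne i)
  obtain ⟨a, ha, D, hD⟩ : ∃ a : Fin (c + 1) → ℕ, (∀ i, 0 < a i) ∧ ∃ D, ∀ i,
      E.ord (Φ i ^ a i) = D := by
    have p : ∀ i, 0 < (E.ord (Φ i)).toNat := fun i => by have := w0 i; omega
    have d := fun i => Finset.dvd_prod_of_mem (fun i => (E.ord (Φ i)).toNat) (Finset.mem_univ i)
    refine ⟨fun i => (∏ j, (E.ord (Φ j)).toNat) / (E.ord (Φ i)).toNat, fun i => Nat.div_pos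
      (Nat.le_of_dvd (Finset.prod_pos fun j _ => p j) (d i)) (p i),
      (∏ j, (E.ord (Φ j)).toNat : ℕ), fun i => ?_⟩
    have k := congrArg (Nat.cast : ℕ → ℤ) (Nat.div_mul_cancel (d i))
    rw [Nat.cast_mul, Int.toNat_of_nonneg (w0 i).le] at k
    rw [Pl.ord_pow]
    exact k
  obtain ⟨bu, tr, ⟨P, on, cl, ng⟩, all⟩ := ree (n + 1) N c K L T u ρ Φ E a y ci hn ha hy
  obtain ⟨q, q0, q1⟩ := exists_rat_btwn δ0
  set Λ := inf u + mx (tau Φ a)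
  have sΛ : Smp Λ := (Kl.inf_smp u).add (smp_mx _)
  have dm : Dsc Λ (mx (tau Φ a)) := .of_smp sΛ (smp_mx _) one_pos (by simpa [Λ] using Kl.inf_smp u)
  have dx : Dsc Λ (ex Φ a) := .sum sΛ _ fun i _ => ((Dsc.dv sΛ _).add dm).smul _
  let Γ : BD K := fun R => cn K (n + 2) R + 1 - ldk Φ y' M ψ R
  have hΓ : ∀ R, 1 + dsc (n + 2) Γ R = ldk Φ y' M ψ R := fun R => by
    simp only [dsc, Pi.sub_apply, Γ]; ring
  have e1 : ∀ R, dsc (n + 2) (Γ + (-q : ℝ) • ex Φ a) R = dsc (n + 2) Γ R + q * ex Φ a R :=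
    fun R => by rw [Pr.dsc_add_smul]; ring
  have un : ∀ {R ι}, Ree T ρ Φ a y R ι → ∀ i, R.ord (rat Φ a i) = 0 := fun {R _} r i => by
    have := mt (Bm.rd_zero_iff R (r.reg i)).2 (r.ind.ne_zero (.inl i))
    have := Pl.ord_nonneg_of_mem _ (r.reg i)
    omega
  have lc : ∀ {R ι}, Ree T ρ Φ a y R ι → dsc (n + 2) (Γ + (-q : ℝ) • ex Φ a) R = -1 :=
    fun {R ι} r => by
      rw [e1, ex_zero (gm_zero ci.ne (ord_rat ci.ne (un r))), mul_zero, add_zero]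
      exact ((adk (n + 1) N c K L T ρ Φ a y' y M ψ ψ₀ R ι hn hK ha r ly lψ ψ0).2 Γ hΓ).2.2.1
  obtain ⟨ι, r⟩ := ((all P on (tr P cl)).resolve_left fun k => ng.ne k.1).2
  obtain ⟨g1, g2, -, g3⟩ := (adk (n + 1) N c K L T ρ Φ a y' y M ψ ψ₀ P ι hn hK ha r ly lψ ψ0).2 Γ hΓ
  have hκ := Api.ffs.rsd _ K hK P
  obtain ⟨u1, u2⟩ := gau N c L P.κ ι y _ ci.ff' (hn ▸ hκ) r.ind
  have e2 : ∀ Q, dsc (n + 1) (adj (n + 1) P (Γ + (-q : ℝ) • ex Φ a)) Q =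
      dsc (n + 1) (adj (n + 1) P Γ) Q + q * res P (ex Φ a) Q := fun Q => by
    rw [(a4 _ K hK P Γ g2.car _ (Submodule.smul_mem _ _ ex_q.car)).1,
      Aj.res_smul hK P _ ex_q.car, Pr.dsc_add_smul]
    ring
  have rx := res_ex hK ci.ne ha (un r)
  have thr : ∀ Q R, Upq Λ P E Q → Lies ι.toRingHom Q R → ∀ s : T,
      ρ s ∈ R.ring ∧ (R.rd (ρ s) = 0 → E.rd s = 0) := fun Q R h l s => by
    have k := (upq N _ K L T u ρ Φ E _ P Q ci (tr P cl)).1 h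
    have m : ρ s ∈ R.ring := (l _).2 (by simpa [r.rd] using (k s).1)
    refine ⟨m, fun z => (k s).2 ((Bm.rd_zero_iff Q (k s).1).2 ?_)⟩
    rw [← r.rd]
    exact ((Bm.rd_zero_iff R m).1 z).imp (fun z => by rw [z, map_zero]) (l.ord_pos_iff _).2
  have ver : ∀ Q R, Upq Λ P E Q → Lies ι.toRingHom Q R →
      ld y M ψ₀ R ≤ dsc (n + 1) (adj (n + 1) P (Γ + (-q : ℝ) • ex Φ a)) Q + 1 :=
    fun Q R h l => by
    have k1 := klt R (thr Q R h l)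
    have k2 := u1 Q R l
    have k3 : (1 : ℝ) ≤ Q.ord (ι R.t) := by exact_mod_cast l.e_pos
    have k4 : (Q.ord (ι ψ₀) : ℝ) = Q.ord (ι R.t) * R.ord ψ₀ := by exact_mod_cast l.ord ψ₀
    have k5 := mul_nonneg q0.le (rx Q).1
    have k6 := le_mul_of_one_le_left k1.le k3
    rw [e2, g3, k4]
    refine k6.trans ?_
    rw [ld, mul_sub, ← mul_div_assoc]
    linarith
  have dich := fun Q => Api.pb.lies N (n + 1) L P.κ ι.toRingHom ci.ff' hκ ι.commutes Q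
  by_contra hc
  rw [not_le, lt_min_iff, ← hΓ] at hc
  have eE : dsc (n + 2) (Γ + (-q : ℝ) • ex Φ a) E = dsc (n + 2) Γ E := by
    rw [e1, ex_zero (gm_zero ci.ne hD), mul_zero, add_zero]
  have i0 : ι (ρ s₀) ≠ 0 := (map_ne_zero ι).2 s1
  obtain ⟨Q, v1, v2, v3⟩ := one n K hK Λ (Γ + (-q : ℝ) • ex Φ a) (-mx (tau Φ a)) P E sΛ
    (bu.add_smp (smp_mx _)) (g2.add (by simpa using (ex_q (Φ := Φ) (a := a)).qsmul (-q)))
    ((Dsc.of_prn sΛ g1).add (dx.smul _)) (carQ_mx _).neg dm.neg on (lc r)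
    (fun z => i0 (by rw [r.rd, ← z]; exact s2)) cl (neg_pos.2 ng)
    (fun R x z => by
      rcases all R z (tr R x) with ⟨k, k'⟩ | ⟨k, j, k'⟩
      · have b := bdy R (tr R x) k'
        have : (0 : ℝ) ≤ ∑ i, (R.ord (Φ i) : ℝ) := Finset.sum_nonneg fun i _ =>
          Int.cast_nonneg (Pl.ord_nonneg_of_mem _ (mr R (tr R x) i))
        rw [e1, ex_off ha k, Pi.neg_apply, k, neg_zero]
        refine ⟨?_, le_rfl, fun z => absurd z (lt_irrefl _)⟩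
        linarith [hΓ R, mul_le_mul_of_nonneg_right q1.le this]
      · exact ⟨by rw [lc k']; norm_num, (neg_pos.2 k).le, fun _ => lc k'⟩)
    (fun Q h => by
      rcases dich Q with t | ⟨R, l⟩
      · obtain ⟨t1, t2⟩ := u2 Q t
        have o : Q.ord (ι ψ₀) = 0 := by
          have a1 := Pl.ord_nonneg_of_mem _ (t ψ₀)
          have a2 := Pl.ord_nonneg_of_mem _ (t ψ₀⁻¹)
          rw [map_inv₀, Pl.ord_inv] at a2
          exact le_antisymm (neg_nonneg.1 a2) a1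
        rw [e2, g3, o, Int.cast_zero, zero_div]
        rcases (rx Q).1.eq_or_lt with z | z
        · have z' := (rx Q).2 z.symm
          have := t2 z'
          simp only [z', ← z, Int.cast_zero, Finset.sum_const_zero]
          linarith
        · linarith [mul_pos q0 z]
      · linarith [ver Q R h l, klt R (thr Q R h l)])
    (by rw [eE]; linarith [hc.2])
  rcases dich Q with t | ⟨R, l⟩
  · have k := upq N _ K L T u ρ Φ E (tau Φ a) P Q ci (tr P cl)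
    have k1 := (Bm.rd_zero_iff Q (k.1 v1 s₀).1).1 (k.2 v1 v2 s₀ s2)
    rw [← r.rd] at k1
    have a2 := Pl.ord_nonneg_of_mem _ (t (ρ s₀)⁻¹)
    rw [map_inv₀, Pl.ord_inv] at a2
    exact (k1.resolve_left i0).not_ge (neg_nonneg.1 a2)
  · have k := upq N _ K L T u ρ Φ E (tau Φ a) P Q ci (tr P cl)
    have k1 := eps R fun s => ⟨(thr Q R v1 l s).1, (thr Q R v1 l s).2, fun z => by
      have k2 := (Bm.rd_zero_iff Q (k.1 v1 s).1).1 (k.2 v1 v2 s z)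
      rw [← r.rd] at k2
      exact (Bm.rd_zero_iff R (thr Q R v1 l s).1).2
        (k2.imp (map_eq_zero ι).1 (l.ord_pos_iff _).1)⟩
    linarith [ver Q R v1 l, hc.1]

end Vale.Agent.P283R.H
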