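import Vale.Agent.P283R.H.Acr1

/-!
# P283R, block CX: complete intersections, the hypothesis (H) at one point only
-/

set_option linter.all false

open Set
open Vale.Agent.P285N.Brep (jac Fr)
open Vale.Agent.P297Z

noncomputable section

namespace Vale.Agent.P283R.H

open Vale.Agent.P287D

/-- **HUPP**: `HUP1` with the bound `ε` only at `p`, and klt near `p` -/
def HUPP : Prop := ForH fun F F' _ _ _ _ S S' π p => ∀ (N c M : ℕ) (f : Fin c → S')
  (z : Fin M → F') (D' : Fin M → Derivation ℂ F' F') (h : Up N π p f z D') (y : Fin N → F) (j : F)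
  (A' : Subgroup (F' ≃ₐ[ℂ] F')) (A : Subgroup (F ≃ₐ[ℂ] F)) (g : S') (Q : ℕ) (ε : ℝ), 0 < c →
    p ≠ ⊥ → Frm y → j ≠ 0 → Rs π h.dim D' f y j → (∀ R, PDat S p R → kap y R = R.ord j) →
    Cor π p A' A → (∀ l, Eig A' (z l)) → (∀ i, Eig A' (f i : F')) → Eig A' (g : F') →
    (∀ i, Fix A (y i)) → π g ≠ 0 → 0 < Q → 0 < ε → ε ≤ 1 →
    (∀ q : Ideal S, q ≤ p → ∀ R, Cen S q R → 0 < ld y Q (j ^ Q * π g) R) →
    Hyp ε A S p y Q (j ^ Q * π g) →
    Hyp ε A' S' (p.comap π) z Q ((∏ i, (f i : F')) ^ Q * g)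

/-- **HUPK**: the pair is lc and the variety is klt near `p` -/
def HUPK : Prop := ForH fun F F' _ _ _ _ S S' π p => ∀ (N c M : ℕ) (f : Fin c → S')
  (z : Fin M → F') (D' : Fin M → Derivation ℂ F' F') (h : Up N π p f z D') (y : Fin N → F) (j : F)
  (A' : Subgroup (F' ≃ₐ[ℂ] F')) (A : Subgroup (F ≃ₐ[ℂ] F)) (g : S') (Q : ℕ) (ε : ℝ), 0 < c →
    p ≠ ⊥ → Frm y → j ≠ 0 → Rs π h.dim D' f y j → (∀ R, PDat S p R → kap y R = R.ord j) →
    Cor π p A' A → (∀ l, Eig A' (z l)) → (∀ i, Eig A' (f i : F')) → Eig A' (g : F') →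
    (∀ i, Fix A (y i)) → π g ≠ 0 → 0 < Q → 0 < ε → ε ≤ 1 →
    (∀ q : Ideal S, q ≤ p → ∀ R, Cen S q R → 0 ≤ ld y Q (j ^ Q * π g) R ∧ 0 < ld y 1 j R) →
    Hyp ε A S p y Q (j ^ Q * π g) →
    Hyp ε A' S' (p.comap π) z Q ((∏ i, (f i : F')) ^ Q * g)

/-- the pair is lc and the variety is klt near `p`; `h` is the equation of `Q B` -/
def Lk {F : Type} [Field F] [Algebra ℂ F] {N : ℕ} (Q : ℕ) (S : Subalgebra ℂ F) (p : Ideal S)
    (y : Fin N → F) (m : ℕ) (g h : F) : Prop :=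
  ∀ q : Ideal S, q ≤ p → ∀ R, Cen S q R → 0 ≤ ld y m g R ∧ 0 < ld y m g R + R.ord h / Q

/-- **ACL**: complete intersections, (H) at `p` only -/
def ACL (c : ℕ) : Prop := ∀ (N Q : ℕ) (ε : ℝ), 0 < Q → 0 < ε → ∃ J : ℕ, Unif Q fun n =>
  ∀ (F F' : Type) [Field F] [Algebra ℂ F] [Field F'] [Algebra ℂ F'] (G : Subgroup (F ≃ₐ[ℂ] F))
    (S : Subalgebra ℂ F) (G' : Subgroup (F' ≃ₐ[ℂ] F')) (S' : Subalgebra ℂ F') (π : S' →ₐ[ℂ] S)
    (f : Fin c → S') (p : Ideal S) (y : Fin N → F) (m : ℕ) (g h : F), Pr N G S y m g →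
    Lci N G S G' S' π f → p.IsPrime → Eqn Q S p y m g h → Hyp ε G S p y m g →
    Lk Q S p y m g h → ∃ A, Idx J G A S p ∧ Sol n A S p (PDat S p) y m g

theorem ld_mix {F : Type} [Field F] [Algebra ℂ F] {N Q k : ℕ} (hQ : 0 < Q) {y : Fin N → F}
    {a g : F} (a0 : a ≠ 0) (g0 : g ≠ 0) (P : Pl F) :
    ld y (Q * (k + 1)) (a ^ (Q * (k + 1)) * g ^ k) P =
      ld y Q (a ^ Q * g) P + P.ord g / Q / (k + 1) := by
  have Q0 : (Q : ℝ) ≠ 0 := Nat.cast_ne_zero.2 hQ.ne'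
  have k0 : (k : ℝ) + 1 ≠ 0 := by positivity
  rw [ld, ld, Pl.ord_mul _ (pow_ne_zero _ a0) (pow_ne_zero _ g0),
    Pl.ord_mul _ (pow_ne_zero _ a0) g0, Pl.ord_pow, Pl.ord_pow, Pl.ord_pow]
  push_cast
  field_simp
  ring

theorem hupk_of (hup : HUPP) : HUPK := by
  intro F F' _ _ _ _ S S' π p N c M f z D' h y j A' A g Q ε hc p0 fr j0 rs kj cor ez ef eg fy g0
    hQ ε0 ε1 lk hy P cP e e0 dv
  have g1 : ((π g : S) : F) ≠ 0 := fun k => g0 (Subtype.ext k)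
  have g2 : (g : F') ≠ 0 := fun k => g0 (by rw [ZeroMemClass.coe_eq_zero.1 k, map_zero])
  have pf : (∏ i, (f i : F')) ≠ 0 := Finset.prod_ne_zero_iff.2 fun i _ => Ac.f_ne j0 rs i
  have Q0 : (0 : ℝ) < Q := Nat.cast_pos.2 hQ
  have nn : ∀ q R, Cen S q R → ∀ k : ℕ, (0 : ℝ) ≤ R.ord ((π g : S) : F) / Q / (k + 1) :=
    fun q R cq k => by
      have : (0 : ℝ) ≤ R.ord ((π g : S) : F) :=
        Int.cast_nonneg (Pl.ord_nonneg_of_mem _ (cq (π g)).1)
      positivity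
  have key : ∀ k : ℕ, ε * e ≤ ld z Q ((∏ i, (f i : F')) ^ Q * g) P + P.ord g / Q / (k + 1) :=
    fun k => by
      have e1 : ((π (g ^ k) : S) : F) = (π g : S) ^ k := by rw [map_pow]; rfl
      have := hup F F' S S' π p N c M f z D' h y j A' A (g ^ k) (Q * (k + 1)) ε hc p0 fr j0 rs kj
        cor ez ef (fun σ hσ => let ⟨x, hx⟩ := eg σ hσ
          ⟨x ^ k, by rw [SubmonoidClass.coe_pow, map_pow, hx, smul_pow]⟩) fy
        (by rw [map_pow]; exact pow_ne_zero _ g0) (Nat.mul_pos hQ k.succ_pos) ε0 ε1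
        (fun q hq R cq => by
          obtain ⟨a, b⟩ := lk q hq R cq
          rw [e1, ld_mix hQ j0 g1]
          rcases (nn q R cq k).eq_or_lt with t | t
          · have t' : (R.ord ((π g : S) : F) : ℝ) = 0 := by
              have := t.symm
              rw [div_eq_zero_iff, div_eq_zero_iff] at this
              exact (this.resolve_right (by positivity)).resolve_right Q0.ne'
            rw [← t, ld, Pl.ord_mul _ (pow_ne_zero _ j0) g1, Pl.ord_pow]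
            rw [ld, Nat.cast_one, div_one] at b
            push_cast
            rw [t', add_zero, add_zero, mul_div_cancel_left₀ _ Q0.ne']
            linarith
          · linarith)
        (fun R cq e e0 dv => by
          rw [e1, ld_mix hQ j0 g1]
          linarith [hy R cq e e0 dv, nn p R cq k]) P cP e e0 dv
      rwa [SubmonoidClass.coe_pow, ld_mix hQ pf g2] at this
  refine le_of_forall_pos_lt_add fun η η0 => ?_
  obtain ⟨k, hk⟩ := exists_nat_gt ((P.ord (g : F') : ℝ) / Q / η)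
  have : (P.ord (g : F') : ℝ) / Q / (k + 1) < η := by
    rw [div_lt_iff₀ η0] at hk
    rw [div_lt_iff₀ (by positivity)]
    nlinarith
  linarith [key k]

section

variable {F : Type} [Field F] [Algebra ℂ F] {N : ℕ} {S : Subalgebra ℂ F}

/-- the local form of the pair -/
theorem near (hrt : HRT) {Q m : ℕ} (hQ : 0 < Q) {G : Subgroup (F ≃ₐ[ℂ] F)} {p : Ideal S}
    (pri : p.IsPrime) {y : Fin N → F} {g h j : F} (pr : Pr N G S y m g) (eq : Eqn Q S p y m g h)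
    (j0 : j ≠ 0) (kj : ∀ R, PDat S p R → kap y R = R.ord j) {q : Ideal S} (hq : q ≤ p) {P : Pl F}
    (hP : Cen S q P) : (P.ord g : ℝ) / m = P.ord j + P.ord h / Q := by
  have h0 : h ≠ 0 := eq.2.1
  have g0 := pr.ne
  have m0 : (m : ℝ) ≠ 0 := Nat.cast_ne_zero.2 pr.pos.ne'
  have Q0 : (Q : ℝ) ≠ 0 := Nat.cast_ne_zero.2 hQ.ne'
  have d0 : j ^ (m * Q) * h ^ m ≠ 0 := mul_ne_zero (pow_ne_zero _ j0) (pow_ne_zero _ h0)
  have ou : ∀ P : Pl F, P.ord (g ^ Q / (j ^ (m * Q) * h ^ m)) =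
      Q * P.ord g - (m * Q * P.ord j + m * P.ord h) := fun P => by
    rw [Pl.ord_div _ (pow_ne_zero _ g0) d0, Pl.ord_mul _ (pow_ne_zero _ j0) (pow_ne_zero _ h0),
      Pl.ord_pow, Pl.ord_pow, Pl.ord_pow]
    push_cast; ring
  have oR : ∀ R, PDat S p R → R.ord (g ^ Q / (j ^ (m * Q) * h ^ m)) = 0 := fun R hR => by
    have := eq.2.2 R hR
    rw [ld, kj R hR] at this
    field_simp at this
    have e : ((Q * R.ord g - (m * Q * R.ord j + m * R.ord h) : ℤ) : ℝ) = 0 := by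
      push_cast; linarith
    rw [ou]; exact_mod_cast e
  have H := (hrt _ F S pr.aff pr.nor).2.2.1 p pri
  have lo : ∀ a ∈ Lo S p, a ∈ P.ring := fun a ⟨s, t, ht, e⟩ =>
    A0r.lo_ring hP ⟨s, t, fun k => ht (hq k), e⟩
  have e := Pl.ord_unit P.toPlace (lo _ (H _ fun R hR => Cb.mem_ord (oR R hR).ge))
    (lo _ (H _ fun R hR => Cb.inv_mem_ord (oR R hR)))
  rw [ou] at e
  have e' : (Q : ℝ) * P.ord g - (m * Q * P.ord j + m * P.ord h) = 0 := by exact_mod_cast e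
  field_simp
  linarith

end

theorem acl_zero (a0 : P283R.A0) : ACL 0 := by
  intro N Q ε hQ hε
  obtain ⟨J, n₀, pos, H⟩ := a0 N Q ε hQ hε
  refine ⟨J, n₀, pos, fun n hn dn dQ F F' _ _ _ _ G S G' S' π f p y m g h pr l pri eq hy _ => ?_⟩
  have inj : Function.Injective π := by
    rw [RingHom.injective_iff_ker_eq_bot, l.ker, range_eq_empty, Ideal.span_empty]
  have := l.sm
  exact H n hn dn dQ F G S p y m g h pr
    (Algebra.Smooth.of_equiv (AlgEquiv.ofBijective π ⟨inj, l.sur⟩)) pri eq hy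

theorem acl_pos (pt : PT) (eig : EIG) (sem : SEM) (hrt : HRT) (der : DER) (gen : GEN) (res : RES)
    (chr : CHR) (bck : BCK) (hup : HUPK) {c : ℕ} (hc : 0 < c) : ACL c := by
  intro N Q ε hQ hε
  obtain ⟨J, hJ⟩ := eig (N + c)
  have ε0 : 0 < min ε 1 := lt_min hε one_pos
  choose n₀ pos H using fun k => pt k Q (min ε 1) hQ ε0
  refine ⟨J, ∏ k ∈ Finset.range (N + c + 1), n₀ k, Finset.prod_pos fun k _ => pos k, ?_⟩
  intro n hn dn dQ F F' _ _ _ _ G S G' S' π f p y m g h pr l pri eq hy lk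
  have pri' : (p.comap π).IsPrime := Ideal.comap_isPrime π p
  obtain ⟨A', k, r, x, t, ix, com, par, hx, ht⟩ := hJ F' S' G' _ l.aff l.sm l.fin l.stab pri'
  have dim : N + c = k + r := Gm.ff_uniq par.aff.ff l.aff.ff
  have sA : Stab A' S' := fun σ hσ => l.stab σ (ix.le hσ)
  obtain ⟨idx, cor⟩ := Ac.idx pr.fin pr.stab l ix sA
  set A := Ac.img π G A' sA
  have prA : Pr N A S y m g := ⟨pr.aff, pr.nor, cor.fin, cor.stab,
    fun i σ hσ => pr.fy i σ (idx.le hσ), pr.fr, pr.pos, pr.ne, fun σ hσ => pr.fg σ (idx.le hσ)⟩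
  obtain ⟨h₁, eq', eh, hS⟩ := sem _ Q F S p A y m g h prA pri idx.inr eq
  obtain ⟨⟨f', f1, f2, f3⟩, lift⟩ := gen F F' S S' π p c f A' A l.aff.fg l.sur l.ker pri cor com
  obtain ⟨h', e', eh'⟩ := lift ⟨h₁, hS⟩ eh
  obtain rfl : h₁ = π h' := by rw [e']
  obtain ⟨D', fr, pre, -⟩ := der k r F' S' _ x t par
  have tA : ∀ i, Fix A' (t i : F') := fun i σ hσ => ht i σ (ix.le hσ)
  have up : Up N π p f' (Fin.append x fun i => (t i : F')) D' :=
    ⟨pr.aff, pr.nor, par.aff, l.sm, by omega, l.sur, pri, f1, f3, fr, fun a => by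
      refine Fin.addCases (fun a => ?_) (fun a => ?_) a
      · obtain ⟨s, -, e⟩ := par.mem a
        rw [Fin.append_left, ← e]; exact s.2
      · rw [Fin.append_right]; exact (t a).2, pre⟩
  obtain ⟨j, j0, rs, kj⟩ := res F F' S S' π p N c _ f' _ D' up y pr.fr
  have h1 : π h' ≠ 0 := fun e => eq'.2.1 (by rw [e]; rfl)
  have h2 : (h' : F') ≠ 0 := fun e => h1 (by rw [ZeroMemClass.coe_eq_zero.1 e, map_zero])
  have Q0 : (Q : ℝ) ≠ 0 := Nat.cast_ne_zero.2 hQ.ne'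
  have lq : ∀ q : Ideal S, q ≤ p → ∀ P, Cen S q P →
      ld y Q (j ^ Q * ((π h' : S) : F)) P = ld y m g P := fun q hq P hP => by
    rw [ld, ld, near hrt hQ pri pr eq' j0 kj hq hP, Pl.ord_mul _ (pow_ne_zero _ j0) eq'.2.1,
      Pl.ord_pow]
    push_cast; field_simp
  refine ⟨A, idx, Ac.core (ε := 0) hrt chr bck hQ hn dQ up par cor idx.le pr hx tA f2 eh' eq'
    j0 rs kj (fun q hq P hP e he dv => by rw [zero_mul]; exact (lk q hq P hP).1) fun p0 _ => ?_⟩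
  refine H k n hn ((Finset.dvd_prod_of_mem n₀ (Finset.mem_range.2 (by omega))).trans dn) dQ r F' S'
    _ x t A' _ par cor.fin' sA ix.inr hx tA ?_ ?_ ?_ (hup F F' S S' π p N c _ f' _ D' up y j A' A
      h' Q _ hc p0 pr.fr j0 rs kj cor (fun a => ?_) f2 eh' prA.fy h1 hQ ε0 (min_le_right _ _)
      (fun q hq R cq => ?_) fun P hP e he dv => ?_)
  · exact ⟨(∏ i, f' i) ^ Q * h', 1, (Ideal.ne_top_iff_one _).1 pri'.ne_top, by simp⟩
  · exact mul_ne_zero (pow_ne_zero _ (Finset.prod_ne_zero_iff.2 fun i _ => Ac.f_ne j0 rs i)) h2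
  · intro σ hσ
    choose β hβ using fun i => f2 i σ hσ
    obtain ⟨γ, hγ⟩ := eh' σ hσ
    refine ⟨(∏ i, β i) ^ Q * γ, ?_⟩
    simp only [map_mul, map_pow, map_prod, hβ, hγ, Algebra.smul_def, mul_pow,
      Finset.prod_mul_distrib]
    ring
  · refine Fin.addCases (fun a => ?_) (fun a => ?_) a
    · rw [Fin.append_left]; exact hx a
    · rw [Fin.append_right]; exact fun σ hσ => ⟨1, by rw [tA a σ hσ, one_smul]⟩
  · obtain ⟨a, b⟩ := lk q hq R cq
    refine ⟨lq q hq R cq ▸ a, ?_⟩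
    rw [ld, near hrt hQ pri pr eq j0 kj hq cq] at b
    rw [ld, Nat.cast_one, div_one]
    linarith
  · rw [lq p le_rfl P hP]
    exact le_trans (mul_le_mul_of_nonneg_right (min_le_left _ _) (Nat.cast_nonneg _))
      (hy P hP e he fun a a0 fa => dv a a0 fun σ hσ => fa σ (idx.le hσ))

/-- all codimensions -/
theorem acl_of (pt : PT) (eig : EIG) (sem : SEM) (hrt : HRT) (der : DER) (a0 : P283R.A0) (gen : GEN)
    (res : RES) (chr : CHR) (bck : BCK) (hup : HUPP) (c : ℕ) : ACL c :=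
  c.eq_zero_or_pos.elim (fun e => e ▸ acl_zero a0) fun hc =>
    acl_pos pt eig sem hrt der gen res chr bck (hupk_of hup) hc

end Vale.Agent.P283R.H
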