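import Vale.Agent.P283R.H.All0
import Vale.Agent.P283R.Cx.Hupp

/-!
# P283R, block CX: the precise forms, assembly
-/

namespace Vale.Agent.P283R.H

theorem hkp : HKP := hkp_of one66 ree upq (ga2_of gau) (adk_of mch)

theorem hupp : HUPP := hupp_of hkp tpd

theorem hupk : HUPK := hupk_of hupp

/-- all codimensions, (H) at one point -/
theorem acl (c : ℕ) : ACL c := acl_of Fin.pt eig Fin.sem hrt der Fin.a0 gen res chr bck hupp c

end Vale.Agent.P283R.H
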