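import Vale.Agent.P283R.Mi.Fin
import Vale.Agent.P283R.Mi.Bnd
import Vale.Agent.P283R.Cx.Acl0

/-!
# P283R, block CX: (H) at one point, any codimension
-/

set_option linter.all false

open Set
open Vale.Agent.P285N.Brep (jac Fr)
open Vale.Agent.P297Z

noncomputable section

namespace Vale.Agent.P283R.Mi

open Vale.Agent.P287D Dr13 H H.Re Bn

/-- **BNL**: the embedding dimension of an lc complete intersection -/
def BNL : Prop := ∀ (N c Q : ℕ) (F F' : Type) [Field F] [Algebra ℂ F] [Field F']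
  [Algebra ℂ F'] (G : Subgroup (F ≃ₐ[ℂ] F)) (S : Subalgebra ℂ F) (G' : Subgroup (F' ≃ₐ[ℂ] F'))
  (S' : Subalgebra ℂ F') (π : S' →ₐ[ℂ] S) (f : Fin c → S') (q : Ideal S) (y : Fin N → F) (m : ℕ)
  (g h : F), 0 < Q → Pr N G S y m g → Lci N G S G' S' π f → q.IsMaximal →
    Eqn Q S q y m g h → (∀ R, Cen S q R → 0 ≤ ld y m g R) →
    (∀ i, f i ∈ q.comap π ^ 2) → c ≤ N

/-- **ACLu**: complete intersections of any codimension, (H) at `p` only -/
def ACLu : Prop := ∀ (N Q : ℕ) (ε : ℝ), 0 < Q → 0 < ε → ∃ J : ℕ, Unif Q fun n =>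
  ∀ (c : ℕ) (F F' : Type) [Field F] [Algebra ℂ F] [Field F'] [Algebra ℂ F']
    (G : Subgroup (F ≃ₐ[ℂ] F)) (S : Subalgebra ℂ F) (G' : Subgroup (F' ≃ₐ[ℂ] F'))
    (S' : Subalgebra ℂ F') (π : S' →ₐ[ℂ] S) (f : Fin c → S') (p q : Ideal S) (y : Fin N → F)
    (m : ℕ) (g h : F), Pr N G S y m g → Lci N G S G' S' π f → p.IsPrime → q.IsMaximal → p ≤ q →
    Eqn Q S q y m g h → Hyp ε G S p y m g → Lk Q S q y m g h →
    ∃ A, Idx J G A S p ∧ Sol n A S p (PDat S p) y m g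

theorem bnl : BNL := by
  intro N c Q F F' _ _ _ _ G S G' S' π f q y m g h hQ pr l hq eq hy sq
  have pri := hq.isPrime
  have pri' : (q.comap π).IsPrime := Ideal.comap_isPrime π q
  obtain ⟨J, hJ⟩ := eig (N + c)
  obtain ⟨A', k, r, x, t, -, -, par, -, -⟩ := hJ F' S' G' _ l.aff l.sm l.fin l.stab pri'
  have dim : N + c = k + r := Gm.ff_uniq par.aff.ff l.aff.ff
  obtain ⟨D', fr, pre, -⟩ := der k r F' S' _ x t par
  have up : Up N π q f (Fin.append x fun i => (t i : F')) D' :=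
    ⟨pr.aff, pr.nor, par.aff, l.sm, by omega, l.sur, pri,
      fun i => (RingHom.mem_ker (f := π)).1 (l.ker ▸ Ideal.subset_span ⟨i, rfl⟩),
      fun a e => ⟨1, by simpa using (Ideal.ne_top_iff_one _).1 pri.ne_top, by
        rw [one_mul, ← l.ker]; exact e⟩, fr, fun a => by
      refine Fin.addCases (fun a => ?_) (fun a => ?_) a
      · obtain ⟨s, -, e⟩ := par.mem a
        rw [Fin.append_left, ← e]; exact s.2
      · rw [Fin.append_right]; exact (t a).2, pre⟩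
  obtain ⟨j, j0, rs, kj⟩ := res F F' S S' π q N c _ f _ D' up y pr.fr
  generalize (Fin.append x fun i => (t i : F')) = z at up rs
  clear fr pre dim
  generalize k + r = M at z D' up rs
  obtain rfl := up.dim
  obtain ⟨u₀, D₀, fr₀, ej⟩ := (rs_iff up).1 rs
  have J0 := right_ne_zero_of_mul (ej ▸ j0)
  have y0 := left_ne_zero_of_mul (ej ▸ j0)
  by_cases h0 : q = ⊥
  · rcases c with _ | c
    · exact Nat.zero_le _
    refine (J0 ?_).elim
    rw [rh_jac up.lc pri']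
    refine Matrix.det_eq_zero_of_column_eq_zero (Fin.castAdd N 0) fun i => ?_
    rw [Matrix.of_apply, Fin.append_left]
    exact col up.lc pri' (p := (· = 0)) (fun _ _ a b => by rw [a, b, add_zero])
      (fun a ha _ _ => by rw [h0, Ideal.mem_bot] at ha; simp [ha]) i (sq 0)
  obtain ⟨R, b, bq, ce, pos, sp⟩ := rees pr.aff hq h0
  obtain ⟨n, rfl⟩ := Ba.ff_succ pr.aff.ff R
  have : Algebra.IsAlgebraic (Algebra.adjoin ℂ (R.rd '' {x | ∃ a ∈ q, x = a / b})) R.κ := ⟨sp.2⟩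
  obtain ⟨T, hT, bs⟩ := exists_isTranscendenceBasis_subset (R := ℂ)
    (R.rd '' {x | ∃ a ∈ q, x = a / b})
  obtain ⟨e⟩ := Cardinal.mk_eq_nat_iff.1 (bs.cardinalMk_eq_trdeg.trans (Cb.trdeg_κ pr.aff.ff R))
  choose v hv ev using fun i => hT (e.symm i).2
  have b0 := On.ne_of_pos pos
  obtain ⟨ind, kr⟩ := kap_rees pr.aff.ff pos (v := v) ⟨R.ord_t, fun i => sp.1 (hv i), by
    simp only [ev]; exact bs.1.comp _ e.symm.injective⟩
  choose a _ ea using hv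
  choose u hu using fun i => l.sur ((Fin.cons b a : Fin (n + 1) → S) i)
  have eu : (fun i => rh π (u i)) = (Fin.cons b fun i => b * v i : Fin (n + 1) → F) :=
    funext fun i => by
      rw [rh_coe, hu]
      refine Fin.cases rfl (fun i => ?_) i
      simp [ea, mul_div_cancel₀ _ b0]
  have hI := ker_prime π
  have ch := up.lc.chain (u := fun i => u₀ i) (w := fun i => u i) (fun i => coe_mem hI _)
    (fun i => coe_mem hI _) fr₀
  rw [eu] at ch
  have w0 := (Cb.jac_ne_iff fr₀ _).2 ind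
  have mc : ∀ i k, rh π (D' i (Fin.append f u k : S')) /
      Fin.append (fun _ => (b : F)) (fun _ => 1) k ∈ R.ring := fun i k => by
    refine Fin.addCases (fun k => ?_) (fun k => ?_) k
    · rw [Fin.append_left, Fin.append_left]
      exact col up.lc pri' (p := fun x => x / b ∈ R.ring)
        (fun _ _ s t => by rw [add_div]; exact add_mem s t) (fun s hs r hr => by
          rw [mul_div_right_comm]; exact mul_mem (sp.1 ⟨s, hs, rfl⟩) (cen_lo ce hr)) i (sq k)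
    · rw [Fin.append_right, Fin.append_right, div_one]
      exact cen_lo ce (rh_lo up.lc.ker (up.lc.der i _))
  have o1 := Cb.ord_det R (a := Matrix.of fun l m => rh π (D' l (Fin.append f u m : S')))
    (c := Fin.append (fun _ => (b : F)) fun _ => 1)
    (fun i => Fin.addCases (fun i => by simpa using b0) (fun i => by simp) i) mc
    (by rw [← rh_jac up.lc pri', ch]; exact mul_ne_zero J0 w0)
  rw [← rh_jac up.lc pri', ch, Pl.ord_mul _ J0 w0, Fin.sum_univ_add] at o1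
  simp only [Fin.append_left, Fin.append_right, Pl.ord_one, Finset.sum_const, Finset.card_univ,
    Fintype.card_fin, nsmul_eq_mul, mul_zero, add_zero] at o1
  have g0 := pr.ne
  have h1 := eq.2.1
  have m0 : (0 : ℝ) < m := Nat.cast_pos.2 pr.pos
  have Q0 : (0 : ℝ) < Q := Nat.cast_pos.2 hQ
  have d0 : j ^ (m * Q) * h ^ m ≠ 0 := mul_ne_zero (pow_ne_zero _ j0) (pow_ne_zero _ h1)
  have ou : ∀ P : Pl F, P.ord (g ^ Q / (j ^ (m * Q) * h ^ m)) =
      Q * P.ord g - (m * Q * P.ord j + m * P.ord h) := fun P => by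
    rw [Pl.ord_div _ (pow_ne_zero _ g0) d0, Pl.ord_mul _ (pow_ne_zero _ j0) (pow_ne_zero _ h1),
      Pl.ord_pow, Pl.ord_pow, Pl.ord_pow]
    push_cast; ring
  have o2 := Pl.ord_nonneg_of_mem _ (cen_lo ce ((hrt _ F S pr.aff pr.nor).2.2.1 q pri
    (g ^ Q / (j ^ (m * Q) * h ^ m)) fun P hP => Cb.mem_ord (by
      have := eq.2.2 P hP
      rw [ld, kj P hP] at this
      have e : ((Q * P.ord g - (m * Q * P.ord j + m * P.ord h) : ℤ) : ℝ) = 0 := by
        push_cast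
        field_simp at this
        linarith
      rw [ou]
      exact_mod_cast e.ge)))
  rw [ou] at o2
  have o3 := Pl.ord_nonneg_of_mem _ (cen_lo ce eq.1)
  have o4 := hy R ce
  have o5 : (R.ord j : ℝ) ≤ R.ord g / m := by
    rw [le_div_iff₀ m0]
    have a2 : (0 : ℝ) ≤ Q * R.ord g - (m * Q * R.ord j + m * R.ord h) := by exact_mod_cast o2
    have a3 : (0 : ℝ) ≤ R.ord h := by exact_mod_cast o3
    refine le_of_mul_le_mul_left ?_ Q0
    nlinarith [mul_nonneg m0.le a3]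
  rw [ld, Cb.kap_chg fr₀ y0] at o4
  rw [Cb.kap_chg fr₀ w0] at kr
  rw [ej, Pl.ord_mul _ y0 J0] at o5
  have o6 := Int.cast_le (R := ℝ).2 o1
  have p0 : (0 : ℝ) < R.ord b := by exact_mod_cast pos
  simp only [Pi.add_apply, dv_apply] at o4 kr
  push_cast at o4 o5 o6
  have : (c : ℝ) * R.ord b ≤ ((n + 1 : ℕ) : ℝ) * R.ord b := by push_cast; linarith
  exact_mod_cast le_of_mul_le_mul_right this p0

theorem aclu : ACLu := by
  intro N Q ε hQ hε
  choose J n₀ n1 n2 using fun c => acl c N Q ε hQ hε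
  refine ⟨∑ c ∈ Finset.range (N + 1), J c, ∏ c ∈ Finset.range (N + 1), n₀ c,
    Finset.prod_pos fun c _ => n1 c, ?_⟩
  intro n n0 dn dQ c F F' _ _ _ _ G S G' S' π f p q y m g h hP hl pp hq le he hy hd
  obtain ⟨w, wq, wf', k⟩ := re N c F F' G S G' S' π f hl hP.aff q hq
  have w0 : (w : F) ≠ 0 := fun e => wq ((Subtype.ext e : w = 0) ▸ q.zero_mem)
  set G₁ := Nt.inr hP.stab q
  have l1 : G₁ ≤ G := fun _ k => k.1
  have l2 : ∀ σ ∈ G, Inr S q σ → σ ∈ G₁ := fun _ a b => ⟨a, b⟩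
  have wf : Fix G₁ (w : F) := fun σ k => wf' σ k.1 k.2
  obtain ⟨c₁, E, _, _, H, T, π₁, f₁, hl₁, sq⟩ := k (Aw S w) G₁ (fun x => by
    rw [mem_Aw w0]
    exact ⟨fun ⟨s, k, e⟩ => ⟨k, by rw [e, div_mul_cancel₀ _ (pow_ne_zero _ w0)]; exact s.2⟩,
      fun ⟨k, e⟩ => ⟨⟨_, e⟩, k, (mul_div_cancel_right₀ _ (pow_ne_zero _ w0)).symm⟩⟩)
    fun _ => Iff.rfl
  obtain ⟨a1, a2, a3, a4, a5, a6⟩ := loc N F S w hP.aff w0
  obtain ⟨p₁, pp₁, op⟩ := a4 p pp fun k => wq (le k)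
  obtain ⟨q₁, qq₁, oq⟩ := a4 q hq.isPrime wq
  obtain ⟨-, b1, b2, b3, b4, -⟩ := a6 p p₁ pp₁ op
  obtain ⟨d0, d1, -, d3, -, d5⟩ := a6 q q₁ qq₁ oq
  have := hP.fin
  have hP₁ : Pr N G₁ (Aw S w) y m g := ⟨a1, a2 hP.nor, Finite.Set.subset (G : Set _) l1,
    fun σ k => a3 σ (wf σ k) (hP.stab σ (l1 k)), fun i σ k => hP.fy i σ (l1 k), hP.fr, hP.pos,
    hP.ne, fun σ k => hP.fg σ (l1 k)⟩
  have he₁ : Eqn Q (Aw S w) q₁ y m g h := ⟨d1 ▸ he.1, he.2.1, fun R k => he.2.2 R ((d3 R).2 k)⟩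
  have hd₁ : Lk Q (Aw S w) q₁ y m g h := fun q₀ k P x => by
    obtain ⟨r, r1, r2⟩ := d5 q₀ k
    exact hd r r1 P (r2 P x)
  have hy₁ : Hyp ε G₁ (Aw S w) p₁ y m g := fun P x e e0 v =>
    hy P ((b2 P).2 x) e e0 fun a a0 z => v a a0 fun σ s => z σ (l1 s)
  have hc : c₁ ∈ Finset.range (N + 1) := Finset.mem_range.2 (Nat.lt_succ_of_le
    (bnl N c₁ Q F E G₁ _ H T π₁ f₁ q₁ y m g h hQ hP₁ hl₁ (d0 hq) he₁
      (fun R x => (hd₁ q₁ le_rfl R x).1)
      (sq q₁ fun a b x e => (Subtype.ext e : b = ⟨a, le_Aw S w a.2⟩) ▸ (oq a).1 x)))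
  have le₁ := a5 p q p₁ q₁ op oq le
  have mono : ∀ R, PDat S p R → PDat S q R := fun R ⟨r, r1, r2⟩ => ⟨r, r1.trans le, r2⟩
  have he₂ : Eqn Q (Aw S w) p₁ y m g h := by
    obtain ⟨⟨s, t, ht, e⟩, h0, k⟩ := he
    exact ⟨b1 ▸ ⟨s, t, fun x => ht (le x), e⟩, h0, fun R x => k R (mono R ((b3 R).2 x))⟩
  obtain ⟨A, i, s⟩ := n2 c₁ n n0 ((Finset.dvd_prod_of_mem _ hc).trans dn) dQ F E G₁ _ H T π₁ f₁ p₁
    y m g h hP₁ hl₁ pp₁ he₂ hy₁ fun q₀ k => hd₁ q₀ (k.trans le₁)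
  obtain ⟨U, U1, U2⟩ := i.idx
  refine ⟨A, ⟨i.le.trans l1, fun σ k => (b4 σ (wf σ (i.le k)) (hP.stab σ (l1 (i.le k)))).2
    (i.inr σ k), U, U1.trans (Finset.single_le_sum (fun _ _ => Nat.zero_le _) hc),
    fun σ k x => ?_⟩, fun P k => ?_⟩
  · have z : σ ∈ G₁ := l2 σ k fun a => (x a).imp fun _ b => ⟨le b.1, b.2⟩
    exact U2 σ z ((b4 σ (wf σ z) (hP.stab σ k)).1 x)
  · obtain ⟨φ, x1, x2, x3, x4⟩ := s P ((b2 P).1 k)
    exact ⟨φ, x1, x2, fun R r => x3 R ((b3 R).1 r), x4⟩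

end Vale.Agent.P283R.Mi
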