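import Vale.Agent.P283R.Cx.Cor
import Vale.Agent.P283R.Cx.Sy
import Vale.Agent.P283R.Cx.Aclu

/-!
# P283R, block CX, step 2: the theorem for the finite groups, precise form
-/

noncomputable section

namespace Vale.Agent.P283R.Cx

open Vale.Agent.P287D

/-- **CORp** -/
theorem corp_of (h1 : AFF) (h2 : NOR) (h3 : PDV) (h4 : KAH) (h5 : GRP) (h6 : LAR) (h7 : LCI)
    (hA : Mi.ACLu) : CORp := by
  intro d k q ε q0 e0
  obtain ⟨J, n₀, n0, H⟩ := hA (d + k) q ε q0 e0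
  refine ⟨2 * n₀ * J.factorial, by nlinarith [Nat.mul_le_mul n0 J.factorial_pos], ?_⟩
  intro c K F _ _ _ _ _ _ y t T D s a f h g δ b r x fy cx ci h0 g0 hg he r0 lk U hU hy
  have ht := x.ind.ne_zero
  have A := h1 K F d k y t x fy _ T D s a cx
  have N := h2 K F d k y t x fy _ T D s a cx
  obtain ⟨G, g0', g1, g2, g3, g4⟩ := h5 K F d k y t x fy r r0
  obtain ⟨l1, l2⟩ := h6 K F d k y t x fy r r0
  obtain ⟨F', _, _, G', S', π, f', l⟩ := h7 K F d k y t x fy c r s a f G ci r0 g0'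
  obtain ⟨p, hp⟩ := Tq.exists_cen hU
  have pp := Hr.cen_prime hp
  obtain ⟨M, hM, le⟩ := p.exists_le_maximal pp.ne_top
  have P := Cr.pr (δ := δ) ht h0 q0 r0 A N g1 (g2 _ s a) g3 l1
  obtain ⟨B, i, S⟩ := H (q * (2 * n₀)) (by positivity) ((dvd_mul_left _ _).mul_left _)
    (dvd_mul_right _ _) c F F' G _ G' S' π f' p M _ _ _ _ P l pp hM le
    (Cr.eqn ht h0 g0 q0 r0 hg he (h3 K F d k y t x fy _ T D s a cx)
      (h4 K F d k y t x fy _ T D s a cx) l2 hM.isPrime)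
    (fun V c e e0 v => by
      rw [Cr.ld_tw ht h0 q0 r0 l2]
      exact hy G g0' V (fun z hz => ⟨(c ⟨z, hz⟩).1, (hp ⟨z, hz⟩).2.symm.trans (c ⟨z, hz⟩).2⟩) e e0 v)
    fun p' _ V c => by
      rw [Cr.ld_tw ht h0 q0 r0 l2]
      exact lk V fun z hz => (c ⟨z, hz⟩).1
  have S' := nt _ J _ F G B _ p _ _ _ (by positivity) P pp i S
  rw [mul_assoc] at S'
  exact Cr.back ht cx.ne h0 q0 r0 (by positivity) A N g4 l2 hp S'

end Vale.Agent.P283R.Cx
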