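import Vale.Agent.P283R.Cx.Gn
import Vale.Agent.P283R.Sl.Gk
import Vale.Agent.P283R.Bg.Fin

/-!
# P283R, block CX: rings of sections, any family of pairs `(k, N)`
-/

open CategoryTheory AlgebraicGeometry

namespace Vale.Agent.P283R.Sl

open Var

variable {q : ℕ} {p : ℕ → ℕ → Prop}

/-- birational contractions -/
theorem on_gn (h : ∀ (n : ℕ) (ε : ℝ), 0 < ε →
      ∃ M, 1 ≤ M ∧ ∀ k N, k ≤ N → p k N → Cx.QgB True N k n q ε M) :
    On fun _ _ _ f ω B z => FanoType f ω ∧ NefOver f (-logCan ω B) ∧ (∃ p, IsPull f p) ∧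
      ∃ k N, p k N ∧ CoxGn k N q f ω B z := by
  intro d hd ε hε R hR
  obtain ⟨n, rfl⟩ : ∃ n, d = n + 1 := ⟨d - 1, by omega⟩
  obtain ⟨M, M1, H⟩ := h n ε hε
  refine ⟨M, M1, fun X Z f ω B z a b c _ s t ⟨u1, u2, u3, k, N, w, V, D, hV, zV, h1, h3⟩ =>
    (has_iff f ω B _ z).2 ?_⟩
  exact (Cox.schG (X := X.o) (Z := Z.o) (b := True) M1
    (fun K _ _ u Λ Γ Γ' D s a d x => H k N (Cx.Gn.le Cx.ext Cx.aff d x) w K u Λ Γ Γ' D s a d x)
    a b ((pair_iff _ _ ω B).1 c) s ((fanoType_iff f ω).1 u1) ((nefOver_iff f _).1 u2) t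
    (fun _ => u3) hV zV h1 (fun x => (x trivial).elim) h3).2

/-- the canonical divisor is in the span -/
theorem on_gk (h : ∀ (n : ℕ) (ε : ℝ), 0 < ε →
      ∃ M, 1 ≤ M ∧ ∀ k N, k ≤ N → p k N → Cx.QgB False N k n q ε M) :
    On fun _ _ _ f ω B z => FanoType f ω ∧ NefOver f (-logCan ω B) ∧
      ∃ k N, p k N ∧ ∃ (V : _) (D : Fin k → _), IsAffineOpen V ∧ z.In V ∧
        GradedGen N (fun m => sections (pre f V) (comb D m)) ∧
        InSpan (pre f V) D (fun E => q * logCan ω B E) ∧ InSpan (pre f V) D (logCan ω 0) := by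
  intro d hd ε hε R hR
  obtain ⟨n, rfl⟩ : ∃ n, d = n + 1 := ⟨d - 1, by omega⟩
  obtain ⟨M, M1, H⟩ := h n ε hε
  refine ⟨M, M1, fun X Z f ω B z a b c _ s t ⟨u1, u2, k, N, w, V, D, hV, zV, h1, h3, h2⟩ =>
    (has_iff f ω B _ z).2 ?_⟩
  exact (Cox.schG (X := X.o) (Z := Z.o) (b := False) M1
    (fun K _ _ u Λ Γ Γ' D s a d x => H k N (Cx.Gn.le Cx.ext Cx.aff d x) w K u Λ Γ Γ' D s a d x)
    a b ((pair_iff _ _ ω B).1 c) s ((fanoType_iff f ω).1 u1) ((nefOver_iff f _).1 u2) t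
    False.elim hV zV h1 (fun _ => h2) h3).2

/-- all contractions -/
theorem on_gf (h : ∀ (n : ℕ) (ε : ℝ), 0 < ε →
      ∃ M, 1 ≤ M ∧ ∀ k N, k ≤ N → p k N → Cx.QgB True N k n q ε M)
    (h' : ∀ (n : ℕ) (ε : ℝ), 0 < ε →
      ∃ M, 1 ≤ M ∧ ∀ k N, k ≤ N → p k N → Cx.QgB False N k n q ε M) :
    On fun _ _ _ f ω B z => FanoType f ω ∧ NefOver f (-logCan ω B) ∧
      ∃ k N, p k N ∧ CoxGf k N q f ω B z :=
  ((on_gn h).or (on_gk h')).mono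
    fun _ _ _ _ _ _ _ ⟨u1, u2, k, N, w, V, D, hV, zV, h1, h3, h2⟩ => h2.imp
      (fun e => ⟨u1, u2, e, k, N, w, V, D, hV, zV, h1, h3⟩)
      fun e => ⟨u1, u2, k, N, w, V, D, hV, zV, h1, h3, e⟩

theorem qgU_of (hA : Bx.ABE) (n : ℕ) : Cx.QgU True n := fun N k q ε a b =>
  (Bg.qg hA n N k q ε a b).imp fun _ h =>
    ⟨h.1, fun K _ _ u L G G' D s a A cx all _ => h.2 K u L G G' D s a A cx (all trivial)⟩

/-- birational contractions, `N` generators -/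
theorem on_abe (hA : Bx.ABE) (hq : 1 ≤ q) (N : ℕ) :
    On fun _ _ _ f ω B z => FanoType f ω ∧ NefOver f (-logCan ω B) ∧ (∃ p, IsPull f p) ∧
      CoxGen N q f ω B z := on_gen (qgU_of hA) hq N

end Vale.Agent.P283R.Sl
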