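import Vale.Agent.P283R.Cx.Gn0
import Vale.Agent.P283R.Cx.Ext
import Vale.Agent.P283R.Cx.Aff
import Vale.Agent.P283R.Cx.Big

/-!
# P283R, block CX: rings of sections with `N` generators, the scheme side
-/

open Set CategoryTheory AlgebraicGeometry

noncomputable section

namespace Vale.Agent.P283R.Cox

open Vale.Agent.P289 (Pt St toRat DForm dimension)
open Vale.Agent.P287D Vale.Agent.P283M.Stm Vale.Agent.P283M.Stm.Var Vale.Agent.P297Z
open Vale.Agent.P283M Vale.Agent.P283M.Br Vale.Agent.P283R.Sch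

variable {X Z : Var} {n k N : ℕ} {f : X.X ⟶ Z.X} {z : Pt Z.X} {V : Z.X.Opens} {u : Finset X.K}
  {Λ : BD X.K}

theorem cg_of (bs : Base f V z u)
    (on : ∀ (P : Pl X.K) (x : Pt X.X), x ∈ f ⁻¹ᵁ V → Dom P.ring x → (On n Λ P ↔ x.CodimOne))
    {D : Fin k → X.PrimeDiv →₀ ℤ}
    (h : Sl.GradedGen N fun m => {φ : X.K | φ ≠ 0 →
      ∀ E : X.PrimeDiv, E.1 ∈ f ⁻¹ᵁ V → 0 ≤ ord φ E + ∑ i, m i * D i E}) :
    ∃ (s : Fin N → X.K) (a : _) (π : _), Cx.Gn.Cg n u Λ (fun i => up (D i)) s a π := by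
  obtain ⟨s, a, π, h1, h2⟩ := h
  choose Q e o using pl_of (X := X) plc
  refine ⟨s, a, π, fun i => ((D i).support.finite_toSet.image Q).subset ?_, h1,
    fun F => (h2 F).trans (forall_congr' fun m => imp_congr_right fun _ =>
      all_iff bs on fun P E _ dm => by rw [cf_eq D m dm, ord_eq dm])⟩
  rintro P ⟨a, b, c⟩
  obtain ⟨x, hx, dm⟩ := bs.ctr P.ring P.con a
  rw [up_eq (E := ⟨x, (on P x hx dm).1 b⟩) _ dm] at c
  refine ⟨_, Finsupp.mem_support_iff.2 c, Pl.ext' (congrArg _ (Pl.eq_of_le'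
    (v := (Q _).toPlace) (w := P.toPlace) fun g hg => (dm g ((e _ g).1 hg)).1))⟩

/-- the scheme side -/
theorem schG {b : Prop} {r M : ℕ} {ε : ℝ} (M1 : 1 ≤ M) (hM : Cx.QgB b N k n r ε M)
    {ω : DForm ℂ X.K (n + 1)} {B : X.QDiv} (hdim : dimension X.str = (n + 1 : ℕ))
    (hω : ω.Nonzero) (hB : Pair (ε ≤ ·) ⊤ ω B) (hf : Contraction f) (hF : FanoType f ω)
    (hn : NefOver f (-logCan ω B)) (hz : IsClosed ({z} : Set (Pt Z.X)))
    (hb : b → Stm.Birational f) (hV : IsAffineOpen V) (zV : z ∈ V)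
    {D : Fin k → X.PrimeDiv →₀ ℤ}
    (h1 : Sl.GradedGen N fun m => {φ : X.K | φ ≠ 0 →
      ∀ E : X.PrimeDiv, E.1 ∈ f ⁻¹ᵁ V → 0 ≤ ord φ E + ∑ i, m i * D i E})
    (h2 : ¬ b → InSpan (f ⁻¹ᵁ V) D (logCan ω 0))
    (h3 : InSpan (f ⁻¹ᵁ V) D fun E => r * logCan ω B E) :
    k ≤ N ∧ HasKltComplement f ω B M z := by
  obtain ⟨u, bs⟩ := basV hf hz hV zV
  have hK := ffd X _ hdim
  obtain ⟨Λ, Γ, Γ', a, on, b, b', c, e⟩ := dataW hK hω hB hf hF bs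
  obtain ⟨s, w, π, ci⟩ := cg_of bs on h1
  obtain ⟨j, j0, fr⟩ := frm X _ hK ω hω
  have := Cx.Gn.qb Cx.ext Cx.aff Cx.big _ N n r ε M k X.K u Λ Γ Γ' _ s w π a (fun t x => ?_)
    (fun t => sp_of bs on (h2 t) j0 fun P E _ dm => ?_) ci
    (sp_of bs on h3 (pow_ne_zero r j0) fun P E c dm => ?_) b
    ((all_iff bs on (p := fun E => 0 ≤ B E) fun P E c dm => ?_).1 fun E _ => hB.1 E trivial)
    (c hn)
  · obtain ⟨i, l, rfl, H⟩ := this
    exact ⟨l, e M M1 (H hM)⟩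
  · obtain ⟨p, hp⟩ := hb t
    obtain ⟨A, χ, hA⟩ := P283R.Br.exists_bs hf hp hV zV hz
    obtain ⟨a, ha, b, hb, h⟩ := hA.frK hV zV x
    exact ⟨a, bs.con a ((hA.mem a).1 ha), b, bs.con b ((hA.mem b).1 hb), h⟩
  · rw [← fr X _ E P (is_of_dom dm) (ord_eq dm), logCan]
    simp
  · have h4 := b' P E c dm
    have h5 := fr X _ E P (is_of_dom dm) (ord_eq dm)
    rw [dsc, Pi.sub_apply] at h4
    rw [logCan, Pl.ord_pow, Pi.smul_apply, smul_eq_mul]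
    push_cast
    rw [h5]
    linear_combination r * h4
  · rw [b' P E c dm, neg_nonpos, Rat.cast_nonneg]

theorem InSpan.add {W : X.X.Opens} {D : Fin k → X.PrimeDiv →₀ ℤ} {G G' G'' : X.PrimeDiv → ℚ}
    (h : InSpan W D G) (h' : InSpan W D G') (r : ℕ) (e : ∀ E, G'' E = r * G E + G' E) :
    InSpan W D G'' := by
  obtain ⟨m, φ, φ0, h⟩ := h
  obtain ⟨m', ψ, ψ0, h'⟩ := h'
  refine ⟨(r : ℤ) • m + m', φ ^ r * ψ, mul_ne_zero (pow_ne_zero _ φ0) ψ0, fun E c => ?_⟩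
  obtain ⟨P, o, w⟩ := pl_of (X := X) plc E
  rw [e, h E c, h' E c, w, w, w, Pl.ord_mul _ (pow_ne_zero _ φ0) ψ0, Pl.ord_pow]
  simp only [Pi.add_apply, Pi.smul_apply, smul_eq_mul, add_mul, mul_assoc, Finset.sum_add_distrib,
    ← Finset.mul_sum]
  push_cast
  ring

end Vale.Agent.P283R.Cox

namespace Vale.Agent.P283R.Sl

open Var

variable {q : ℕ}

/-- birational contractions -/
theorem on_gen (h : ∀ n, Cx.QgU True n) (hq : 1 ≤ q) (N : ℕ) :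
    On fun _ _ _ f ω B z => FanoType f ω ∧ NefOver f (-logCan ω B) ∧ (∃ p, IsPull f p) ∧
      CoxGen N q f ω B z := by
  intro d hd ε hε R hR
  obtain ⟨n, rfl⟩ : ∃ n, d = n + 1 := ⟨d - 1, by omega⟩
  choose M M1 H using fun k => h n N k q ε hq hε
  refine ⟨∏ k ∈ Finset.range (N + 1), M k, Finset.one_le_prod' fun k _ => M1 k,
    fun X Z f ω B z a b c _ s t ⟨u1, u2, u3, k, V, D, hV, zV, h1, h3⟩ => ?_⟩
  obtain ⟨l, w⟩ := Cox.schG (X := X.o) (Z := Z.o) (M1 k) (H k) a b ((pair_iff _ _ ω B).1 c) s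
    ((fanoType_iff f ω).1 u1) ((nefOver_iff f _).1 u2) t (fun _ => u3) hV zV h1
    (fun x => (x trivial).elim) h3
  exact ((has_iff f ω B _ z).2 w).of_dvd
    (Finset.dvd_prod_of_mem _ (Finset.mem_range.2 (Nat.lt_succ_of_le l)))

/-- all contractions -/
theorem on_genK (h : ∀ n, Cx.QgU False n) (hq : 1 ≤ q) (N : ℕ) :
    On fun _ _ _ f ω B z => FanoType f ω ∧ NefOver f (-logCan ω B) ∧ CoxGenK N q f ω B z := by
  intro d hd ε hε R hR
  obtain ⟨n, rfl⟩ : ∃ n, d = n + 1 := ⟨d - 1, by omega⟩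
  choose M M1 H using fun k => h n N k q ε hq hε
  refine ⟨∏ k ∈ Finset.range (N + 1), M k, Finset.one_le_prod' fun k _ => M1 k,
    fun X Z f ω B z a b c _ s t ⟨u1, u2, k, V, D, hV, zV, h1, h2, h3⟩ => ?_⟩
  obtain ⟨l, w⟩ := Cox.schG (X := X.o) (Z := Z.o) (M1 k) (H k) a b ((pair_iff _ _ ω B).1 c) s
    ((fanoType_iff f ω).1 u1) ((nefOver_iff f _).1 u2) t False.elim hV zV h1
    (fun _ => h2) (Cox.InSpan.add h2 h3 q fun E =>
      (mul_add _ _ _).trans (congrArg (fun x : ℚ => q * x + q * B.coeff E) (add_zero _).symm))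
  exact ((has_iff f ω B _ z).2 w).of_dvd
    (Finset.dvd_prod_of_mem _ (Finset.mem_range.2 (Nat.lt_succ_of_le l)))

end Vale.Agent.P283R.Sl
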