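import Vale.Agent.P283R.Cx.Sy
import Vale.Agent.P283R.Cy.Tpb

/-!
# P283R, block CX, step 2: `ε`-lc and nef in terms of weights
-/

open Set

noncomputable section

namespace Vale.Agent.P283R.Cx

open Vale.Agent.P287D Vale.Agent.P283M Vale.Agent.P283R.Cy Vale.Agent.P283R.Cy.Tpb

namespace Hwr

variable {K : Type} [Field K] [Algebra ℂ K] {k N n q : ℕ} {ε : ℝ} {u : Finset K} {Λ Γ Γ' : BD K}
  {y : Fin (n + 1) → K} {D : Pl K → Fin k → ℤ} {s : Fin N → K} {a : Fin N → Fin k → ℤ} {h₀ g : K}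
  {e₀ b : Fin k → ℤ}

/-- the equation of `q (K + B)` -/
theorem eqv' (x : Dy n q ε u Λ Γ Γ' y D s a h₀ g e₀ b) :
    Eqv (Tt n u Λ) D ((q : ℝ) • Γ) (h₀ ^ q * g) ((q : ℤ) • e₀ + b) :=
  eqv (x.cn ▸ x.can) x.bdy

/-- nef in terms of weights -/
theorem nef (hq : 0 < q) (x : Dy n q ε u Λ Γ Γ' y D s a h₀ g e₀ b) {P : Pl K} {ξ : Fin k → ℝ}
    (H : ∀ j, 0 ≤ (P.ord (s j) : ℝ) + pa (a j) ξ) :
    (P.ord (h₀ ^ q * g) + pa ((q : ℤ) • e₀ + b) ξ) / q ≤ Γ P := by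
  have o := ov x.cox H
  have e := eqv' x
  have q0 : (0 : ℝ) < q := Nat.cast_pos.2 hq
  have k : ∀ τ : ℝ, 0 < τ → -Γ P - τ * Γ' P ≤
      -(q : ℝ)⁻¹ * (P.ord (h₀ ^ q * g) + pa ((q : ℤ) • e₀ + b) ξ) + -τ * (P.ord h₀ + pa e₀ ξ) :=
    fun τ τ0 => neg x.cox (fun E hE => hE.1) o H (x.nef τ τ0) e.1 x.can.1 fun E hE => by
      have k1 := e.2 E hE
      have k2 := x.can.2 E hE
      have k3 := x.dat.bdy E hE.1 hE.2
      simp only [dsc, x.cn, Pi.sub_apply, Pi.smul_apply, Pi.neg_apply, smul_eq_mul] at k1 k3 ⊢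
      rw [Int.cast_add, Int.cast_add, ← k1, ← k2, neg_mul, inv_mul_cancel_left₀ q0.ne']
      nlinarith
  rw [div_eq_inv_mul, ← neg_le_neg_iff, ← neg_mul]
  refine le_of_forall_pos_le_add fun η η0 => ?_
  obtain ⟨r, hr⟩ : ∃ r, r = Γ' P - (P.ord h₀ + pa e₀ ξ) := ⟨_, rfl⟩
  have := k (η / (|r| + 1)) (by positivity)
  have k4 : η / (|r| + 1) * -r ≤ η := by
    rw [div_mul_eq_mul_div, div_le_iff₀ (by positivity)]
    nlinarith [neg_abs_le r]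
  have k5 : η / (|r| + 1) * r ≤ η := by
    rw [div_mul_eq_mul_div, div_le_iff₀ (by positivity)]
    nlinarith [le_abs_self r]
  rw [hr] at k5
  rw [hr] at this
  nlinarith

end Hwr

/-- **HWR** -/
theorem hwr : HWR := fun _ _ _ _ _ _ _ _ _ _ _ _ _ _ _ _ _ _ _ _ hq x P ξ H => by
  have k := Hwr.nef hq x H
  have := x.lc P (ov x.cox H)
  rw [dsc, x.cn, Pi.sub_apply] at this
  linarith

end Vale.Agent.P283R.Cx
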